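import Vale.Agent.P301.H862.Ellip

/-!
# P301, index theorem: BKN on the space of sections; the structures `Ell` and `Grading`
-/

open scoped Manifold ContDiff ComplexOrder Topology Matrix ComplexConjugate
open Vale.Agent.P272.K Vale.Agent.P272.K.C2 Vale.Agent.P299.H954 Vale.Agent.P299.IX
open Vale.Agent.P301.H599 MeasureTheory Set Filter Vale.Agent.P299.H863
open Vale.Agent.P299.IX.Fock
open Vale.Agent.P272.K.INT (intX IsDensity intX_add intX_sub intX_const_mul intX_congr intX_nonneg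
  intX_mono intX_of_support intX_sum)

set_option linter.unusedSectionVars false

noncomputable section

namespace Vale.Agent.P301.H862

variable {d : ℕ} {X : Type} [TopologicalSpace X] {ι : Type} [ChartedSpace (Cm d) X]
  [IsManifold 𝓘(ℂ, Cm d) ω X] [T2Space X] [CompactSpace X]
  {B B' : HB d X ι} {g h : Fam d X ι} {i j : ι} {e e' : Chart d X} {x : X} {z : Cm d}
  {L : LineBundle d X ι}

namespace HB

/-! ### the zeroth order term -/

/-- the matrix of the zeroth order term of BKN -/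
def Qm (B : HB d X ι) (i : ι) (e : Chart d X) (z : Cm d) : Matrix (FI d) (FI d) ℂ :=
  ∑ l, ∑ b, cHess (wt B.ρ i e) z l b • (epd b (B.w e) z * eps l)

theorem Qm_mulVec (i : ι) (e : Chart d X) (z : Cm d) (u : FI d → ℂ) :
    B.Qm i e z *ᵥ u = Qw (wt B.ρ i e) (B.w e) z u := by
  simp only [Qm, Qw, Matrix.sum_mulVec, Matrix.smul_mulVec, Matrix.mulVec_mulVec]

theorem Qm_smooth (B : HB d X ι) (hx : At e x) (hi : x ∈ B.L.U i) : MC ∞ (B.Qm i e) (e x) := by
  intro p q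
  simp only [Qm, Matrix.sum_apply, Matrix.smul_apply, smul_eq_mul]
  refine ContDiffAt.sum fun l _ => ContDiffAt.sum fun b _ => ?_
  refine (contDiffAt_cHess (B.metric.smooth i e x hx hi) l b).mul ?_
  exact ((MC_epd (kat B.kahler hx) b).mul (MC_const _)) p q

/-- `Re ⟨Q s, s⟩` -/
def qf (B : HB d X ι) (s : B.S) : ℝ := (B.ipB (QX B.ρ B.w s.f) s.f).re

theorem exists_qf_le (B : HB d X ι) : ∃ C : ℝ, 0 ≤ C ∧ ∀ s : B.S, |B.qf s| ≤ C * ‖s‖ ^ 2 := by
  obtain ⟨C, hC0, hC⟩ := bounded_of_local B B (fun _ => subset_rfl) (B.Qm)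
    (fun i e x hx hi => B.Qm_smooth hx hi)
  refine ⟨C, hC0, fun s => ?_⟩
  have hQ := s.isSec.QX B.metric B.kahler
  have h1 := hC s (mkS _ hQ) (fun i e x hx hi => by
    rw [mkS_at _ hx hi, Qm_mulVec]; rfl)
  have h2 : B.ipB (QX B.ρ B.w s.f) s.f = inner ℂ s (mkS _ hQ : B.S) := by
    rw [inner_eq]
    exact ipB_congr (fun i e x hx hi => (mkS_at hQ hx hi).symm) (fun _ _ _ _ _ => rfl)
  rw [qf, h2]
  calc |(inner ℂ s (mkS _ hQ : B.S)).re| ≤ ‖inner ℂ s (mkS _ hQ : B.S)‖ :=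
        Complex.abs_re_le_norm _
    _ ≤ ‖s‖ * ‖(mkS _ hQ : B.S)‖ := norm_inner_le_norm _ _
    _ ≤ ‖s‖ * (C * ‖s‖) := by gcongr
    _ = _ := by ring

/-- **BKN** -/
theorem bkn (s : B.S) : ‖B.Dp s‖ ^ 2 + ‖B.Dd s‖ ^ 2 = B.qf s + B.grad s := by
  have h := congrArg Complex.re (H862.bkn B.metric B.kahler s.isSec)
  rw [Complex.add_re, Complex.add_re] at h
  rw [norm_sq_eq, norm_sq_eq, qf, grad,
    ipB_congr (g := (B.Dp s).f) (h := (B.Dp s).f) (g' := DX B.ρ s.f) (h' := DX B.ρ s.f)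
      (fun i e x hx hi => Dp_at s hx hi) (fun i e x hx hi => Dp_at s hx hi),
    ipB_congr (g := (B.Dd s).f) (h := (B.Dd s).f) (g' := dX B.w s.f) (h' := dX B.w s.f)
      (fun i e x hx hi => Dd_at s hx hi) (fun i e x hx hi => Dd_at s hx hi)]
  exact h

theorem norm_D_sq (s : B.S) : ‖B.D s‖ ^ 2 = ‖B.Dp s‖ ^ 2 + ‖B.Dd s‖ ^ 2 := by
  have h : inner ℂ (B.Dp s) (B.Dd s) = 0 := by
    have h1 := inner_Dp (B := B) (B.Dp s) s
    rw [Dp_Dp, inner_zero_left] at h1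
    exact h1.symm
  rw [D_eq, @norm_add_sq ℂ, h]
  simp

theorem exists_grad_le (B : HB d X ι) : ∃ C : ℝ, 0 ≤ C ∧ ∀ s : B.S,
    B.grad s ≤ ‖B.D s‖ ^ 2 + C * ‖s‖ ^ 2 := by
  obtain ⟨C, hC0, hC⟩ := B.exists_qf_le
  refine ⟨C, hC0, fun s => ?_⟩
  have h1 := bkn s
  have h2 := hC s
  rw [norm_D_sq, h1]
  have h3 := neg_abs_le (B.qf s)
  linarith

theorem exists_n2_le (B : HB d X ι) (T : Triv B.L) (a : Fin T.N) {ψ : Cm d → ℝ}
    (hψ : TestV (T.cov.Ω a) ψ) (b : Fin d) : ∃ C : ℝ, 0 ≤ C ∧ ∀ s : B.S,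
      n2 volume (fun z => ψ z • dbv b ((B.locSp T).r a s) z) ≤ C * (‖s‖ + ‖B.D s‖) := by
  obtain ⟨C, hC0, hC⟩ := B.exists_dbar_le T a hψ b
  obtain ⟨C', hC'0, hC'⟩ := B.exists_grad_le
  refine ⟨Real.sqrt (C * (1 + C')), Real.sqrt_nonneg _, fun s => ?_⟩
  refine abs_le_of_sq_le_sq' ?_ (by positivity) |>.2
  rw [mul_pow, Real.sq_sqrt (by positivity)]
  refine (hC s).trans ?_
  have h1 := hC' s
  have h2 : ‖B.D s‖ ^ 2 + C' * ‖s‖ ^ 2 ≤ (1 + C') * (‖s‖ + ‖B.D s‖) ^ 2 := by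
    nlinarith [norm_nonneg s, norm_nonneg (B.D s), mul_nonneg (norm_nonneg s) (norm_nonneg (B.D s)),
      mul_nonneg hC'0 (sq_nonneg (‖B.D s‖)), mul_nonneg hC'0 (mul_nonneg (norm_nonneg s)
      (norm_nonneg (B.D s)))]
  calc C * B.grad s ≤ C * ((1 + C') * (‖s‖ + ‖B.D s‖) ^ 2) := by
        gcongr; exact h1.trans h2
    _ = _ := by ring

theorem totallyBounded (B : HB d X ι) :
    TotallyBounded {s : B.S | ‖s‖ ≤ 1 ∧ ‖B.D s‖ ≤ 1} := by
  obtain ⟨T⟩ := exists_triv B.L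
  refine (B.locSp T).totallyBounded_of_dbar (C₀ := 1) (fun s hs => hs.1) fun a b => ?_
  obtain ⟨C, hC0, hC⟩ := B.exists_n2_le T a (T.cov.test a) b
  refine ⟨C * 2, fun s hs => (hC s).trans ?_⟩
  gcongr
  linarith [hs.1, hs.2]

/-! ### degrees -/

theorem dgc_congr {c c' : ℕ → ℂ} (h : ∀ q ≤ d, c q = c' q) (s : B.S) : B.dgc c s = B.dgc c' s := by
  apply S.ext_f
  intro i e x hx hi
  rw [dgc_at _ _ hx hi, dgc_at _ _ hx hi]
  ext I
  rw [dgl_mulVec, dgl_mulVec, h _ (by simpa using Finset.card_le_univ I)]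

theorem dgc_one (s : B.S) : B.dgc (fun _ => 1) s = s := by
  apply S.ext_f
  intro i e x hx hi
  rw [dgc_at _ _ hx hi]
  ext I
  rw [dgl_mulVec, one_mul]

theorem dgc_zero (s : B.S) : B.dgc (fun _ => 0) s = 0 := by
  apply S.ext_f
  intro i e x hx hi
  rw [dgc_at _ _ hx hi]
  ext I
  rw [dgl_mulVec, zero_mul]; rfl

theorem dgc_smul (c' : ℂ) (c : ℕ → ℂ) (s : B.S) : B.dgc (fun p => c' * c p) s = c' • B.dgc c s := by
  apply S.ext_f
  intro i e x hx hi
  show _ = c' • (B.dgc c s).f i e (e x)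
  rw [dgc_at _ _ hx hi, dgc_at _ _ hx hi]
  ext I
  rw [dgl_mulVec, Pi.smul_apply, dgl_mulVec, smul_eq_mul, mul_assoc]

theorem dgc_sum {α : Type*} (t : Finset α) (c : α → ℕ → ℂ) (s : B.S) :
    B.dgc (fun p => ∑ a ∈ t, c a p) s = ∑ a ∈ t, B.dgc (c a) s := by
  apply S.ext_f
  intro i e x hx hi
  rw [S.sum_f, dgc_at _ _ hx hi]
  simp only [Finset.sum_apply]
  rw [Finset.sum_congr rfl fun a _ => dgc_at (c a) s hx hi]
  ext I
  rw [dgl_mulVec, Finset.sum_apply, Finset.sum_mul]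
  exact Finset.sum_congr rfl fun a _ => (dgl_mulVec _ _ _).symm

/-- the parity -/
def par (B : HB d X ι) : B.S →ₗ[ℂ] B.S := B.dgc fun p => (-1) ^ p

/-- the component of degree `p` -/
def dg (B : HB d X ι) (p : ℕ) : B.S →ₗ[ℂ] B.S := B.dgc fun q => if q = p then 1 else 0

theorem par_sq (s : B.S) : B.par (B.par s) = s := by
  rw [par, dgc_dgl]
  conv_rhs => rw [← dgc_one s]
  refine dgc_congr (fun q _ => ?_) s
  rw [← mul_pow]; norm_num

theorem par_symm (s t : B.S) : inner ℂ (B.par s) t = inner ℂ s (B.par t) := by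
  rw [par, inner_dgl]
  congr 1
  refine dgc_congr (fun q _ => ?_) t
  rw [map_pow, map_neg, map_one]

theorem Dp_par (s : B.S) : B.Dp (B.par s) = -B.par (B.Dp s) := by
  have h1 := Dp_dgl (B := B) (fun p => (-1) * (-1 : ℂ) ^ p) s
  have h2 : B.dgc (fun p => (-1) * (-1 : ℂ) ^ p) (B.Dp s) = -B.par (B.Dp s) := by
    rw [dgc_smul, neg_one_smul]; rfl
  refine Eq.trans ?_ (h1.trans h2)
  congr 1
  refine dgc_congr (fun q _ => ?_) s
  rw [pow_succ]; ring

theorem Dd_par (s : B.S) : B.Dd (B.par s) = -B.par (B.Dd s) := by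
  refine (Dd_dgl (B := B) (fun p => (-1 : ℂ) ^ p) s).trans ?_
  have h1 : (fun p : ℕ => (-1 : ℂ) ^ (p + 1)) = fun p => (-1) * (-1) ^ p := by
    funext p; rw [pow_succ]; ring
  rw [h1, dgc_smul, neg_one_smul]; rfl

theorem D_par (s : B.S) : B.D (B.par s) = -B.par (B.D s) := by
  rw [D_eq, D_eq, Dp_par, Dd_par, map_add]; abel

theorem dg_dg (p q : ℕ) (s : B.S) : B.dg p (B.dg q s) = if p = q then B.dg p s else 0 := by
  rw [dg, dg, dgc_dgl]
  split_ifs with h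
  · subst h
    refine dgc_congr (fun r _ => ?_) s
    split_ifs <;> simp
  · rw [← dgc_zero s]
    refine dgc_congr (fun r _ => ?_) s
    split_ifs with h1 h2
    · exact absurd (h1.symm.trans h2) h
    all_goals simp

theorem dg_symm (p : ℕ) (s t : B.S) : inner ℂ (B.dg p s) t = inner ℂ s (B.dg p t) := by
  rw [dg, inner_dgl]
  congr 1
  refine dgc_congr (fun q _ => ?_) t
  split_ifs <;> simp

theorem dg_sum (s : B.S) : ∑ p ∈ Finset.range (d + 1), B.dg p s = s := by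
  simp only [dg]
  rw [← dgc_sum]
  conv_rhs => rw [← dgc_one s]
  refine dgc_congr (fun q hq => ?_) s
  rw [Finset.sum_ite_eq, if_pos (Finset.mem_range.2 (Nat.lt_succ_of_le hq))]

theorem par_eq (s : B.S) : B.par s = ∑ p ∈ Finset.range (d + 1), (-1 : ℂ) ^ p • B.dg p s := by
  simp only [dg, ← dgc_smul]
  rw [← dgc_sum]
  refine dgc_congr (fun q hq => ?_) s
  rw [Finset.sum_congr rfl fun p _ => mul_ite _ _ _ _]
  simp only [mul_one, mul_zero]
  rw [Finset.sum_ite_eq, if_pos (Finset.mem_range.2 (Nat.lt_succ_of_le hq))]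

theorem dg_big (p : ℕ) (hp : d < p) (s : B.S) : B.dg p s = 0 := by
  rw [dg, ← dgc_zero s]
  refine dgc_congr (fun q hq => ?_) s
  rw [if_neg (by omega)]

theorem norm_sq_dg (s : B.S) : ‖s‖ ^ 2 = ∑ p ∈ Finset.range (d + 1), ‖B.dg p s‖ ^ 2 := by
  have h1 : inner ℂ s s = ∑ p ∈ Finset.range (d + 1), inner ℂ (B.dg p s) (B.dg p s) := by
    conv_lhs => rw [← dg_sum s]
    rw [sum_inner]
    refine Finset.sum_congr rfl fun p _ => ?_
    rw [dg_sum, dg_symm p s (B.dg p s), dg_dg, if_pos rfl, ← dg_symm]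
  have h2 := congrArg Complex.re h1
  rw [Complex.re_sum] at h2
  have h3 : ∀ t : B.S, (inner ℂ t t).re = ‖t‖ ^ 2 := fun t =>
    inner_self_eq_norm_sq (𝕜 := ℂ) t
  simpa only [h3] using h2

theorem Dp_dg (p : ℕ) (s : B.S) : B.Dp (B.dg p s) = B.dg (p + 1) (B.Dp s) := by
  refine Eq.trans ?_ (Dp_dgl (B := B) (fun q => if q = p + 1 then 1 else 0) s)
  congr 1
  refine dgc_congr (fun q _ => ?_) s
  simp only [Nat.add_right_cancel_iff]

theorem dg_zero_Dp (s : B.S) : B.dg 0 (B.Dp s) = 0 := by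
  refine (Dp_dgl (B := B) (fun q => if q = 0 then 1 else 0) s).symm.trans ?_
  rw [← map_zero B.Dp]
  congr 1
  rw [← dgc_zero s]
  refine dgc_congr (fun q _ => ?_) s
  rw [if_neg (Nat.succ_ne_zero q)]

theorem Dd_dg_succ (p : ℕ) (s : B.S) : B.Dd (B.dg (p + 1) s) = B.dg p (B.Dd s) := by
  refine (Dd_dgl (B := B) (fun q => if q = p + 1 then 1 else 0) s).trans ?_
  refine dgc_congr (fun q _ => ?_) _
  simp only [Nat.add_right_cancel_iff]

theorem Dd_dg_zero (s : B.S) : B.Dd (B.dg 0 s) = 0 := by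
  refine (Dd_dgl (B := B) (fun q => if q = 0 then 1 else 0) s).trans ?_
  rw [← dgc_zero (B.Dd s)]
  refine dgc_congr (fun q _ => ?_) _
  rw [if_neg (Nat.succ_ne_zero q)]

theorem norm_D_dg (s : B.S) :
    ‖B.D s‖ ^ 2 = ∑ p ∈ Finset.range (d + 1), ‖B.D (B.dg p s)‖ ^ 2 := by
  simp only [norm_D_sq, Finset.sum_add_distrib]
  congr 1
  · rw [Finset.sum_congr rfl fun p _ => by rw [Dp_dg], norm_sq_dg (B.Dp s), Finset.sum_range_succ',
      Finset.sum_range_succ (fun p => ‖B.dg (p + 1) (B.Dp s)‖ ^ 2), dg_zero_Dp,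
      dg_big (d + 1) (Nat.lt_succ_self d)]
  · have h1 : B.dg d (B.Dd s) = 0 := by
      rw [← Dd_dg_succ, dg_big (d + 1) (Nat.lt_succ_self d), map_zero]
    have h2 : ∑ p ∈ Finset.range d, ‖B.dg p (B.Dd s)‖ ^ 2 =
        ∑ p ∈ Finset.range d, ‖B.Dd (B.dg (p + 1) s)‖ ^ 2 :=
      Finset.sum_congr rfl fun p _ => by rw [Dd_dg_succ]
    rw [norm_sq_dg (B.Dd s), Finset.sum_range_succ (fun p => ‖B.dg p (B.Dd s)‖ ^ 2), h1,
      Finset.sum_range_succ' (fun p => ‖B.Dd (B.dg p s)‖ ^ 2), Dd_dg_zero, h2, norm_zero]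

/-- the elliptic structure -/
def ell (B : HB d X ι) : Ell B.S where
  D := B.D
  par := B.par
  J := (B.locSp (Classical.choice (exists_triv B.L))).J
  symm := D_symm
  par_sq := par_sq
  par_symm := par_symm
  anti := D_par
  smoothing := (B.locSp (Classical.choice (exists_triv B.L))).smoothing
  comm := B.comm _
  tb := B.totallyBounded

/-- the grading -/
def grading (B : HB d X ι) : B.ell.Grading d where
  dg := B.dg
  idem p u := by rw [dg_dg, if_pos rfl]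
  symm := dg_symm
  orth p q hpq u := by rw [dg_dg, if_neg hpq]
  sum := dg_sum
  par := par_eq
  norm_D := norm_D_dg

end HB

end Vale.Agent.P301.H862
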