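import Vale.Agent.P301.H862.EllS

/-!
# P301, index theorem: multiplication by sections of powers of `L`
-/

open scoped Manifold ContDiff ComplexOrder Topology Matrix ComplexConjugate
open Vale.Agent.P272.K Vale.Agent.P272.K.C2 Vale.Agent.P299.H954 Vale.Agent.P299.IX
open Vale.Agent.P301.H599 MeasureTheory Set Filter Vale.Agent.P299.H863
open Vale.Agent.P299.IX.Fock

set_option linter.unusedSectionVars false

noncomputable section

namespace Vale.Agent.P301.H862

section loc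

variable {n : ℕ} {w : Cm n → Matrix (Fin n) (Fin n) ℂ} {f f' : Cm n → ℝ} {z : Cm n}
  {a b : Cm n → FI n → ℂ} {c : Cm n → ℂ}

/-- the matrix of the commutator of `D' + δ` with multiplication by `c` -/
def cmM (w : Cm n → Matrix (Fin n) (Fin n) ℂ) (f f' : Cm n → ℝ) (c : Cm n → ℂ) (z : Cm n) :
    Matrix (FI n) (FI n) ℂ :=
  ∑ l, (dz l c z - c z * (dz l (cw f') z - dz l (cw f) z)) • eps l - ∑ b, dzb b c z • epd b w z

theorem comm_DD (hc : ContDiffAt ℝ 1 c z) (ha : VC 1 a z) :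
    (Dw f' (fun y => c y • a y) z + De w (fun y => c y • a y) z) - c z • (Dw f a z + De w a z) =
      cmM w f f' c z *ᵥ a z := by
  have h1 : Dw f' (fun y => c y • a y) z - c z • Dw f a z =
      (∑ l, (dz l c z - c z * (dz l (cw f') z - dz l (cw f) z)) • eps l) *ᵥ a z := by
    simp only [Dw, Finset.smul_sum, Matrix.sum_mulVec]
    rw [← Finset.sum_sub_distrib]
    refine Finset.sum_congr rfl fun l _ => ?_
    rw [DV_smul hc ha, ← Matrix.mulVec_smul, ← Matrix.mulVec_sub, Matrix.smul_mulVec,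
      ← Matrix.mulVec_smul]
    congr 1
    simp only [smul_sub, sub_smul, smul_smul, mul_sub]
    rw [mul_comm (dz l (cw f') z) (c z)]
    abel
  have h2 : De w (fun y => c y • a y) z - c z • De w a z =
      -((∑ b, dzb b c z • epd b w z) *ᵥ a z) := by
    simp only [De, smul_neg, Finset.smul_sum, Matrix.sum_mulVec]
    rw [sub_neg_eq_add, neg_add_eq_sub, ← neg_sub, ← Finset.sum_sub_distrib]
    congr 1
    refine Finset.sum_congr rfl fun l _ => ?_
    rw [DVb_smul hc ha, ← Matrix.mulVec_smul, ← Matrix.mulVec_sub, Matrix.smul_mulVec,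
      ← Matrix.mulVec_smul]
    congr 1
    abel
  rw [smul_add, add_sub_add_comm, h1, h2, cmM, Matrix.sub_mulVec, sub_eq_add_neg]

theorem MC_cmM (h : KAt w z) (hf : ContDiffAt ℝ ∞ f z) (hf' : ContDiffAt ℝ ∞ f' z)
    (hc : ContDiffAt ℝ ∞ c z) : MC ∞ (cmM w f f' c) z := by
  intro p q
  simp only [cmM, Matrix.sub_apply, Matrix.sum_apply, Matrix.smul_apply, smul_eq_mul]
  refine ContDiffAt.sub (ContDiffAt.sum fun l _ => ?_) (ContDiffAt.sum fun b _ => ?_)
  · refine ContDiffAt.mul ?_ contDiffAt_const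
    refine (contDiffAt_dz l hc inf_add_one).sub (hc.mul ?_)
    exact (contDiffAt_dz l (cw_contDiffAt hf') inf_add_one).sub
      (contDiffAt_dz l (cw_contDiffAt hf) inf_add_one)
  · exact (contDiffAt_dzb b hc inf_add_one).mul (MC_epd h b p q)

end loc

variable {d : ℕ} {X : Type} [TopologicalSpace X] {ι : Type} [ChartedSpace (Cm d) X]

/-- multiplication by `c` maps sections of `L^k` to sections of `L^k'` -/
structure IsMul (L : LineBundle d X ι) (k k' : ℕ) (c : ι → X → ℂ) : Prop where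
  smooth : ∀ i (e : Chart d X) x, At e x → x ∈ L.U i →
    ContDiffAt ℝ ∞ (fun z => c i (e.symm z)) (e x)
  change : ∀ i j x, x ∈ L.U i → x ∈ L.U j → c i x * L.g i j x ^ k = L.g i j x ^ k' * c j x

variable {L : LineBundle d X ι} {k k' k'' : ℕ} {c c' : ι → X → ℂ} {B : HB d X ι}
  {g h : Fam d X ι} {i j : ι} {e e' : Chart d X} {x : X} {z : Cm d}

theorem IsSec.mulF (hc : IsMul L k k' c) (hg : IsSec (powL L k) g) :
    IsSec (powL L k') (mulF c g) where
  smooth i e x hx hi := VC.smul (hc.smooth i e x hx hi) (hg.smooth i e x hx hi)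
  change i j e e' x hx h' hi hj := by
    show c i (e.symm (e x)) • g i e (e x) =
      (L.g i j x ^ k' • lam (jacM e e' x)ᵀ) *ᵥ (c j (e'.symm (e' x)) • g j e' (e' x))
    rw [hx.left_inv, h'.left_inv, hg.change i j e e' x hx h' hi hj]
    show c i x • ((L.g i j x ^ k • lam (jacM e e' x)ᵀ) *ᵥ _) = _
    rw [Matrix.smul_mulVec, Matrix.smul_mulVec, Matrix.mulVec_smul, smul_smul, smul_smul,
      hc.change i j x hi hj]

namespace HB

/-- multiplication -/
def opM (B : HB d X ι) (c : ι → X → ℂ) (hc : IsMul B.L k k' c) : Opr (B.pow k) (B.pow k') where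
  F := mulF c
  dom _ := subset_rfl
  sec hg := hg.mulF hc
  add _ _ _ _ _ _ _ := smul_add _ _ _
  smul q g _ i e x _ _ := smul_comm (c i (e.symm (e x))) q (g i e (e x))

/-- multiplication -/
def mul (B : HB d X ι) (c : ι → X → ℂ) (hc : IsMul B.L k k' c) :
    (B.pow k).S →ₗ[ℂ] (B.pow k').S := (B.opM c hc).op

theorem mul_at (hc : IsMul B.L k k' c) (s : (B.pow k).S) (hx : At e x) (hi : x ∈ B.L.U i) :
    (B.mul c hc s).f i e (e x) = c i x • s.f i e (e x) := by
  refine ((B.opM c hc).op_at s hx hi).trans ?_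
  show c i (e.symm (e x)) • s.f i e (e x) = _
  rw [hx.left_inv]

theorem mul_near (hc : IsMul B.L k k' c) (s : (B.pow k).S) (hx : At e x) (hi : x ∈ B.L.U i) :
    (B.mul c hc s).f i e =ᶠ[𝓝 (e x)] fun z => c i (e.symm z) • s.f i e z :=
  (B.opM c hc).op_near s hx hi

variable [IsManifold 𝓘(ℂ, Cm d) ω X]

theorem mul_dgc (hc : IsMul B.L k k' c) (q : ℕ → ℂ) (s : (B.pow k).S) :
    B.mul c hc ((B.pow k).dgc q s) = (B.pow k').dgc q (B.mul c hc s) := by
  apply S.ext_f
  intro i e x hx hi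
  rw [mul_at hc _ hx hi, dgc_at (B := B.pow k) q s hx hi,
    dgc_at (B := B.pow k') q _ hx hi, mul_at hc _ hx hi, Matrix.mulVec_smul]

variable [T2Space X] [CompactSpace X]

theorem mul_par (hc : IsMul B.L k k' c) (s : (B.pow k).S) :
    B.mul c hc ((B.pow k).par s) = (B.pow k').par (B.mul c hc s) := mul_dgc hc _ s

theorem mul_bounded (B : HB d X ι) (hc : IsMul B.L k k' c) :
    ∃ C : ℝ, 0 ≤ C ∧ ∀ s, ‖B.mul c hc s‖ ≤ C * ‖s‖ := by
  obtain ⟨C, hC0, hC⟩ := bounded_of_local (B.pow k) (B.pow k') (fun _ => subset_rfl)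
    (fun i e z => c i (e.symm z) • (1 : Matrix (FI d) (FI d) ℂ)) (fun i e x hx hi p q => by
      simp only [Matrix.smul_apply, smul_eq_mul]
      exact (hc.smooth i e x hx hi).mul contDiffAt_const)
  refine ⟨C, hC0, fun s => hC s _ fun i e x hx hi => ?_⟩
  rw [mul_at hc s hx hi, hx.left_inv, Matrix.smul_mulVec, Matrix.one_mulVec]

/-- the commutator with `D' + δ` is bounded -/
theorem comm_bounded (B : HB d X ι) (hc : IsMul B.L k k' c) :
    ∃ C : ℝ, 0 ≤ C ∧ ∀ s, ‖(B.pow k').D (B.mul c hc s) - B.mul c hc ((B.pow k).D s)‖ ≤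
      C * ‖s‖ := by
  obtain ⟨C, hC0, hC⟩ := bounded_of_local (B.pow k) (B.pow k') (fun _ => subset_rfl)
    (fun i e => cmM (B.w e) (wt (B.pow k).ρ i e) (wt (B.pow k').ρ i e)
      (fun z => c i (e.symm z))) (fun i e x hx hi =>
      MC_cmM (kat B.kahler hx) ((B.pow k).metric.smooth i e x hx hi)
        ((B.pow k').metric.smooth i e x hx hi) (hc.smooth i e x hx hi))
  refine ⟨C, hC0, fun s => hC s _ fun i e x hx hi => ?_⟩
  have hc1 : ContDiffAt ℝ 1 (fun z => c i (e.symm z)) (e x) :=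
    (hc.smooth i e x hx hi).of_le TrAt.one_le_inf
  have h1 := comm_DD (w := B.w e) (f := wt (B.pow k).ρ i e) (f' := wt (B.pow k').ρ i e) hc1
    (vc1 s.isSec hx hi)
  have h2 := D_at (B := B.pow k') (B.mul c hc s) hx hi
  have h3 := D_at (B := B.pow k) s hx hi
  have h4 := mul_near hc s hx hi
  rw [Dw_congr h4, De_congr h4] at h2
  rw [S.sub_f]
  show ((B.pow k').D (B.mul c hc s)).f i e (e x) -
    (B.mul c hc ((B.pow k).D s)).f i e (e x) = _
  rw [h2, mul_at hc _ hx hi, h3]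
  rw [hx.left_inv] at h1
  exact h1

/-- adjoint of the multiplication -/
theorem inner_mul (hc : IsMul B.L k k' c) (hc' : IsMul B.L k' k c')
    (h : ∀ i x, x ∈ B.L.U i → conj (c i x) * Real.exp (-(k' * B.ρ i x)) =
      c' i x * Real.exp (-(k * B.ρ i x))) (s : (B.pow k).S) (t : (B.pow k').S) :
    inner ℂ (B.mul c hc s) t = inner ℂ s (B.mul c' hc' t) := by
  show (B.pow k').ipB t.f (B.mul c hc s).f = (B.pow k).ipB (B.mul c' hc' t).f s.f
  refine intC_congr (L := B.L) fun i e x hx hi => ?_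
  show hw (wt (B.pow k').ρ i e) (B.w e) (e x) (t.f i e (e x)) ((B.mul c hc s).f i e (e x)) =
    hw (wt (B.pow k).ρ i e) (B.w e) (e x) ((B.mul c' hc' t).f i e (e x)) (s.f i e (e x))
  rw [mul_at hc _ hx hi, mul_at hc' _ hx hi, hw_smul_left, hw_smul_right]
  unfold hw
  have e1 : wt (B.pow k').ρ i e (e x) = k' * B.ρ i x := by
    show (k' : ℝ) * B.ρ i (e.symm (e x)) = _
    rw [hx.left_inv]
  have e2 : wt (B.pow k).ρ i e (e x) = k * B.ρ i x := by
    show (k : ℝ) * B.ρ i (e.symm (e x)) = _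
    rw [hx.left_inv]
  rw [e1, e2, ← mul_assoc, ← mul_assoc, h i x hi]

end HB

end Vale.Agent.P301.H862
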