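import Vale.Agent.P301.H862.Final
import Vale.Agent.P301.H85.SC.Chi

/-!
# P301, index theorem: level `0`, holomorphic forms
-/

open scoped Manifold ContDiff ComplexOrder Topology Matrix ComplexConjugate
open Vale.Agent.P272.K Vale.Agent.P272.K.C2 Vale.Agent.P299.H954 Vale.Agent.P299.IX
open Vale.Agent.P301.H599 MeasureTheory Set Filter Vale.Agent.P299.H863
open Vale.Agent.P299.IX.Fock Vale.Agent.P301.H103 UniformSpace Vale.Agent.P301.H85

set_option linter.unusedSectionVars false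

noncomputable section

namespace Vale.Agent.P301.H862

variable {d : ℕ} {X : Type} [TopologicalSpace X] {ι : Type} [ChartedSpace (Cm d) X]
  [IsManifold 𝓘(ℂ, Cm d) ω X] [T2Space X] [CompactSpace X]
  {L : LineBundle d X ι} {B : HB d X ι} {k0 N : ℕ}
  {i j : ι} {e e' : Chart d X} {x : X} {z : Cm d}

theorem cHess_zero_fun (z : Cm d) : cHess (fun _ : Cm d => (0 : ℝ)) z = 0 := by
  ext l b
  show dz l (dzb b fun y => (((0 : ℝ) : ℝ) : ℂ)) z = 0
  have h1 : (dzb b fun _ : Cm d => (((0 : ℝ) : ℝ) : ℂ)) = fun _ => 0 := by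
    funext y; exact C2.dzb_const b _
  rw [h1]; exact C2.dz_const l _

namespace HB

theorem qf_zero (s : (B.pow 0).S) : (B.pow 0).qf s = 0 := by
  have h1 : (B.pow 0).ipB (QX (B.pow 0).ρ (B.pow 0).w s.f) s.f =
      (B.pow 0).ipB (0 : Fam d X ι) s.f := by
    refine ipB_congr (fun i e x hx hi => ?_) (fun _ _ _ _ _ => rfl)
    show Qw (wt (B.pow 0).ρ i e) (B.w e) (e x) (s.f i e (e x)) = 0
    have h2 : wt (B.pow 0).ρ i e = fun _ => (0 : ℝ) := by
      funext z
      show ((0 : ℕ) : ℝ) * _ = 0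
      rw [Nat.cast_zero, zero_mul]
    rw [h2]
    simp only [Qw, cHess_zero_fun, Matrix.zero_apply, zero_smul, Finset.sum_const_zero]
  rw [qf, h1]
  have h3 : (B.pow 0).ipB (0 : Fam d X ι) s.f = 0 := by
    have h4 := ipB_smul_left (B := B.pow 0) (IsSec.zero (L := (B.pow 0).L)) s.isSec 0
    rw [zero_smul, zero_mul] at h4
    exact h4
  rw [h3, Complex.zero_re]

theorem norm_D_zero (s : (B.pow 0).S) : ‖(B.pow 0).D s‖ ^ 2 = (B.pow 0).grad s := by
  rw [norm_D_sq, bkn, qf_zero, zero_add]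

/-- `D` is closable -/
theorem D_closed {C : HB d X ι} {w : ℕ → C.S} {s : C.S} (h1 : Tendsto w atTop (𝓝 s))
    (h2 : Tendsto (fun n => C.D (w n)) atTop (𝓝 0)) : C.D s = 0 := by
  refine ext_inner_right ℂ fun v => ?_
  rw [inner_zero_left, D_symm]
  have h3 : Tendsto (fun n => inner ℂ (w n) (C.D v)) atTop (𝓝 (inner ℂ s (C.D v))) :=
    h1.inner tendsto_const_nhds
  have h4 : Tendsto (fun n => inner ℂ (C.D (w n)) v) atTop (𝓝 (inner ℂ (0 : C.S) v)) :=
    h2.inner tendsto_const_nhds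
  rw [inner_zero_left] at h4
  refine tendsto_nhds_unique h3 (h4.congr fun n => ?_)
  rw [D_symm]

/-- regularity -/
theorem reg_zero {w : ℕ → (B.pow 0).S} (hw : CauchySeq w)
    (h : Tendsto (fun n => (B.pow 0).D (w n)) atTop (𝓝 0)) : ∃ s, Tendsto w atTop (𝓝 s) := by
  obtain ⟨T⟩ := exists_triv (B.pow 0).L
  refine ((B.pow 0).locSp T).reg hw fun a ψ hψ b => ?_
  obtain ⟨C, hC0, hC⟩ := (B.pow 0).exists_dbar_le T a hψ b
  have h1 : Tendsto (fun n => Real.sqrt C * ‖(B.pow 0).D (w n)‖) atTop (𝓝 0) := by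
    simpa using (tendsto_zero_iff_norm_tendsto_zero.1 h).const_mul (Real.sqrt C)
  refine squeeze_zero (fun n => n2_nonneg _) (fun n => ?_) h1
  refine abs_le_of_sq_le_sq' ?_ (by positivity) |>.2
  rw [mul_pow, Real.sq_sqrt hC0, norm_D_zero]
  exact hC (w n)

/-- the kernel in degree `p` -/
def kerd (C : HB d X ι) (p : ℕ) : Submodule ℂ C.S :=
  LinearMap.ker C.D ⊓ LinearMap.range (C.dg p)

theorem mem_kerd {C : HB d X ι} {p : ℕ} {s : C.S} : s ∈ C.kerd p ↔ C.D s = 0 ∧ C.dg p s = s := by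
  constructor
  · rintro ⟨h1, h2⟩
    exact ⟨h1, dg_of_mem C.grading h2⟩
  · rintro ⟨h1, h2⟩
    exact ⟨h1, s, h2⟩

theorem skd_eq (p : ℕ) : skd (B.pow 0).grading p = ((B.pow 0).kerd p).map
    (Completion.toComplₗᵢ : (B.pow 0).S →ₗᵢ[ℂ] Completion (B.pow 0).S).toLinearMap := by
  set i₁ : (B.pow 0).S →ₗᵢ[ℂ] Completion (B.pow 0).S := Completion.toComplₗᵢ with hi₁
  ext x
  constructor
  · rintro ⟨w, hw0, hw1, hw2⟩
    have hcau : CauchySeq w := i₁.isometry.isUniformInducing.cauchy_map_iff.1 hw1.cauchySeq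
    obtain ⟨s, hs⟩ := reg_zero hcau hw2
    refine ⟨s, mem_kerd.2 ⟨D_closed hs hw2, ?_⟩, ?_⟩
    · exact (dg_oproj (B.pow 0).grading p).fix_of_tendsto hs fun n =>
        dg_of_mem (B.pow 0).grading (hw0 n)
    · exact tendsto_nhds_unique ((i₁.continuous.tendsto s).comp hs) hw1
  · rintro ⟨s, hs, rfl⟩
    have h1 := mem_kerd.1 hs
    refine ⟨fun _ => s, fun _ => ⟨s, h1.2⟩, tendsto_const_nhds, ?_⟩
    show Tendsto (fun _ => (B.pow 0).D s) atTop (𝓝 0)
    rw [h1.1]; exact tendsto_const_nhds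

theorem finrank_skd (p : ℕ) : Module.finrank ℂ (skd (B.pow 0).grading p) =
    Module.finrank ℂ ((B.pow 0).kerd p) := by
  rw [skd_eq]
  exact (Submodule.equivMapOfInjective _
    (Completion.toComplₗᵢ : (B.pow 0).S →ₗᵢ[ℂ] Completion (B.pow 0).S).injective _).finrank_eq.symm

/-! ### holomorphic forms -/

theorem DVb_of_grad {C : HB d X ι} {s : C.S} (h : C.grad s = 0) (hx : At e x)
    (hi : x ∈ C.L.U i) (b : Fin d) : DVb b (s.f i e) (e x) = 0 := by
  have hD := s.isSec.isDens_gradX C.metric C.kahler s.isSec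
  have h1 : (gradX C.ρ C.w s.f s.f i e (e x)).re = 0 := by
    by_contra hne
    have hpos : 0 < (gradX C.ρ C.w s.f s.f i e (e x)).re :=
      lt_of_le_of_ne (grad_pt_nonneg s hx hi) (Ne.symm hne)
    have h2 : 0 < INT.intX (reD C.L (gradX C.ρ C.w s.f s.f)) := by
      refine intX_pos_of_pos hD.isDensity_re (fun e x hx => ?_) (x := x) fun e' hx' => ?_
      · rw [reD_eq hD hx (mem_ix C.L x)]
        exact grad_pt_nonneg s hx (mem_ix C.L x)
      · rw [reD_eq hD hx' hi, hD.change i i e' e x hx' hx hi hi, Complex.re_ofReal_mul]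
        have h4 := norm_pos_iff.2 (jacM_det_ne_zero hx' hx)
        positivity
    rw [← intC_re] at h2
    exact h2.ne' h
  obtain ⟨m, hm, hmb⟩ := C.exists_grad_lower hx.1 (isCompact_singleton (x := e x))
    (Set.singleton_subset_iff.2 (mem_dom hx hi))
  have h2 := hmb (e x) rfl fun b => DVb b (s.f i e) (e x)
  have h3 : m * ∑ b, ∑ I, ‖DVb b (s.f i e) (e x) I‖ ^ 2 ≤ 0 := h2.trans (le_of_eq h1)
  have h4 : ∑ b, ∑ I, ‖DVb b (s.f i e) (e x) I‖ ^ 2 ≤ 0 := by
    by_contra hcon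
    push Not at hcon
    exact absurd h3 (not_le.2 (mul_pos hm hcon))
  have h5 : ∀ b ∈ Finset.univ, (0 : ℝ) ≤ ∑ I, ‖DVb b (s.f i e) (e x) I‖ ^ 2 := fun b _ =>
    Finset.sum_nonneg fun I _ => by positivity
  have h6 := (Finset.sum_eq_zero_iff_of_nonneg h5).1
    (le_antisymm h4 (Finset.sum_nonneg h5)) b (Finset.mem_univ b)
  ext I
  have h7 := (Finset.sum_eq_zero_iff_of_nonneg (fun I _ => by positivity)).1 h6 I
    (Finset.mem_univ I)
  simpa using h7

theorem eq_of_index (s : (B.pow 0).S) (hx : At e x) (hi : x ∈ B.L.U i) (hj : x ∈ B.L.U j) :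
    s.f i e (e x) = s.f j e (e x) := by
  have h1 := s.isSec.change i j e e x hx hx hi hj
  rw [h1]
  show ((B.L.g i j x ^ 0) • lam (jacM e e x)ᵀ) *ᵥ _ = _
  rw [pow_zero, one_smul, jacM_self hx, Matrix.transpose_one, lam_one, Matrix.one_mulVec]

theorem change_zero (s : (B.pow 0).S) (hx : At e x) (hx' : At e' x) (hi : x ∈ B.L.U i) :
    s.f i e (e x) = lam (jacM e e' x)ᵀ *ᵥ s.f i e' (e' x) := by
  have h1 := s.isSec.change i i e e' x hx hx' hi hi
  rw [h1]
  show ((B.L.g i i x ^ 0) • lam (jacM e e' x)ᵀ) *ᵥ _ = _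
  rw [pow_zero, one_smul]

/-- the form of a section -/
def frm (s : (B.pow 0).S) : Frm d X := fun e z => s.f (ix B.L (e.symm z)) e z

theorem frm_at (s : (B.pow 0).S) (hx : At e x) (hi : x ∈ B.L.U i) :
    frm s e (e x) = s.f i e (e x) := by
  show s.f (ix B.L (e.symm (e x))) e (e x) = _
  rw [hx.left_inv]
  exact eq_of_index s hx (mem_ix B.L x) hi

theorem frm_near (s : (B.pow 0).S) (hx : At e x) (hi : x ∈ B.L.U i) :
    frm s e =ᶠ[𝓝 (e x)] s.f i e := by
  filter_upwards [ev_on hx hi] with z hz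
  have := frm_at s hz.1 hz.2.1
  rwa [hz.2.2] at this

theorem isHolF_frm {p : ℕ} {s : (B.pow 0).S} (hs : s ∈ (B.pow 0).kerd p) : IsHolF p (frm s) where
  holo e x hx I := by
    have hi := mem_ix B.L x
    set i := ix B.L x
    have h1 := mem_kerd.1 hs
    have h2 : (B.pow 0).grad s = 0 := by rw [← norm_D_zero, h1.1, norm_zero]; norm_num
    have h3 : AnalyticAt ℂ (fun z => s.f i e z I) (e x) := by
      refine analyticAt_of_dzb ?_
      filter_upwards [ev_on hx hi] with y hy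
      constructor
      · have := (s.isSec.smooth i e _ hy.1 hy.2.1 I).differentiableAt (by simp)
        rwa [hy.2.2] at this
      · intro l
        have := congrFun (DVb_of_grad h2 hy.1 hy.2.1 l) I
        rw [hy.2.2] at this
        exact this
    refine h3.congr ?_
    filter_upwards [frm_near s hx hi] with z hz
    rw [hz]
  change e e' x hx hx' := by
    rw [frm_at s hx (mem_ix B.L x), frm_at s hx' (mem_ix B.L x), change_zero s hx hx' (mem_ix B.L x)]
  deg e x hx I hI := by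
    rw [frm_at s hx (mem_ix B.L x)]
    exact deg_of_dg (mem_kerd.1 hs).2 hx (mem_ix B.L x) hI

/-- the map to the holomorphic forms -/
def toHol (B : HB d X ι) (p : ℕ) : (B.pow 0).kerd p →ₗ[ℂ] HolF d X p where
  toFun s := ⟨frm (s : (B.pow 0).S), isHolF_frm s.2, fun _ _ h =>
    (s : (B.pow 0).S).off fun h' => h ⟨h'.1, h'.2.1⟩⟩
  map_add' _ _ := rfl
  map_smul' _ _ := rfl

theorem toHol_bijective (B : HB d X ι) (p : ℕ) : Function.Bijective (toHol B p) := by
  constructor
  · intro s t h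
    apply Subtype.ext
    apply S.ext_f
    intro i e x hx hi
    have h1 : frm (s : (B.pow 0).S) = frm (t : (B.pow 0).S) := congrArg Subtype.val h
    exact (frm_at _ hx hi).symm.trans ((congrFun (congrFun h1 e) (e x)).trans (frm_at _ hx hi))
  · rintro ⟨g, hg, hg0⟩
    have hsec : IsSec (B.pow 0).L (fun _ e => g e : Fam d X ι) := by
      refine ⟨fun i e x hx hi I => ?_, fun i j e e' x hx hx' hi hj => ?_⟩
      · exact (((hg.holo e x hx I).contDiffAt (n := ω)).restrict_scalars ℝ).of_le (by exact le_top)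
      · show g e (e x) = ((B.L.g i j x ^ 0) • lam (jacM e e' x)ᵀ) *ᵥ g e' (e' x)
        rw [pow_zero, one_smul, hg.change e e' x hx hx']
    set s : (B.pow 0).S := mkS _ hsec with hs
    have hsz : ∀ i e x, At e x → x ∈ B.L.U i → s.f i e (e x) = g e (e x) := fun i e x hx hi =>
      mkS_at hsec hx hi
    have hdz : ∀ i e x, At e x → x ∈ B.L.U i → ∀ b, DVb b (s.f i e) (e x) = 0 := by
      intro i e x hx hi b
      rw [DVb_congr (mkS_near hsec hx hi)]
      ext I
      exact (dzb_of_analyticAt (hg.holo e x hx I)).self_of_nhds b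
    have hgrad : (B.pow 0).grad s = 0 := by
      have h1 : intC (B.pow 0).L (gradX (B.pow 0).ρ (B.pow 0).w s.f s.f) =
          intC (B.pow 0).L (fun _ _ _ => 0) := by
        refine intC_congr fun i e x hx hi => ?_
        show ∑ l, ∑ b, _ * hw _ _ _ (DVb b (s.f i e) (e x)) (DVb l (s.f i e) (e x)) = 0
        simp only [hdz i e x hx hi, hw_zero_left, mul_zero, Finset.sum_const_zero]
      rw [grad, h1, intC_zero, Complex.zero_re]
    have hD : (B.pow 0).D s = 0 := by
      have h1 := norm_D_zero s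
      rw [hgrad] at h1
      exact norm_eq_zero.1 (pow_eq_zero_iff (two_ne_zero)|>.1 h1)
    have hdg : (B.pow 0).dg p s = s := by
      apply S.ext_f
      intro i e x hx hi
      rw [dg, dgc_at _ _ hx hi]
      ext I
      rw [dgl_mulVec]
      split_ifs with hI
      · rw [one_mul]
      · rw [hsz i e x hx hi, hg.deg e x hx I hI, mul_zero]
    refine ⟨⟨s, mem_kerd.2 ⟨hD, hdg⟩⟩, Subtype.ext ?_⟩
    funext e z
    show s.f (ix B.L (e.symm z)) e z = g e z
    by_cases h : e ∈ atlas (Cm d) X ∧ z ∈ e.target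
    · have hx : At e (e.symm z) := P272.K.At.of_target h.1 h.2
      have := hsz (ix B.L (e.symm z)) e (e.symm z) hx (mem_ix B.L _)
      rwa [e.right_inv h.2] at this
    · rw [hg0 e z h]
      exact s.off fun h' => h ⟨h'.1, h'.2.1⟩

theorem finrank_kerd (B : HB d X ι) (p : ℕ) : Module.finrank ℂ ((B.pow 0).kerd p) =
    Module.finrank ℂ (HolF d X p) :=
  (LinearEquiv.ofBijective (toHol B p) (toHol_bijective B p)).finrank_eq

variable (d X) in
/-- the alternating sum of the dimensions of the spaces of holomorphic forms -/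
def chi0 : ℤ := ∑ p ∈ Finset.range (d + 1), (-1 : ℤ) ^ p * (Module.finrank ℂ (HolF d X p) : ℤ)

theorem finrank_sk (B : HB d X ι) (h : ∀ s, FiniteDimensional ℂ ((B.pow 0).ell.sk s)) (σ : ℤˣ) :
    Module.finrank ℂ ((B.pow 0).ell.sk σ) = ∑ p ∈ Finset.range (d + 1),
      if ((-1 : ℤˣ) ^ p = σ) then Module.finrank ℂ (HolF d X p) else 0 := by
  have := h σ
  have h1 : ∀ p : dgs d σ, Module.Finite ℂ (skd (B.pow 0).grading (p : ℕ)) := fun p =>
    Submodule.finiteDimensional_of_le (skd_le (B.pow 0).grading p.2)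
  rw [(skEquiv (B.pow 0).grading σ).finrank_eq, Module.finrank_pi_fintype,
    Finset.sum_coe_sort (dgs d σ) fun p => Module.finrank ℂ (skd (B.pow 0).grading p), dgs,
    Finset.sum_filter]
  refine Finset.sum_congr rfl fun p _ => ?_
  rw [finrank_skd, finrank_kerd]

/-- **the index at level `0`** -/
theorem P_zero (B : HB d X ι) (h : ∀ s, FiniteDimensional ℂ ((B.pow 0).ell.sk s)) :
    (B.pow 0).ell.P = chi0 d X := by
  rw [Ell.P, finrank_sk B h, finrank_sk B h, chi0, Nat.cast_sum, Nat.cast_sum,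
    ← Finset.sum_sub_distrib]
  refine Finset.sum_congr rfl fun p _ => ?_
  rcases Nat.even_or_odd p with hp | hp
  · rw [hp.neg_one_pow, hp.neg_one_pow, if_pos rfl, if_neg (by decide)]
    simp
  · rw [hp.neg_one_pow, hp.neg_one_pow, if_neg (by decide), if_pos rfl]
    simp

end HB

open HB in
/-- **Approximate kernels** (I2): for every smooth line bundle `L` and `k0` there is `M` such that
for every metric on `L`, every Kähler metric and every `η > 0` there are `1 ≤ m ≤ M` and at least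
`|χ|` almost orthonormal sections of `Λ^{p,0} ⊗ L^{m k0}`, `p` of fixed parity, with
`|D' g|² + |δ g|² ≤ η`; `χ = Σ (-1)^p h⁰(Ω^p)`. -/
theorem exists_forms_chi (L : LineBundle d X ι) (k0 : ℕ) (hχ : chi0 d X ≠ 0) :
    ∃ M : ℕ, ∀ (ρ : ι → X → ℝ), IsMetric L ρ →
      ∀ w : Chart d X → Cm d → Matrix (Fin d) (Fin d) ℂ, IsKahler w → ∀ η : ℝ, 0 < η →
      ∃ m, 1 ≤ m ∧ m ≤ M ∧ ∃ (σ : ℤˣ) (r : ℕ → ℕ),
        (chi0 d X).natAbs ≤ (∑ p ∈ Finset.range (d + 1), if ((-1) ^ p = σ) then r p else 0) ∧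
        ∀ p ∈ Finset.range (d + 1), (-1) ^ p = σ → ∃ g : Fin (r p) → Fam d X ι,
          (∀ a, IsSec (powL L (m * k0)) (g a)) ∧
          (∀ a i e x, At e x → x ∈ L.U i → ∀ I : FI d, I.card ≠ p → g a i e (e x) I = 0) ∧
          (∀ a b, ‖ip (powL L (m * k0)) (fun i x => (m * k0 : ℕ) * ρ i x) w (g a) (g b) -
            if a = b then 1 else 0‖ ≤ η) ∧
          ∀ a, (ip (powL L (m * k0)) (fun i x => (m * k0 : ℕ) * ρ i x) w
              (DX (fun i x => (m * k0 : ℕ) * ρ i x) (g a))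
              (DX (fun i x => (m * k0 : ℕ) * ρ i x) (g a))).re +
            (ip (powL L (m * k0)) (fun i x => (m * k0 : ℕ) * ρ i x) w
              (dX w (g a)) (dX w (g a))).re ≤ η :=
  exists_forms L k0 hχ fun B h => P_zero B h

end Vale.Agent.P301.H862
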