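import Vale.Agent.P301.H862.Glob
import Vale.Agent.P299.H863.Loc
import Vale.Agent.P299.H954.Zero

/-!
# P301, index theorem: the pre-Hilbert space of smooth sections of `Λ^{*,0} ⊗ L`
-/

open scoped Manifold ContDiff ComplexOrder Topology Matrix ComplexConjugate
open Vale.Agent.P272.K Vale.Agent.P272.K.C2 Vale.Agent.P299.H954 Vale.Agent.P299.IX
open Vale.Agent.P301.H599 MeasureTheory Set
open Vale.Agent.P272.K.INT (intX IsDensity intX_add intX_sub intX_const_mul intX_congr intX_nonneg
  intX_mono intX_of_support intX_sum)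

set_option linter.unusedSectionVars false

noncomputable section

namespace Vale.Agent.P301.H862

/-- a holomorphic line bundle with a smooth Hermitian metric on a Kähler manifold -/
structure HB (d : ℕ) (X : Type) [TopologicalSpace X] [ChartedSpace (Cm d) X] (ι : Type) where
  L : LineBundle d X ι
  ρ : ι → X → ℝ
  w : Chart d X → Cm d → Matrix (Fin d) (Fin d) ℂ
  metric : IsMetric L ρ
  kahler : IsKahler w

variable {d : ℕ} {X : Type} [TopologicalSpace X] {ι : Type} [ChartedSpace (Cm d) X]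

/-! ### tensor powers -/

/-- the powers of a line bundle -/
def powL (L : LineBundle d X ι) (k : ℕ) : LineBundle d X ι where
  U := L.U
  isOpen := L.isOpen
  cover := L.cover
  g i j x := L.g i j x ^ k
  holo i j e x h hi hj := (L.holo i j e x h hi hj).pow k
  ne_zero i j x hi hj := pow_ne_zero k (L.ne_zero i j x hi hj)
  cocycle i j l x hi hj hl := by rw [← mul_pow, L.cocycle i j l x hi hj hl]

theorem powL_metric {L : LineBundle d X ι} {ρ : ι → X → ℝ} (h : IsMetric L ρ) (k : ℕ) :
    IsMetric (powL L k) (fun i x => k * ρ i x) where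
  smooth i e x hx hi := contDiffAt_const.mul (h.smooth i e x hx hi)
  change i j x hi hj := by
    show (k : ℝ) * ρ i x = k * ρ j x + Real.log (‖L.g i j x ^ k‖ ^ 2)
    have h1 : ‖L.g i j x ^ k‖ ^ 2 = (‖L.g i j x‖ ^ 2) ^ k := by
      rw [norm_pow, ← pow_mul, ← pow_mul, mul_comm]
    rw [h.change i j x hi hj, h1, Real.log_pow (‖L.g i j x‖ ^ 2), mul_add]

/-- tensor powers -/
def HB.pow (B : HB d X ι) (k : ℕ) : HB d X ι :=
  ⟨powL B.L k, fun i x => k * B.ρ i x, B.w, powL_metric B.metric k, B.kahler⟩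

/-! ### cutting off -/

/-- the components outside the domains are replaced by zero -/
def cut (L : LineBundle d X ι) (g : Fam d X ι) : Fam d X ι := fun i e z =>
  open Classical in if e ∈ atlas (Cm d) X ∧ z ∈ dom L i e then g i e z else 0

variable {L : LineBundle d X ι} {g h : Fam d X ι} {i j : ι} {e e' : Chart d X} {x : X} {z : Cm d}

theorem cut_eq (he : e ∈ atlas (Cm d) X) (hz : z ∈ dom L i e) : cut L g i e z = g i e z :=
  if_pos ⟨he, hz⟩

theorem cut_at (hx : At e x) (hi : x ∈ L.U i) : cut L g i e (e x) = g i e (e x) :=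
  cut_eq hx.1 (mem_dom hx hi)

theorem cut_near (hx : At e x) (hi : x ∈ L.U i) : cut L g i e =ᶠ[𝓝 (e x)] g i e := by
  filter_upwards [(isOpen_dom L i e).mem_nhds (mem_dom hx hi)] with z hz using cut_eq hx.1 hz

theorem cut_off (h : ¬ (e ∈ atlas (Cm d) X ∧ z ∈ dom L i e)) : cut L g i e z = 0 := if_neg h

theorem VC.congr {n : ℕ} {κ : Type*} {m : WithTop ℕ∞} {a b : Cm n → κ → ℂ} {z : Cm n}
    (h : VC m a z) (hab : b =ᶠ[𝓝 z] a) : VC m b z := fun i =>
  (h i).congr_of_eventuallyEq (by filter_upwards [hab] with y hy; rw [hy])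

theorem IsSec.cut (hg : IsSec L g) : IsSec L (cut L g) where
  smooth i e x hx hi := VC.congr (hg.smooth i e x hx hi) (cut_near hx hi)
  change i j e e' x hx h' hi hj := by
    rw [cut_at hx hi, cut_at h' hj]; exact hg.change i j e e' x hx h' hi hj

theorem IsSec.zero : IsSec L (0 : Fam d X ι) where
  smooth _ _ _ _ _ _ := contDiffAt_const
  change _ _ _ _ _ _ _ _ _ := (Matrix.mulVec_zero _).symm

theorem IsSec.smul (hg : IsSec L g) (c : ℂ) : IsSec L (c • g) where
  smooth i e x hx hi := VC.smul contDiffAt_const (hg.smooth i e x hx hi)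
  change i j e e' x hx h' hi hj := by
    show c • g i e (e x) = (_ : Matrix _ _ ℂ) *ᵥ (c • g j e' (e' x))
    rw [hg.change i j e e' x hx h' hi hj, Matrix.mulVec_smul]

namespace HB

/-- The submodule of normalised smooth sections. -/
def sub (B : HB d X ι) : Submodule ℂ (Fam d X ι) where
  carrier := {g | IsSec B.L g ∧ ∀ i e z, ¬ (e ∈ atlas (Cm d) X ∧ z ∈ dom B.L i e) → g i e z = 0}
  zero_mem' := ⟨IsSec.zero, fun _ _ _ _ => rfl⟩
  add_mem' := by
    rintro g h ⟨h1, h2⟩ ⟨h1', h2'⟩
    refine ⟨h1.add h1', fun i e z hz => ?_⟩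
    show g i e z + h i e z = 0
    rw [h2 i e z hz, h2' i e z hz, add_zero]
  smul_mem' := by
    rintro c g ⟨h1, h2⟩
    refine ⟨h1.smul c, fun i e z hz => ?_⟩
    show c • g i e z = 0
    rw [h2 i e z hz, smul_zero]

/-- The space of smooth sections of `Λ^{*,0} ⊗ L`. -/
def S (B : HB d X ι) : Type := B.sub

instance (B : HB d X ι) : AddCommGroup B.S := inferInstanceAs (AddCommGroup B.sub)
instance (B : HB d X ι) : Module ℂ B.S := inferInstanceAs (Module ℂ B.sub)

variable {B : HB d X ι}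

/-- the components of a section -/
def S.f (s : B.S) : Fam d X ι := (show B.sub from s).1

/-- a section from (not normalised) components -/
def mkS (g : Fam d X ι) (h : IsSec B.L g) : B.S :=
  (⟨cut B.L g, h.cut, fun _ _ _ h => cut_off h⟩ : B.sub)

theorem mkS_f (h : IsSec B.L g) : (mkS g h : B.S).f = cut B.L g := rfl

theorem mkS_at (h : IsSec B.L g) (hx : At e x) (hi : x ∈ B.L.U i) :
    (mkS g h : B.S).f i e (e x) = g i e (e x) := cut_at hx hi

theorem mkS_near (h : IsSec B.L g) (hx : At e x) (hi : x ∈ B.L.U i) :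
    (mkS g h : B.S).f i e =ᶠ[𝓝 (e x)] g i e := cut_near hx hi

theorem S.isSec (s : B.S) : IsSec B.L s.f := (show B.sub from s).2.1

theorem S.off (s : B.S) (h : ¬ (e ∈ atlas (Cm d) X ∧ z ∈ dom B.L i e)) : s.f i e z = 0 :=
  (show B.sub from s).2.2 i e z h

theorem S.add_f (s t : B.S) : (s + t).f = s.f + t.f := rfl
theorem S.smul_f (c : ℂ) (s : B.S) : (c • s).f = c • s.f := rfl
theorem S.zero_f : (0 : B.S).f = 0 := rfl
theorem S.sub_f (s t : B.S) : (s - t).f = s.f - t.f := rfl
theorem S.neg_f (s : B.S) : (-s).f = -s.f := rfl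

theorem S.sum_f {α : Type*} (t : Finset α) (s : α → B.S) : (∑ a ∈ t, s a).f = ∑ a ∈ t, (s a).f := by
  classical
  induction t using Finset.induction_on with
  | empty => rfl
  | insert a t ha ih => rw [Finset.sum_insert ha, Finset.sum_insert ha, S.add_f, ih]

theorem S.ext_f {s t : B.S}
    (h : ∀ i e x, At e x → x ∈ B.L.U i → s.f i e (e x) = t.f i e (e x)) : s = t := by
  apply Subtype.ext
  funext i e z
  by_cases hz : e ∈ atlas (Cm d) X ∧ z ∈ dom B.L i e
  · have h1 := At.of_dom hz.1 hz.2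
    have := h i e _ h1.1 h1.2.1
    rw [h1.2.2] at this
    exact this
  · exact (s.off hz).trans (t.off hz).symm

variable [IsManifold 𝓘(ℂ, Cm d) ω X] [T2Space X] [CompactSpace X]

/-- the Hermitian product of the components -/
def ipB (B : HB d X ι) (g h : Fam d X ι) : ℂ := ip B.L B.ρ B.w g h

theorem dens (B : HB d X ι) (hg : IsSec B.L g) (hh : IsSec B.L h) :
    IsDens B.L (hX B.ρ B.w g h) := hg.isDens_hX B.metric B.kahler hh

theorem ipB_add_left {g' : Fam d X ι} (hg : IsSec B.L g) (hg' : IsSec B.L g')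
    (hh : IsSec B.L h) : B.ipB (g + g') h = B.ipB g h + B.ipB g' h := by
  rw [ipB, ipB, ipB, ip, ip, ip, ← intC_add (B.dens hg hh) (B.dens hg' hh)]
  refine intC_congr fun i e x hx hi => ?_
  exact hw_add_left _ _ _

theorem ipB_smul_left (hg : IsSec B.L g) (hh : IsSec B.L h) (c : ℂ) :
    B.ipB (c • g) h = c * B.ipB g h := by
  rw [ipB, ipB, ip, ip, ← intC_const_mul (B.dens hg hh)]
  refine intC_congr fun i e x hx hi => ?_
  exact hw_smul_left _ _ _

theorem ipB_conj (B : HB d X ι) (g h : Fam d X ι) : conj (B.ipB g h) = B.ipB h g :=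
  ip_conj B.kahler g h

theorem ipB_self_nonneg (B : HB d X ι) (g : Fam d X ι) : 0 ≤ (B.ipB g g).re :=
  intC_re_nonneg fun _ _ _ hx _ => hw_nonneg (kat B.kahler hx) _

theorem ipB_congr {g' h' : Fam d X ι}
    (hg : ∀ i e x, At e x → x ∈ B.L.U i → g i e (e x) = g' i e (e x))
    (hh : ∀ i e x, At e x → x ∈ B.L.U i → h i e (e x) = h' i e (e x)) :
    B.ipB g h = B.ipB g' h' := by
  refine intC_congr fun i e x hx hi => ?_
  show hw _ _ _ (g i e (e x)) (h i e (e x)) = hw _ _ _ (g' i e (e x)) (h' i e (e x))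
  rw [hg i e x hx hi, hh i e x hx hi]

/-- the `L²` inner product -/
@[reducible] def core (B : HB d X ι) : InnerProductSpace.Core ℂ B.S where
  inner s t := B.ipB t.f s.f
  conj_inner_symm s t := B.ipB_conj s.f t.f
  re_inner_nonneg s := B.ipB_self_nonneg s.f
  add_left s t v := by
    change B.ipB v.f (s + t).f = B.ipB v.f s.f + B.ipB v.f t.f
    rw [← B.ipB_conj, ← B.ipB_conj s.f, ← B.ipB_conj t.f, ← map_add]
    exact congrArg conj (ipB_add_left s.isSec t.isSec v.isSec)
  smul_left s t c := by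
    change B.ipB t.f (c • s).f = conj c * B.ipB t.f s.f
    rw [← B.ipB_conj, ← B.ipB_conj s.f, ← map_mul]
    exact congrArg conj (ipB_smul_left s.isSec t.isSec c)
  definite s hs := by
    change B.ipB s.f s.f = 0 at hs
    by_contra hne
    have h1 : ∃ i e x, At e x ∧ x ∈ B.L.U i ∧ s.f i e (e x) ≠ 0 := by
      by_contra hcon
      push Not at hcon
      exact hne (S.ext_f fun i e x hx hi => by rw [hcon i e x hx hi]; rfl)
    obtain ⟨i, e, x, hx, hi, hne'⟩ := h1
    have hD := B.dens s.isSec s.isSec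
    have h2 : 0 < intX (reD B.L (hX B.ρ B.w s.f s.f)) := by
      refine intX_pos_of_pos hD.isDensity_re (fun e x hx => ?_) (x := x) fun e' hx' => ?_
      · rw [reD_eq hD hx (mem_ix B.L x)]
        exact hw_nonneg (kat B.kahler hx) _
      · rw [reD_eq hD hx' (mem_ix B.L x)]
        refine hw_pos (kat B.kahler hx') fun h0 => hne' ?_
        rw [s.isSec.change i (ix B.L x) e e' x hx hx' hi (mem_ix B.L x), h0, Matrix.mulVec_zero]
    rw [← intC_re, show intC B.L (hX B.ρ B.w s.f s.f) = 0 from hs] at h2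
    exact lt_irrefl _ h2

instance (B : HB d X ι) : NormedAddCommGroup B.S := B.core.toNormedAddCommGroup
instance (B : HB d X ι) : InnerProductSpace ℂ B.S := InnerProductSpace.ofCore B.core.toCore

theorem inner_eq (s t : B.S) : inner ℂ s t = B.ipB t.f s.f := rfl

theorem norm_sq_eq (s : B.S) : ‖s‖ ^ 2 = (B.ipB s.f s.f).re := by
  rw [← inner_self_eq_norm_sq (𝕜 := ℂ), inner_eq]
  rfl

end HB

end Vale.Agent.P301.H862
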