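import Vale.Agent.P301.H862.Space

/-!
# P301, index theorem: the spaces of smooth sections satisfy the axioms `LocSp`
-/

open scoped Manifold ContDiff ComplexOrder Topology Matrix ComplexConjugate
open Vale.Agent.P272.K Vale.Agent.P272.K.C2 Vale.Agent.P299.H954 Vale.Agent.P299.IX
open Vale.Agent.P301.H599 MeasureTheory Set Filter Vale.Agent.P299.H863

set_option linter.unusedSectionVars false

noncomputable section

namespace Vale.Agent.P301.H862

variable {d : ℕ} {X : Type} [TopologicalSpace X] {ι : Type} [ChartedSpace (Cm d) X]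

/-! ### transition matrices -/

/-- the transition matrices of `Λ^{*,0} ⊗ L` -/
def trm (L : LineBundle d X ι) (i j : ι) (e e' : Chart d X) (x : X) : Matrix (FI d) (FI d) ℂ :=
  L.g i j x • lam (jacM e e' x)ᵀ

variable {L : LineBundle d X ι} {g h : Fam d X ι} {i j l : ι} {e e' e'' : Chart d X} {x : X}
  {z : Cm d}

theorem g_self (L : LineBundle d X ι) (hi : x ∈ L.U i) : L.g i i x = 1 := by
  have h1 := L.cocycle i i i x hi hi hi
  have h2 := L.ne_zero i i x hi hi
  exact mul_left_cancel₀ h2 (by rw [h1, mul_one])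

theorem IsSec.tr (hg : IsSec L g) (hx : At e x) (hx' : At e' x) (hi : x ∈ L.U i) (hj : x ∈ L.U j) :
    g i e (e x) = trm L i j e e' x *ᵥ g j e' (e' x) := hg.change i j e e' x hx hx' hi hj

section
variable [IsManifold 𝓘(ℂ, Cm d) ω X]

theorem trm_self (hx : At e x) (hi : x ∈ L.U i) : trm L i i e e x = 1 := by
  rw [trm, g_self L hi, jacM_self hx]; simp [lam_one]

theorem trm_mul (hx : At e x) (hx' : At e' x) (hx'' : At e'' x) (hi : x ∈ L.U i)
    (hj : x ∈ L.U j) (hl : x ∈ L.U l) :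
    trm L i j e e' x * trm L j l e' e'' x = trm L i l e e'' x := by
  rw [trm, trm, trm, jacM_comp hx hx' hx'', Matrix.transpose_mul, lam_mul, Matrix.smul_mul,
    Matrix.mul_smul, smul_smul, L.cocycle i j l x hi hj hl]

theorem trm_smooth (hx : At e x) (hx' : At e' x) (hi : x ∈ L.U i) (hj : x ∈ L.U j) :
    MC ∞ (fun z => trm L i j e e' (e.symm z)) (e x) := by
  have h1 : ContDiffAt ℝ ∞ (fun z => L.g i j (e.symm z)) (e x) :=
    (((L.holo i j e x hx hi hj).contDiffAt (n := ω)).restrict_scalars ℝ).of_le (by exact le_top)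
  have h3 : MC ∞ (fun z => lam (jacM e e' (e.symm z))ᵀ) (e x) :=
    MC_lam fun p q => ((jacM_holo hx hx' q p).restrict_scalars ℝ).of_le (by exact le_top)
  exact fun p q => h1.mul (h3 p q)

end

/-! ### cut-offs -/

/-- a function on `X` supported in the domain of a trivialisation, read in the chart -/
def chi (L : LineBundle d X ι) (i : ι) (e : Chart d X) (χ : X → ℝ) : Cm d → ℝ := fun z =>
  open Classical in if z ∈ dom L i e then χ (e.symm z) else 0

theorem chi_eq {χ : X → ℝ} (hz : z ∈ dom L i e) : chi L i e χ z = χ (e.symm z) := if_pos hz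

theorem isCompact_image_supp [CompactSpace X] {e : Chart d X} {χ : X → ℝ}
    (hs : tsupport χ ⊆ e.source) : IsCompact (e '' tsupport χ) :=
  (isClosed_tsupport χ).isCompact.image_of_continuousOn (e.continuousOn.mono hs)

theorem testV_chi [CompactSpace X] (he : e ∈ atlas (Cm d) X) {χ : X → ℝ}
    (hχ : SmR d χ) (hs : tsupport χ ⊆ e.source) (hU : tsupport χ ⊆ L.U i) :
    TestV (dom L i e) (chi L i e χ) := by
  refine TestV.mk' (isOpen_dom L i e) (isCompact_image_supp hs) ?_ ?_ ?_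
  · rintro _ ⟨x, hx, rfl⟩; exact mem_dom ⟨he, hs hx⟩ (hU hx)
  · intro z hz
    have hz' := At.of_dom he hz
    have h1 := hχ e (e.symm z) hz'.1
    rw [hz'.2.2] at h1
    refine (h1.congr_of_eventuallyEq ?_).contDiffWithinAt
    filter_upwards [(isOpen_dom L i e).mem_nhds hz] with y hy using chi_eq hy
  · intro z hz
    unfold chi
    split_ifs with h
    · refine image_eq_zero_of_notMem_tsupport fun h' => hz ⟨_, h', (At.of_dom he h).2.2⟩
    · rfl

/-- the covering given by a partition of unity -/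
def Triv.cov [CompactSpace X] (T : Triv L) : Cov (Cm d) (Fin T.N) where
  Ω a := dom L (T.i a) (T.e a)
  isOpen _ := isOpen_dom L _ _
  χ a := chi L (T.i a) (T.e a) (T.χ a)
  test a := testV_chi (T.mem a) (T.smooth a) (T.supp a) (T.suppU a)

/-! ### extension by zero -/

/-- extension of a function with compact support in a trivialisation -/
def extF (L : LineBundle d X ι) (i₀ : ι) (e₀ : Chart d X) (v : Cm d → FI d → ℂ) : Fam d X ι :=
  fun i e z => open Classical in
    if e.symm z ∈ e₀.source ∧ e.symm z ∈ L.U i₀ then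
      trm L i i₀ e e₀ (e.symm z) *ᵥ v (e₀ (e.symm z)) else 0

variable {i₀ : ι} {e₀ : Chart d X} {v : Cm d → FI d → ℂ}

theorem extF_at (hx : At e x) (h₀ : x ∈ e₀.source) (h₁ : x ∈ L.U i₀) :
    extF L i₀ e₀ v i e (e x) = trm L i i₀ e e₀ x *ᵥ v (e₀ x) := by
  unfold extF; rw [hx.left_inv, if_pos ⟨h₀, h₁⟩]

theorem extF_at' (hx : At e x) (h₀ : ¬ (x ∈ e₀.source ∧ x ∈ L.U i₀)) :
    extF L i₀ e₀ v i e (e x) = 0 := by
  unfold extF; rw [hx.left_inv, if_neg h₀]

theorem isSec_extF [T2Space X] [IsManifold 𝓘(ℂ, Cm d) ω X] (he₀ : e₀ ∈ atlas (Cm d) X)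
    (hv : ContDiff ℝ ∞ v) {K : Set (Cm d)} (hK : IsCompact K) (hKe : K ⊆ dom L i₀ e₀)
    (h0 : ∀ z, z ∉ K → v z = 0) : IsSec L (extF L i₀ e₀ v) where
  smooth i e x hx hi p := by
    have hsymm : ContinuousAt e.symm (e x) := e.continuousAt_symm hx.mem_target
    by_cases h : x ∈ e₀.source ∧ x ∈ L.U i₀
    · have hx₀ : At e₀ x := ⟨he₀, h.1⟩
      have hnear := nhds_on hx hx₀ hi h.2
      have h1 : ContDiffAt ℝ ∞ (fun z => (trm L i i₀ e e₀ (e.symm z) *ᵥ v (e₀ (e.symm z))) p)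
          (e x) := by
        simp only [Matrix.mulVec, dotProduct]
        refine ContDiffAt.sum fun q _ => (trm_smooth hx hx₀ hi h.2 p q).mul ?_
        have h2 : ContDiffAt ℝ ∞ (fun z => e₀ (e.symm z)) (e x) :=
          ((INT.transition_contDiffAt hx hx₀).of_le (by exact_mod_cast le_top)).restrict_scalars ℝ
        have h3 : ContDiffAt ℝ ∞ (fun z => v z q) (e₀ (e.symm (e x))) :=
          (contDiff_pi.1 hv q).contDiffAt
        exact h3.comp (e x) h2
      refine h1.congr_of_eventuallyEq ?_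
      filter_upwards [hnear] with z hz
      unfold extF; rw [if_pos ⟨hz.2.2.1.2, hz.2.2.2.2⟩]
    · have hKc : IsClosed (e₀.symm '' K) :=
        (hK.image_of_continuousOn (e₀.continuousOn_symm.mono fun z hz => (hKe hz).1)).isClosed
      have hxK : x ∉ e₀.symm '' K := by
        rintro ⟨z, hz, rfl⟩; exact h ⟨e₀.map_target (hKe hz).1, (hKe hz).2⟩
      have hnear : ∀ᶠ z in 𝓝 (e x), e.symm z ∉ e₀.symm '' K := by
        have h1 : (e₀.symm '' K)ᶜ ∈ 𝓝 (e.symm (e x)) := by
          rw [hx.left_inv]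
          exact hKc.isOpen_compl.mem_nhds hxK
        exact hsymm.preimage_mem_nhds h1
      refine (contDiffAt_const (c := (0 : ℂ))).congr_of_eventuallyEq ?_
      filter_upwards [hnear] with z hz
      unfold extF
      split_ifs with h'
      · rw [h0 _ fun hk => hz ⟨_, hk, e₀.left_inv h'.1⟩, Matrix.mulVec_zero]; rfl
      · rfl
  change i j e e' x hx hx' hi hj := by
    show _ = trm L i j e e' x *ᵥ _
    by_cases h : x ∈ e₀.source ∧ x ∈ L.U i₀
    · rw [extF_at hx h.1 h.2, extF_at hx' h.1 h.2, Matrix.mulVec_mulVec,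
        trm_mul hx hx' ⟨he₀, h.1⟩ hi hj h.2]
    · rw [extF_at' hx h, extF_at' hx' h, Matrix.mulVec_zero]

namespace HB

variable [IsManifold 𝓘(ℂ, Cm d) ω X] [T2Space X] [CompactSpace X] {B : HB d X ι}

/-- extension by zero -/
def ext (B : HB d X ι) (i₀ : ι) (e₀ : Chart d X) (v : Cm d → EuclideanSpace ℂ (FI d)) : B.S :=
  open Classical in
  if h : e₀ ∈ atlas (Cm d) X ∧ TestV (dom B.L i₀ e₀) v then
    mkS (extF B.L i₀ e₀ fun z => (v z).ofLp) (isSec_extF h.1
      (by have := h.2.smooth; exact (PiLp.contDiff_ofLp (p := 2)).comp this)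
      h.2.cpt h.2.supp fun z hz => by rw [h.2.zero_off hz]; rfl)
  else 0

variable {v : Cm d → EuclideanSpace ℂ (FI d)}

omit [CompactSpace X] in
theorem ext_f (he₀ : e₀ ∈ atlas (Cm d) X) (hv : TestV (dom B.L i₀ e₀) v) :
    (B.ext i₀ e₀ v).f = cut B.L (extF B.L i₀ e₀ fun z => (v z).ofLp) := by
  unfold ext; rw [dif_pos ⟨he₀, hv⟩]; rfl

omit [CompactSpace X] in
theorem ext_self (he₀ : e₀ ∈ atlas (Cm d) X) (hv : TestV (dom B.L i₀ e₀) v)
    (hz : z ∈ dom B.L i₀ e₀) : (B.ext i₀ e₀ v).f i₀ e₀ z = (v z).ofLp := by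
  have hz' := At.of_dom he₀ hz
  rw [ext_f he₀ hv, cut_eq he₀ hz]
  have h := extF_at (L := B.L) (v := fun z => (v z).ofLp) (i := i₀) (i₀ := i₀) (e := e₀)
    (e₀ := e₀) (x := e₀.symm z) hz'.1 hz'.1.2 hz'.2.1
  rw [hz'.2.2, trm_self hz'.1 hz'.2.1, Matrix.one_mulVec] at h
  exact h

/-- the matrix of the metric times the volume density -/
def HM (B : HB d X ι) (i : ι) (e : Chart d X) (z : Cm d) : Matrix (FI d) (FI d) ℂ :=
  (((Real.exp (-B.ρ i (e.symm z)) : ℝ) : ℂ) * (B.w e z).det) • lam (B.w e z)⁻¹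

/-- metric times density as a continuous linear map -/
def GG (B : HB d X ι) (i : ι) (e : Chart d X) (z : Cm d) :
    EuclideanSpace ℂ (FI d) →L[ℂ] EuclideanSpace ℂ (FI d) :=
  Matrix.toEuclideanCLM (𝕜 := ℂ) (B.HM i e z)

theorem inner_GG (i : ι) (e : Chart d X) (z : Cm d) (u v : EuclideanSpace ℂ (FI d)) :
    inner ℂ v (B.GG i e z u) = hw (wt B.ρ i e) (B.w e) z u.ofLp v.ofLp := by
  rw [EuclideanSpace.inner_eq_star_dotProduct, GG, Matrix.ofLp_toEuclideanCLM]
  unfold HM hw wt hp rho Ld pr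
  rw [Matrix.smul_mulVec, smul_dotProduct, smul_eq_mul, zero_add, pow_one, mul_assoc]
  simp only [dotProduct]
  rfl

theorem HM_smooth (B : HB d X ι) (hx : At e x) (hi : x ∈ B.L.U i) : MC ∞ (B.HM i e) (e x) := by
  have h := kat B.kahler hx
  have hm : MC ∞ (B.w e) (e x) := fun p q => B.kahler.smooth e x hx p q
  have h0 : (B.w e (e x)).det ≠ 0 := (B.kahler.posDef e x hx).det_pos.ne'
  exact fun p q => ((contDiffAt_expw (B.metric.smooth i e x hx hi)).mul hm.det).mul
    (MC_lam (hm.inv h0) p q)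

/-- a matrix field as a continuous linear map valued function -/
theorem contDiffAt_toCLM {M : Cm d → Matrix (FI d) (FI d) ℂ} {z : Cm d} (hM : MC ∞ M z) :
    ContDiffAt ℝ ∞ (fun z => (Matrix.toEuclideanCLM (𝕜 := ℂ) (M z) :
      EuclideanSpace ℂ (FI d) →L[ℂ] EuclideanSpace ℂ (FI d))) z := by
  have h1 : (fun z => (Matrix.toEuclideanCLM (𝕜 := ℂ) (M z) :
      EuclideanSpace ℂ (FI d) →L[ℂ] EuclideanSpace ℂ (FI d))) = fun z => ∑ i, ∑ j, M z i j •
      Matrix.toEuclideanCLM (𝕜 := ℂ) (Matrix.single i j (1 : ℂ)) := by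
    funext z
    conv_lhs => rw [Matrix.matrix_eq_sum_single (M z)]
    simp only [map_sum]
    refine Finset.sum_congr rfl fun i _ => Finset.sum_congr rfl fun j _ => ?_
    rw [← map_smul, Matrix.smul_single, smul_eq_mul, mul_one]
  rw [h1]
  refine ContDiffAt.sum fun i _ => ContDiffAt.sum fun j _ => ?_
  exact (hM i j).smul (contDiffAt_const (c := (Matrix.toEuclideanCLM (n := FI d) (𝕜 := ℂ)
      (Matrix.single i j (1 : ℂ)) : EuclideanSpace ℂ (FI d) →L[ℂ] EuclideanSpace ℂ (FI d))))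

theorem contDiffOn_GG (B : HB d X ι) (i : ι) (he : e ∈ atlas (Cm d) X) :
    ContDiffOn ℝ ∞ (B.GG i e) (dom B.L i e) := by
  intro z hz
  have hz' := At.of_dom he hz
  have h1 := B.HM_smooth hz'.1 hz'.2.1
  rw [hz'.2.2] at h1
  exact (contDiffAt_toCLM h1).contDiffWithinAt

theorem S.smoothAt (s : B.S) (he : e ∈ atlas (Cm d) X) (hz : z ∈ dom B.L i e) :
    VC ∞ (s.f i e) z := by
  have hz' := At.of_dom he hz
  have := s.isSec.smooth i e _ hz'.1 hz'.2.1
  rwa [hz'.2.2] at this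

theorem S.smoothOn (s : B.S) (i : ι) (he : e ∈ atlas (Cm d) X) :
    ContDiffOn ℝ ∞ (s.f i e) (dom B.L i e) := fun z hz =>
  contDiffWithinAt_pi.2 fun p => (s.smoothAt he hz p).contDiffWithinAt

theorem inner_ext' (he₀ : e₀ ∈ atlas (Cm d) X) (hv : TestV (dom B.L i₀ e₀) v) (s : B.S) :
    inner ℂ (B.ext i₀ e₀ v) s =
      ∫ z, inner ℂ (v z) (B.GG i₀ e₀ z (WithLp.toLp 2 (s.f i₀ e₀ z))) := by
  set Ω := dom B.L i₀ e₀ with hΩ
  have hF : ∀ z ∉ Ω, inner ℂ (v z) (B.GG i₀ e₀ z (WithLp.toLp 2 (s.f i₀ e₀ z))) = 0 := by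
    intro z hz
    rw [hv.zero_off fun h => hz (hv.supp h), inner_zero_left]
  have hKc : IsClosed (e₀.symm '' tsupport v) :=
    ((show IsCompact (tsupport v) from hv.cpt).image_of_continuousOn
      (e₀.continuousOn_symm.mono fun _ hz => (hv.supp hz).1)).isClosed
  have hKe : e₀.symm '' tsupport v ⊆ e₀.source := by
    rintro _ ⟨z, hz, rfl⟩; exact e₀.map_target (hv.supp hz).1
  have hKU : e₀.symm '' tsupport v ⊆ B.L.U i₀ := by
    rintro _ ⟨z, hz, rfl⟩; exact (hv.supp hz).2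
  have hsec := (B.ext i₀ e₀ v).isSec
  have h0 : ∀ i e x, At e x → x ∈ B.L.U i → x ∉ e₀.symm '' tsupport v →
      hX B.ρ B.w s.f (B.ext i₀ e₀ v).f i e (e x) = 0 := by
    intro i e x hx hi hxK
    have h0 : (B.ext i₀ e₀ v).f i e (e x) = 0 := by
      rw [ext_f he₀ hv, cut_at hx hi]
      by_cases h : x ∈ e₀.source ∧ x ∈ B.L.U i₀
      · rw [extF_at hx h.1 h.2]
        rw [hv.zero_off fun hk => hxK ⟨_, hk, e₀.left_inv h.1⟩]
        exact Matrix.mulVec_zero _
      · exact extF_at' hx h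
    show hw _ _ _ _ ((B.ext i₀ e₀ v).f i e (e x)) = 0
    rw [h0, hw_zero_right]
  show B.ipB s.f (B.ext i₀ e₀ v).f = _
  rw [ipB, ip, intC_of_support (B.dens s.isSec hsec) he₀ hKc hKe hKU h0,
    ← setIntegral_eq_integral_of_forall_compl_eq_zero hF]
  refine setIntegral_congr_fun (isOpen_dom B.L i₀ e₀).measurableSet fun z hz => ?_
  show hw _ _ _ (s.f i₀ e₀ z) ((B.ext i₀ e₀ v).f i₀ e₀ z) = _
  rw [ext_self he₀ hv hz]
  exact (inner_GG i₀ e₀ z _ _).symm

/-- the axioms of the `L²` theory -/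
def locSp (B : HB d X ι) (T : Triv B.L) :
    LocSp (volume : Measure (Cm d)) T.cov (EuclideanSpace ℂ (FI d)) B.S where
  r a s x := WithLp.toLp 2 (s.f (T.i a) (T.e a) x)
  r_add a s t x _ := rfl
  r_smul a c s x _ := rfl
  r_smooth a s := (PiLp.contDiff_toLp (p := 2)).comp_contDiffOn (s.smoothOn _ (T.mem a))
  ext a v := B.ext (T.i a) (T.e a) v
  r_ext a v hv x hx := by rw [ext_self (T.mem a) hv hx]
  G a := B.GG (T.i a) (T.e a)
  G_smooth a := B.contDiffOn_GG _ (T.mem a)
  G_symm a x hx v u := by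
    have hz' := At.of_dom (T.mem a) hx
    have hK := kat B.kahler hz'.1
    rw [hz'.2.2] at hK
    rw [← inner_conj_symm, inner_GG, inner_GG]
    exact hw_conj hK _ _
  G_pos a x hx v hv := by
    have hz' := At.of_dom (T.mem a) hx
    have hK := kat B.kahler hz'.1
    rw [hz'.2.2] at hK
    rw [inner_GG]
    exact hw_pos hK fun h => hv (by ext j; exact congrFun h j)
  inner_ext a v s hv := inner_ext' (T.mem a) hv s
  sum_ext s := by
    apply S.ext_f
    intro i e x hx hi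
    rw [S.sum_f]
    simp only [Finset.sum_apply]
    have key : ∀ a, (B.ext (T.i a) (T.e a) fun y => T.cov.χ a y •
        WithLp.toLp 2 (s.f (T.i a) (T.e a) y)).f i e (e x) =
        (((T.χ a) x : ℝ) : ℂ) • s.f i e (e x) := by
      intro a
      have hv : TestV (dom B.L (T.i a) (T.e a)) (fun y => T.cov.χ a y •
          (WithLp.toLp 2 (s.f (T.i a) (T.e a) y) : EuclideanSpace ℂ (FI d))) :=
        (T.cov.test a).smul (T.cov.isOpen a)
          ((PiLp.contDiff_toLp (p := 2)).comp_contDiffOn (s.smoothOn _ (T.mem a)))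
      rw [ext_f (T.mem a) hv, cut_at hx hi]
      by_cases h : x ∈ (T.e a).source ∧ x ∈ B.L.U (T.i a)
      · have hxa : At (T.e a) x := ⟨T.mem a, h.1⟩
        rw [extF_at hx h.1 h.2]
        have h2 : T.cov.χ a (T.e a x) = T.χ a x := by
          show chi _ _ _ _ _ = _
          rw [chi_eq (mem_dom hxa h.2), hxa.left_inv]
        simp only [h2]
        rw [s.isSec.tr hx hxa hi h.2, ← Matrix.mulVec_smul]
        congr 1
      · rw [extF_at' hx h, image_eq_zero_of_notMem_tsupport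
          fun h' => h ⟨T.supp a h', T.suppU a h'⟩]
        simp
    simp only [key]
    rw [← Finset.sum_smul, ← Complex.ofReal_sum, T.sum]
    simp

end HB

end Vale.Agent.P301.H862
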