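import Vale.Agent.P301.H862.Int

/-!
# P301, index theorem: formal adjoints and the Bochner-Kodaira-Nakano identity
-/

open scoped Manifold ContDiff ComplexOrder Topology Matrix
open Vale.Agent.P272.K Vale.Agent.P272.K.C2 Vale.Agent.P299.H954 Vale.Agent.P299.IX
open Vale.Agent.P301.H599 MeasureTheory Set

set_option linter.unusedSectionVars false

noncomputable section

namespace Vale.Agent.P301.H862

section loc

variable {n : ℕ} {w : Cm n → Matrix (Fin n) (Fin n) ℂ} {f : Cm n → ℝ} {z : Cm n}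
  {a b : Cm n → FI n → ℂ}

theorem contDiffAt_hw {m : WithTop ℕ∞} (hm : m ≤ ∞) (h : KAt w z) (hf : ContDiffAt ℝ m f z)
    (ha : VC m a z) (hb : VC m b z) : ContDiffAt ℝ m (fun y => hw f w y (a y) (b y)) z := by
  refine (contDiffAt_expw hf).mul ?_
  exact ((contDiffAt_rho h).of_le hm).mul (contDiffAt_pr (VC.mulVec ((MC_Ld h).mono hm) ha) hb)

theorem VC_upb_inf {l : Fin n} (h : KAt w z) (ha : VC ∞ a z) : VC ∞ (upb l w a) z :=
  VC.sum _ fun b _ => VC.smul (h.inv b l) (ha.DVb inf_add_one)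

theorem Dw_sum {τ : Type*} (s : Finset τ) {F : τ → Cm n → FI n → ℂ}
    (h : ∀ t ∈ s, VC 1 (F t) z) : Dw f (fun y => ∑ t ∈ s, F t y) z = ∑ t ∈ s, Dw f (F t) z := by
  simp only [Dw]
  rw [Finset.sum_comm]
  refine Finset.sum_congr rfl fun l _ => ?_
  rw [DV_sum s h, Finset.smul_sum, ← Finset.sum_sub_distrib, Matrix.mulVec_sum]

theorem De_sum {τ : Type*} (s : Finset τ) {F : τ → Cm n → FI n → ℂ}
    (h : ∀ t ∈ s, VC 1 (F t) z) : De w (fun y => ∑ t ∈ s, F t y) z = ∑ t ∈ s, De w (F t) z := by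
  simp only [De]
  rw [Finset.sum_neg_distrib, Finset.sum_comm]
  congr 1
  refine Finset.sum_congr rfl fun l _ => ?_
  rw [DVb_sum s h, Matrix.mulVec_sum]

end loc

variable {d : ℕ} {X : Type} [TopologicalSpace X] {ι : Type} [ChartedSpace (Cm d) X]

/-- smooth real functions -/
abbrev SmR (d : ℕ) {X : Type} [TopologicalSpace X] [ChartedSpace (Cm d) X] (χ : X → ℝ) : Prop :=
  ∀ (e : Chart d X) (x : X), At e x → ContDiffAt ℝ ∞ (fun z => χ (e.symm z)) (e x)

/-- multiplication by a real function -/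
def mulR (χ : X → ℝ) (g : Fam d X ι) : Fam d X ι := fun i e z => ((χ (e.symm z) : ℝ) : ℂ) • g i e z

variable {L : LineBundle d X ι} {g h : Fam d X ι} {χ : X → ℝ}

theorem IsSec.mulR (hg : IsSec L g) (hχ : SmR d χ) : IsSec L (mulR χ g) where
  smooth i e x hx hi := VC.smul (contDiffAt_ofReal (hχ e x hx)) (hg.smooth i e x hx hi)
  change i j e e' x hx h' hi hj := by
    show ((χ (e.symm (e x)) : ℝ) : ℂ) • g i e (e x) =
      (_ : Matrix _ _ ℂ) *ᵥ (((χ (e'.symm (e' x)) : ℝ) : ℂ) • g j e' (e' x))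
    rw [hx.left_inv, h'.left_inv, hg.change i j e e' x hx h' hi hj, Matrix.mulVec_smul]

theorem IsSec.add (hg : IsSec L g) (hh : IsSec L h) : IsSec L (g + h) where
  smooth i e x hx hi := (hg.smooth i e x hx hi).add (hh.smooth i e x hx hi)
  change i j e e' x hx h' hi hj := by
    show g i e (e x) + h i e (e x) = (_ : Matrix _ _ ℂ) *ᵥ (g j e' (e' x) + h j e' (e' x))
    rw [hg.change i j e e' x hx h' hi hj, hh.change i j e e' x hx h' hi hj, Matrix.mulVec_add]

variable {ρ : ι → X → ℝ} {w : Chart d X → Cm d → Matrix (Fin d) (Fin d) ℂ}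

section

variable [IsManifold 𝓘(ℂ, Cm d) ω X]

theorem IsSec.isDens_hX (hρ : IsMetric L ρ) (hk : IsKahler w) (hg : IsSec L g) (hh : IsSec L h) :
    IsDens L (hX ρ w g h) where
  cont i e x hx hi := (contDiffAt_hw le_rfl (kat hk hx) (hρ.smooth i e x hx hi)
    (hg.smooth i e x hx hi) (hh.smooth i e x hx hi)).continuousAt
  change i j e e' x hx h' hi hj := by
    have h1 := (trAt hx h' hi hj).cov_hw (w := w e) (w' := w e') (wtr hk hx h')
      (f := wt ρ i e) (f' := wt ρ j e') (IsMetric.ev hρ hx h' hi hj).self_of_nhds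
      (g j e' (e' x)) (h j e' (e' x))
    rw [tm_eq hx, cc_eq hx, ← hg.change i j e e' x hx h' hi hj,
      ← hh.change i j e e' x hx h' hi hj] at h1
    exact h1

theorem contDiffAt_grad {w : Cm d → Matrix (Fin d) (Fin d) ℂ} {f : Cm d → ℝ} {z : Cm d}
    {a b : Cm d → FI d → ℂ} (h : KAt w z) (hf : ContDiffAt ℝ ∞ f z) (ha : VC ∞ a z)
    (hb : VC ∞ b z) :
    ContDiffAt ℝ ∞ (fun y => ∑ l, ∑ c, (w y)⁻¹ c l * hw f w y (DVb c a y) (DVb l b y)) z := by
  refine ContDiffAt.sum fun l _ => ContDiffAt.sum fun c _ => (h.inv c l).mul ?_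
  exact contDiffAt_hw le_rfl h hf (ha.DVb inf_add_one) (hb.DVb inf_add_one)

theorem IsSec.isDens_gradX (hρ : IsMetric L ρ) (hk : IsKahler w) (hg : IsSec L g)
    (hh : IsSec L h) : IsDens L (gradX ρ w g h) where
  cont i e x hx hi := (contDiffAt_grad (kat hk hx) (hρ.smooth i e x hx hi)
    (hg.smooth i e x hx hi) (hh.smooth i e x hx hi)).continuousAt
  change i j e e' x hx h' hi hj := by
    have h1 := (trAt hx h' hi hj).cov_grad (w := w e) (w' := w e') (wtr hk hx h')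
      (f := wt ρ i e) (f' := wt ρ j e') (IsMetric.ev hρ hx h' hi hj).self_of_nhds
      (a := g i e) (a' := g j e') (c := h i e) (c' := h j e')
      (by rw [cc_eq hx]; exact (hg.smooth j e' x h' hj).mono TrAt.one_le_inf)
      (by rw [cc_eq hx]; exact (hh.smooth j e' x h' hj).mono TrAt.one_le_inf)
      (hg.ev hx h' hi hj) (hh.ev hx h' hi hj)
    rw [cc_eq hx] at h1
    exact h1

end

/-- a finite partition of unity subordinate to trivialisations of `L` -/
structure Triv (L : LineBundle d X ι) where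
  N : ℕ
  e : Fin N → Chart d X
  i : Fin N → ι
  χ : Fin N → X → ℝ
  mem : ∀ a, e a ∈ atlas (Cm d) X
  smooth : ∀ a, SmR d (χ a)
  cont : ∀ a, Continuous (χ a)
  nonneg : ∀ a x, 0 ≤ χ a x
  supp : ∀ a, tsupport (χ a) ⊆ (e a).source
  suppU : ∀ a, tsupport (χ a) ⊆ L.U (i a)
  sum : ∀ x, ∑ a, χ a x = 1

theorem exists_triv [IsManifold 𝓘(ℂ, Cm d) ω X] [T2Space X] [CompactSpace X]
    (L : LineBundle d X ι) : Nonempty (Triv L) := by
  have := INT.isManifold_real d X
  obtain ⟨t, ht⟩ := isCompact_univ.elim_finite_subcover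
    (fun x : X => (chartAt (Cm d) x).source ∩ L.U (ix L x))
    (fun x => (chartAt (Cm d) x).open_source.inter (L.isOpen _))
    (fun x _ => mem_iUnion.2 ⟨x, mem_chart_source _ x, mem_ix L x⟩)
  let N := t.card
  let c : Fin N → X := fun i => (t.equivFin.symm i : X)
  have hc : (univ : Set X) ⊆ ⋃ i, ((chartAt (Cm d) (c i)).source ∩ L.U (ix L (c i))) := by
    intro x hx
    obtain ⟨y, hy⟩ := mem_iUnion.1 (ht hx)
    obtain ⟨hyt, hxy⟩ := mem_iUnion.1 hy
    exact mem_iUnion.2 ⟨t.equivFin ⟨y, hyt⟩, by simpa [c] using hxy⟩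
  obtain ⟨f, hf⟩ := SmoothPartitionOfUnity.exists_isSubordinate 𝓘(ℝ, Cm d)
    isClosed_univ (fun i => (chartAt (Cm d) (c i)).source ∩ L.U (ix L (c i)))
    (fun i => (chartAt (Cm d) (c i)).open_source.inter (L.isOpen _)) hc
  refine ⟨⟨N, fun i => chartAt (Cm d) (c i), fun i => ix L (c i), fun i => f i,
    fun i => chart_mem_atlas _ _,
    fun i => INT.smoothFn_of_contMDiff (f i).contMDiff, fun i => (f i).contMDiff.continuous,
    fun i x => f.nonneg i x, fun i => (hf i).trans inter_subset_left,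
    fun i => (hf i).trans inter_subset_right, fun x => ?_⟩⟩
  have := f.sum_eq_one (mem_univ x)
  rwa [finsum_eq_sum_of_fintype] at this

theorem Triv.sum_mulR (P : Triv L) (g : Fam d X ι) (i : ι) (e : Chart d X) (z : Cm d) :
    ∑ a, mulR (P.χ a) g i e z = g i e z := by
  show ∑ a, ((P.χ a (e.symm z) : ℝ) : ℂ) • g i e z = _
  rw [← Finset.sum_smul, ← Complex.ofReal_sum, P.sum, Complex.ofReal_one, one_smul]

theorem mulR_zero_near {i : ι} {e : Chart d X} {x : X} (hx : At e x) (hχ : x ∉ tsupport χ) :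
    mulR χ g i e =ᶠ[𝓝 (e x)] fun _ => 0 := by
  have h1 : ∀ᶠ y in 𝓝 (e x), e.symm y ∈ (tsupport χ)ᶜ := by
    apply (e.continuousAt_symm (e.map_source hx.2)).eventually_mem
    rw [e.left_inv hx.2]
    exact (isClosed_tsupport χ).isOpen_compl.mem_nhds hχ
  filter_upwards [h1] with y hy
  show ((χ (e.symm y) : ℝ) : ℂ) • g i e y = 0
  rw [image_eq_zero_of_notMem_tsupport hy, Complex.ofReal_zero, zero_smul]

theorem Dw_zero {n : ℕ} {f : Cm n → ℝ} {a : Cm n → FI n → ℂ} {z : Cm n}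
    (h : a =ᶠ[𝓝 z] fun _ => 0) : Dw f a z = 0 := by
  have h1 : ∀ l, DV l a z = 0 := by
    intro l
    rw [DV_congr h]
    ext i
    exact C2.dz_const l 0
  simp only [Dw, h1, h.self_of_nhds, smul_zero, sub_zero, Matrix.mulVec_zero,
    Finset.sum_const_zero]

theorem DVb_zero {n : ℕ} {κ : Type*} {a : Cm n → κ → ℂ} {z : Cm n} {l : Fin n}
    (h : a =ᶠ[𝓝 z] fun _ => 0) : DVb l a z = 0 := by
  rw [DVb_congr h]
  ext i
  exact C2.dzb_const l 0

variable [IsManifold 𝓘(ℂ, Cm d) ω X] [T2Space X] [CompactSpace X]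

/-- the `L²` product -/
def ip (L : LineBundle d X ι) (ρ : ι → X → ℝ)
    (w : Chart d X → Cm d → Matrix (Fin d) (Fin d) ℂ) (g h : Fam d X ι) : ℂ := intC L (hX ρ w g h)

theorem ip_adj (hρ : IsMetric L ρ) (hk : IsKahler w) (hg : IsSec L g) (hh : IsSec L h) :
    ip L ρ w (DX ρ g) h = ip L ρ w g (dX w h) := by
  obtain ⟨P⟩ := exists_triv L
  have hga : ∀ a, IsSec L (mulR (P.χ a) g) := fun a => hg.mulR (P.smooth a)
  have hD : IsDens L (hX ρ w (DX ρ g) h) := (hg.DX hρ).isDens_hX hρ hk hh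
  have hd1 : ∀ a, IsDens L (hX ρ w (DX ρ (mulR (P.χ a) g)) h) := fun a =>
    ((hga a).DX hρ).isDens_hX hρ hk hh
  have hd2 : ∀ a, IsDens L (hX ρ w (mulR (P.χ a) g) (dX w h)) := fun a =>
    (hga a).isDens_hX hρ hk (hh.dX hk)
  have key : ∀ a, intC L (hX ρ w (DX ρ (mulR (P.χ a) g)) h) =
      intC L (hX ρ w (mulR (P.χ a) g) (dX w h)) := by
    intro a
    rw [← sub_eq_zero, ← intC_sub (hd1 a) (hd2 a)]
    refine intC_div ((hd1 a).sub (hd2 a)) (P.mem a) (i := P.i a) (isClosed_tsupport (P.χ a))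
      (P.supp a) (P.suppU a) ?_
      (V := fun l z => hw (wt ρ (P.i a) (P.e a)) (w (P.e a)) z
        (eps l *ᵥ mulR (P.χ a) g (P.i a) (P.e a) z) (h (P.i a) (P.e a) z)) ?_ ?_ ?_
    · intro i e x hx hi hxK
      have h1 := mulR_zero_near (g := g) (i := i) hx hxK
      show hw _ _ _ (Dw _ (mulR (P.χ a) g i e) (e x)) _ - hw _ _ _ (mulR (P.χ a) g i e (e x)) _ = 0
      rw [Dw_zero h1, h1.self_of_nhds, hw_zero_left, hw_zero_left, sub_zero]
    · intro l z hz
      have hz' := At.of_dom (P.mem a) hz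
      rw [← hz'.2.2]
      refine contDiffAt_hw TrAt.one_le_inf (kat hk hz'.1)
        ((hρ.smooth _ _ _ hz'.1 hz'.2.1).of_le TrAt.one_le_inf) (VC_constMul _ ?_) ?_
      · exact ((hga a).smooth _ _ _ hz'.1 hz'.2.1).mono TrAt.one_le_inf
      · exact (hh.smooth _ _ _ hz'.1 hz'.2.1).mono TrAt.one_le_inf
    · intro l z hz hzK
      have : mulR (P.χ a) g (P.i a) (P.e a) z = 0 := by
        show ((P.χ a ((P.e a).symm z) : ℝ) : ℂ) • _ = _
        rw [image_eq_zero_of_notMem_tsupport hzK, Complex.ofReal_zero, zero_smul]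
      show hw _ _ _ (_ *ᵥ mulR (P.χ a) g (P.i a) (P.e a) z) _ = 0
      rw [this, Matrix.mulVec_zero, hw_zero_left]
    · intro z hz
      have hz' := At.of_dom (P.mem a) hz
      have h1 := div_one_w (w := w (P.e a)) (f := wt ρ (P.i a) (P.e a)) (z := z)
        (a := mulR (P.χ a) g (P.i a) (P.e a)) (b := h (P.i a) (P.e a))
        (by rw [← hz'.2.2]; exact kat hk hz'.1)
        (by rw [← hz'.2.2]; exact (hρ.smooth _ _ _ hz'.1 hz'.2.1).of_le TrAt.one_le_inf)
        (by rw [← hz'.2.2]; exact ((hga a).smooth _ _ _ hz'.1 hz'.2.1).mono TrAt.one_le_inf)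
        (by rw [← hz'.2.2]; exact (hh.smooth _ _ _ hz'.1 hz'.2.1).mono TrAt.one_le_inf)
      exact h1.symm
  have e1 : ip L ρ w (DX ρ g) h = ∑ a, intC L (hX ρ w (DX ρ (mulR (P.χ a) g)) h) := by
    rw [← intC_sum Finset.univ fun a _ => hd1 a]
    refine intC_congr fun i e x hx hi => ?_
    show hw _ _ _ (Dw _ (g i e) (e x)) _ = ∑ a, hw _ _ _ (Dw _ (mulR (P.χ a) g i e) (e x)) _
    have h1 : g i e = fun z => ∑ a, mulR (P.χ a) g i e z := by
      funext z; exact (P.sum_mulR g i e z).symm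
    rw [← hw_sum_left, ← Dw_sum Finset.univ fun a _ =>
      ((hga a).smooth i e x hx hi).mono TrAt.one_le_inf, ← h1]
  have e2 : ip L ρ w g (dX w h) = ∑ a, intC L (hX ρ w (mulR (P.χ a) g) (dX w h)) := by
    rw [← intC_sum Finset.univ fun a _ => hd2 a]
    refine intC_congr fun i e x hx hi => ?_
    show hw _ _ _ (g i e (e x)) _ = ∑ a, hw _ _ _ (mulR (P.χ a) g i e (e x)) _
    rw [← hw_sum_left, P.sum_mulR]
  rw [e1, e2]
  exact Finset.sum_congr rfl fun a _ => key a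

theorem ip_conj (hk : IsKahler w) (g h : Fam d X ι) :
    (starRingEnd ℂ) (ip L ρ w g h) = ip L ρ w h g := by
  rw [ip, ← intC_conj]
  refine intC_congr fun i e x hx hi => ?_
  exact hw_conj (kat hk hx) _ _

theorem ip_adj' (hρ : IsMetric L ρ) (hk : IsKahler w) (hg : IsSec L g) (hh : IsSec L h) :
    ip L ρ w (dX w g) h = ip L ρ w g (DX ρ h) := by
  rw [← ip_conj hk, ← ip_adj hρ hk hh hg, ip_conj hk]

/-- the Laplacian -/
def lapX (ρ : ι → X → ℝ) (w : Chart d X → Cm d → Matrix (Fin d) (Fin d) ℂ) (g : Fam d X ι) :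
    Fam d X ι := fun i e z => DX ρ (dX w g) i e z + dX w (DX ρ g) i e z

omit [T2Space X] [CompactSpace X] in
theorem IsSec.lapX (hρ : IsMetric L ρ) (hk : IsKahler w) (hg : IsSec L g) :
    IsSec L (lapX ρ w g) := ((hg.dX hk).DX hρ).add ((hg.DX hρ).dX hk)

/-- **BKN**, integrated -/
theorem ip_lap (hρ : IsMetric L ρ) (hk : IsKahler w) (hg : IsSec L g) (hh : IsSec L h) :
    ip L ρ w (lapX ρ w g) h = ip L ρ w (QX ρ w g) h + intC L (gradX ρ w g h) := by
  obtain ⟨P⟩ := exists_triv L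
  have hha : ∀ a, IsSec L (mulR (P.χ a) h) := fun a => hh.mulR (P.smooth a)
  have hL := hg.lapX hρ hk
  have hQ := hg.QX hρ hk
  have hd1 : ∀ a, IsDens L (hX ρ w (lapX ρ w g) (mulR (P.χ a) h)) := fun a =>
    hL.isDens_hX hρ hk (hha a)
  have hd2 : ∀ a, IsDens L (hX ρ w (QX ρ w g) (mulR (P.χ a) h)) := fun a =>
    hQ.isDens_hX hρ hk (hha a)
  have hd3 : ∀ a, IsDens L (gradX ρ w g (mulR (P.χ a) h)) := fun a =>
    hg.isDens_gradX hρ hk (hha a)
  have key : ∀ a, intC L (hX ρ w (lapX ρ w g) (mulR (P.χ a) h)) =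
      intC L (hX ρ w (QX ρ w g) (mulR (P.χ a) h)) + intC L (gradX ρ w g (mulR (P.χ a) h)) := by
    intro a
    have hden := ((hd2 a).add (hd3 a)).sub (hd1 a)
    have h0 : intC L (fun i e z => (hX ρ w (QX ρ w g) (mulR (P.χ a) h) i e z +
        gradX ρ w g (mulR (P.χ a) h) i e z) - hX ρ w (lapX ρ w g) (mulR (P.χ a) h) i e z) = 0 := by
      refine intC_div hden (P.mem a) (i := P.i a) (isClosed_tsupport (P.χ a))
        (P.supp a) (P.suppU a) ?_
        (V := fun l z => hw (wt ρ (P.i a) (P.e a)) (w (P.e a)) z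
          (upb l (w (P.e a)) (g (P.i a) (P.e a)) z) (mulR (P.χ a) h (P.i a) (P.e a) z)) ?_ ?_ ?_
      · intro i e x hx hi hxK
        have h1 := mulR_zero_near (g := h) (i := i) hx hxK
        show (hw _ _ _ _ (mulR (P.χ a) h i e (e x)) + ∑ l, ∑ b, (w e (e x))⁻¹ b l *
          hw _ _ _ _ (DVb l (mulR (P.χ a) h i e) (e x))) -
          hw _ _ _ _ (mulR (P.χ a) h i e (e x)) = 0
        simp only [DVb_zero h1, h1.self_of_nhds, hw_zero_right, mul_zero, Finset.sum_const_zero,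
          add_zero, sub_zero]
      · intro l z hz
        have hz' := At.of_dom (P.mem a) hz
        rw [← hz'.2.2]
        refine contDiffAt_hw TrAt.one_le_inf (kat hk hz'.1)
          ((hρ.smooth _ _ _ hz'.1 hz'.2.1).of_le TrAt.one_le_inf) ?_ ?_
        · exact (VC_upb_inf (kat hk hz'.1) (hg.smooth _ _ _ hz'.1 hz'.2.1)).mono TrAt.one_le_inf
        · exact ((hha a).smooth _ _ _ hz'.1 hz'.2.1).mono TrAt.one_le_inf
      · intro l z hz hzK
        have : mulR (P.χ a) h (P.i a) (P.e a) z = 0 := by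
          show ((P.χ a ((P.e a).symm z) : ℝ) : ℂ) • _ = _
          rw [image_eq_zero_of_notMem_tsupport hzK, Complex.ofReal_zero, zero_smul]
        show hw _ _ _ _ (mulR (P.χ a) h (P.i a) (P.e a) z) = 0
        rw [this, hw_zero_right]
      · intro z hz
        have hz' := At.of_dom (P.mem a) hz
        have h1 := div_two_w (w := w (P.e a)) (f := wt ρ (P.i a) (P.e a)) (z := z)
          (a := g (P.i a) (P.e a)) (c := mulR (P.χ a) h (P.i a) (P.e a))
          (by rw [← hz'.2.2]; exact kat hk hz'.1)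
          (by rw [← hz'.2.2]; exact (hρ.smooth _ _ _ hz'.1 hz'.2.1).of_le two_le_inf)
          (by rw [← hz'.2.2]; exact (hg.smooth _ _ _ hz'.1 hz'.2.1).mono two_le_inf)
          (by rw [← hz'.2.2]; exact ((hha a).smooth _ _ _ hz'.1 hz'.2.1).mono TrAt.one_le_inf)
        rw [h1]
        show (hw _ _ _ _ _ + gradX ρ w g (mulR (P.χ a) h) (P.i a) (P.e a) z) - hw _ _ _ _ _ = _
        rw [add_assoc, neg_add_eq_sub]
        rfl
    rw [intC_sub ((hd2 a).add (hd3 a)) (hd1 a), intC_add (hd2 a) (hd3 a), sub_eq_zero] at h0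
    exact h0.symm
  have hsum : ∀ u : Fam d X ι, IsSec L u → ip L ρ w u h =
      ∑ a, intC L (hX ρ w u (mulR (P.χ a) h)) := by
    intro u hu
    rw [← intC_sum Finset.univ fun a _ => hu.isDens_hX hρ hk (hha a)]
    refine intC_congr fun i e x hx hi => ?_
    show hw _ _ _ _ (h i e (e x)) = ∑ a, hw _ _ _ _ (mulR (P.χ a) h i e (e x))
    rw [← hw_sum_right, P.sum_mulR]
  have hsum2 : intC L (gradX ρ w g h) = ∑ a, intC L (gradX ρ w g (mulR (P.χ a) h)) := by
    rw [← intC_sum Finset.univ fun a _ => hd3 a]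
    refine intC_congr fun i e x hx hi => ?_
    have h1 : h i e = fun z => ∑ a, mulR (P.χ a) h i e z := by
      funext z; exact (P.sum_mulR h i e z).symm
    have h2 : ∀ l, DVb l (h i e) (e x) = ∑ a, DVb l (mulR (P.χ a) h i e) (e x) := by
      intro l
      conv_lhs => rw [h1]
      exact DVb_sum Finset.univ fun a _ => ((hha a).smooth i e x hx hi).mono TrAt.one_le_inf
    show ∑ l, ∑ b, (w e (e x))⁻¹ b l * hw _ _ _ _ (DVb l (h i e) (e x)) =
      ∑ a, ∑ l, ∑ b, (w e (e x))⁻¹ b l * hw _ _ _ _ (DVb l (mulR (P.χ a) h i e) (e x))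
    simp only [h2, hw_sum_right, Finset.mul_sum]
    conv_rhs => rw [Finset.sum_comm]
    refine Finset.sum_congr rfl fun l _ => ?_
    rw [Finset.sum_comm]
  rw [hsum _ hL, hsum _ hQ, hsum2, ← Finset.sum_add_distrib]
  exact Finset.sum_congr rfl fun a _ => key a

/-- **BKN** -/
theorem bkn (hρ : IsMetric L ρ) (hk : IsKahler w) (hg : IsSec L g) :
    ip L ρ w (DX ρ g) (DX ρ g) + ip L ρ w (dX w g) (dX w g) =
      ip L ρ w (QX ρ w g) g + intC L (gradX ρ w g g) := by
  rw [← ip_lap hρ hk hg hg]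
  have h1 : ip L ρ w (lapX ρ w g) g = ip L ρ w (DX ρ (dX w g)) g + ip L ρ w (dX w (DX ρ g)) g := by
    rw [ip, ip, ip, ← intC_add (((hg.dX hk).DX hρ).isDens_hX hρ hk hg)
      (((hg.DX hρ).dX hk).isDens_hX hρ hk hg)]
    refine intC_congr fun i e x hx hi => ?_
    exact hw_add_left _ _ _
  rw [h1, ip_adj hρ hk (hg.dX hk) hg, ip_adj' hρ hk (hg.DX hρ) hg, add_comm]

end Vale.Agent.P301.H862
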