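import Vale.Agent.P301.H862.Oper

/-!
# P301, index theorem: `D' + δ` satisfies the axioms `LocOp`; bounded operators
-/

open scoped Manifold ContDiff ComplexOrder Topology Matrix ComplexConjugate
open Vale.Agent.P272.K Vale.Agent.P272.K.C2 Vale.Agent.P299.H954 Vale.Agent.P299.IX
open Vale.Agent.P301.H599 MeasureTheory Set Filter Vale.Agent.P299.H863
open Vale.Agent.P299.IX.Fock
open Vale.Agent.P272.K.INT (intX IsDensity intX_add intX_sub intX_const_mul intX_congr intX_nonneg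
  intX_mono intX_of_support intX_sum)

set_option linter.unusedSectionVars false

noncomputable section

namespace Vale.Agent.P301.H862

section loc

variable {n : ℕ} {w : Cm n → Matrix (Fin n) (Fin n) ℂ} {f : Cm n → ℝ} {z : Cm n}
  {a b : Cm n → FI n → ℂ}

theorem contDiffAt_mR {M : Cm n → Matrix (FI n) (FI n) ℂ} {z : Cm n} (hM : MC ∞ M z) :
    ContDiffAt ℝ ∞ (fun z => mR (M z)) z :=
  (ContinuousLinearMap.restrictScalarsL ℂ (EuclideanSpace ℂ (FI n)) (EuclideanSpace ℂ (FI n))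
    ℝ ℝ).contDiff.contDiffAt.comp z (HB.contDiffAt_toCLM hM)

/-- the principal part of `D' + δ` -/
def pa (w : Cm n → Matrix (Fin n) (Fin n) ℂ) (z : Cm n) :
    (Cm n →L[ℝ] EuclideanSpace ℂ (FI n)) →L[ℝ] EuclideanSpace ℂ (FI n) :=
  ∑ l, ((mR (eps l)).comp (dzE (EuclideanSpace ℂ (FI n)) l) -
    (mR (epd l w z)).comp (dzbE (EuclideanSpace ℂ (FI n)) l))

/-- the zeroth order part of `D' + δ` -/
def pb (f : Cm n → ℝ) (z : Cm n) : EuclideanSpace ℂ (FI n) →L[ℝ] EuclideanSpace ℂ (FI n) :=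
  mR (-∑ l, dz l (cw f) z • eps l)

theorem toLp_DD (ha : VC 1 a z) : WithLp.toLp 2 (Dw f a z + De w a z) =
    pa w z (fderiv ℝ (fun y => WithLp.toLp 2 (a y)) z) + pb f z (WithLp.toLp 2 (a z)) := by
  rw [pa, _root_.sum_apply]
  simp only [_root_.sub_apply, ContinuousLinearMap.comp_apply, dzE_fderiv ha,
    dzbE_fderiv ha, mR_apply, pb]
  simp only [← WithLp.toLp_sub]
  rw [← WithLp.toLp_sum, ← WithLp.toLp_add]
  congr 1
  simp only [Dw, De, Matrix.mulVec_sub, Finset.sum_sub_distrib, Matrix.neg_mulVec,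
    Matrix.sum_mulVec, Matrix.smul_mulVec, Matrix.mulVec_smul]
  abel

theorem contDiffAt_pa (h : KAt w z) : ContDiffAt ℝ ∞ (pa w) z := by
  unfold pa
  refine ContDiffAt.sum fun l _ => ContDiffAt.sub contDiffAt_const ?_
  exact (contDiffAt_mR (MC_epd h l)).clm_comp contDiffAt_const

theorem contDiffAt_pb (hf : ContDiffAt ℝ ∞ f z) : ContDiffAt ℝ ∞ (pb f) z := by
  unfold pb
  refine contDiffAt_mR fun p q => ?_
  simp only [Matrix.neg_apply, Matrix.sum_apply, Matrix.smul_apply, smul_eq_mul]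
  refine ContDiffAt.neg (ContDiffAt.sum fun l _ => ContDiffAt.mul ?_ contDiffAt_const)
  exact contDiffAt_dz l (cw_contDiffAt hf) inf_add_one

end loc

variable {d : ℕ} {X : Type} [TopologicalSpace X] {ι : Type} [ChartedSpace (Cm d) X]
  [IsManifold 𝓘(ℂ, Cm d) ω X] [T2Space X] [CompactSpace X]
  {B B' : HB d X ι} {g h : Fam d X ι} {i j : ι} {e e' : Chart d X} {x : X} {z : Cm d}

namespace HB

theorem katz (B : HB d X ι) (he : e ∈ atlas (Cm d) X) (hz : z ∈ dom B.L i e) :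
    KAt (B.w e) z := by
  have hz' := At.of_dom he hz
  have := kat B.kahler hz'.1
  rwa [hz'.2.2] at this

theorem wtz (B : HB d X ι) (he : e ∈ atlas (Cm d) X) (hz : z ∈ dom B.L i e) :
    ContDiffAt ℝ ∞ (wt B.ρ i e) z := by
  have hz' := At.of_dom he hz
  have := B.metric.smooth i e _ hz'.1 hz'.2.1
  rwa [hz'.2.2] at this

theorem D_z (s : B.S) (he : e ∈ atlas (Cm d) X) (hz : z ∈ dom B.L i e) :
    (B.D s).f i e z = Dw (wt B.ρ i e) (s.f i e) z + De (B.w e) (s.f i e) z := by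
  have hz' := At.of_dom he hz
  have := D_at s hz'.1 hz'.2.1
  rwa [hz'.2.2] at this

/-- `D' + δ` is a local operator -/
def locOp (B : HB d X ι) (T : Triv B.L) : LocOp (B.locSp T) (B.locSp T) B.D where
  a a := pa (B.w (T.e a))
  b a := pb (wt B.ρ (T.i a) (T.e a))
  a_smooth a _ hz := (contDiffAt_pa (B.katz (T.mem a) hz)).contDiffWithinAt
  b_smooth a _ hz := (contDiffAt_pb (B.wtz (T.mem a) hz)).contDiffWithinAt
  r_D a s z hz := by
    have h1 := D_z s (T.mem a) hz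
    have h2 : VC 1 (s.f (T.i a) (T.e a)) z := (s.smoothAt (T.mem a) hz).mono TrAt.one_le_inf
    exact (congrArg (WithLp.toLp 2) h1).trans (toLp_DD h2)

theorem comm (B : HB d X ι) (T : Triv B.L) :
    SmoothingComm B.D (B.locSp T).J (B.locSp T).J :=
  LocOp.smoothingComm (B.locOp T) (B.locOp T) fun u v => D_symm u v

/-! ### zeroth order operators -/

/-- uniform comparison on compact sets in a chart -/
theorem exists_bound_chart (B B' : HB d X ι) {M : Cm d → Matrix (FI d) (FI d) ℂ}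
    (he : e ∈ atlas (Cm d) X) {K : Set (Cm d)} (hK : IsCompact K) (hKe : K ⊆ dom B.L i e)
    (hKe' : K ⊆ dom B'.L i e) (hM : ∀ z ∈ K, MC ∞ M z) : ∃ C : ℝ, 0 ≤ C ∧ ∀ z ∈ K,
    ∀ v : FI d → ℂ, (hw (wt B'.ρ i e) (B'.w e) z (M z *ᵥ v) (M z *ᵥ v)).re ≤
      C * (hw (wt B.ρ i e) (B.w e) z v v).re := by
  have hG := (B.contDiffOn_GG i he).continuousOn.mono hKe
  have hG' := (B'.contDiffOn_GG i he).continuousOn.mono hKe'
  have hMc : ContinuousOn (fun z => (Matrix.toEuclideanCLM (𝕜 := ℂ) (M z) :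
      EuclideanSpace ℂ (FI d) →L[ℂ] EuclideanSpace ℂ (FI d))) K := fun z hz =>
    (contDiffAt_toCLM (hM z hz)).continuousAt.continuousWithinAt
  obtain ⟨m, hm, hmb⟩ := exists_lower hK hG fun z hz v hv => by
    rw [inner_GG]
    exact hw_pos (B.katz he (hKe hz)) fun h => hv (by ext j; exact congrFun h j)
  obtain ⟨C₁, hC₁, h₁⟩ := exists_bound_on hK hG'
  obtain ⟨C₂, hC₂, h₂⟩ := exists_bound_on hK hMc
  refine ⟨C₁ * C₂ ^ 2 / m, by positivity, fun z hz v => ?_⟩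
  set V : EuclideanSpace ℂ (FI d) := WithLp.toLp 2 v with hV
  set W : EuclideanSpace ℂ (FI d) := Matrix.toEuclideanCLM (𝕜 := ℂ) (M z) V with hW
  have hWo : W.ofLp = M z *ᵥ v := by rw [hW, Matrix.ofLp_toEuclideanCLM]
  have e1 : hw (wt B'.ρ i e) (B'.w e) z (M z *ᵥ v) (M z *ᵥ v) = inner ℂ W (B'.GG i e z W) := by
    rw [inner_GG, hWo]
  have e2 : hw (wt B.ρ i e) (B.w e) z v v = inner ℂ V (B.GG i e z V) := by
    rw [inner_GG]
  rw [e1, e2]
  have h3 : (inner ℂ W (B'.GG i e z W)).re ≤ C₁ * ‖W‖ ^ 2 := by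
    calc (inner ℂ W (B'.GG i e z W)).re ≤ ‖inner ℂ W (B'.GG i e z W)‖ := Complex.re_le_norm _
      _ ≤ ‖W‖ * ‖B'.GG i e z W‖ := norm_inner_le_norm _ _
      _ ≤ ‖W‖ * (C₁ * ‖W‖) := by
        gcongr
        exact ((B'.GG i e z).le_opNorm _).trans (by gcongr; exact h₁ z hz)
      _ = _ := by ring
  have h4 : ‖W‖ ≤ C₂ * ‖V‖ := (ContinuousLinearMap.le_opNorm _ _).trans (by
    gcongr; exact h₂ z hz)
  have h5 := hmb z hz V
  calc (inner ℂ W (B'.GG i e z W)).re ≤ C₁ * ‖W‖ ^ 2 := h3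
    _ ≤ C₁ * (C₂ * ‖V‖) ^ 2 := by gcongr
    _ = C₁ * C₂ ^ 2 / m * (m * ‖V‖ ^ 2) := by field_simp
    _ ≤ _ := by gcongr

theorem density_le_of_chart {D D' : Chart d X → Cm d → ℝ} (hD : IsDensity D) (hD' : IsDensity D')
    (hx' : At e' x) (h : D e' (e' x) ≤ D' e' (e' x)) (hx : At e x) : D e (e x) ≤ D' e (e x) := by
  rw [hD.change e e' x hx hx', hD'.change e e' x hx hx']
  gcongr

theorem norm_sq_eq' (s : B.S) : ‖s‖ ^ 2 = intX (reD B.L (hX B.ρ B.w s.f s.f)) := by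
  rw [norm_sq_eq, ipB, ip, intC_re]

/-- an operator given locally by smooth matrices is bounded -/
theorem bounded_of_local (B B' : HB d X ι) (hU : ∀ i, B'.L.U i ⊆ B.L.U i)
    (M : ι → Chart d X → Cm d → Matrix (FI d) (FI d) ℂ)
    (hM : ∀ i e x, At e x → x ∈ B'.L.U i → MC ∞ (M i e) (e x)) :
    ∃ C : ℝ, 0 ≤ C ∧ ∀ (s : B.S) (t : B'.S), (∀ i e x, At e x → x ∈ B'.L.U i →
      t.f i e (e x) = M i e (e x) *ᵥ s.f i e (e x)) → ‖t‖ ≤ C * ‖s‖ := by
  obtain ⟨T⟩ := exists_triv B'.L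
  have hsub : ∀ a, T.e a '' tsupport (T.χ a) ⊆ dom B'.L (T.i a) (T.e a) := by
    rintro a _ ⟨x, hx, rfl⟩
    exact mem_dom ⟨T.mem a, T.supp a hx⟩ (T.suppU a hx)
  have hsub' : ∀ a, T.e a '' tsupport (T.χ a) ⊆ dom B.L (T.i a) (T.e a) := fun a z hz =>
    ⟨(hsub a hz).1, hU _ (hsub a hz).2⟩
  have h1 : ∀ a, ∃ C : ℝ, 0 ≤ C ∧ ∀ z ∈ T.e a '' tsupport (T.χ a), ∀ v : FI d → ℂ,
      (hw (wt B'.ρ (T.i a) (T.e a)) (B'.w (T.e a)) z (M (T.i a) (T.e a) z *ᵥ v)
        (M (T.i a) (T.e a) z *ᵥ v)).re ≤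
      C * (hw (wt B.ρ (T.i a) (T.e a)) (B.w (T.e a)) z v v).re := fun a =>
    exists_bound_chart B B' (T.mem a) (isCompact_image_supp (T.supp a)) (hsub' a) (hsub a) (by
      rintro _ ⟨x, hx, rfl⟩
      exact hM _ _ x ⟨T.mem a, T.supp a hx⟩ (T.suppU a hx))
  choose C hC0 hC using h1
  have hCs : 0 ≤ ∑ a, C a := Finset.sum_nonneg fun a _ => hC0 a
  refine ⟨Real.sqrt (∑ a, C a), Real.sqrt_nonneg _, fun s t hst => ?_⟩
  refine abs_le_of_sq_le_sq' ?_ (by positivity) |>.2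
  rw [mul_pow, Real.sq_sqrt hCs, norm_sq_eq', norm_sq_eq', ← intX_const_mul]
  have hDt := (B'.dens t.isSec t.isSec)
  have hDs := (B.dens s.isSec s.isSec)
  refine intX_mono hDt.isDensity_re (hDs.isDensity_re.const_mul _) fun e x hx => ?_
  obtain ⟨a, ha⟩ : ∃ a, T.χ a x ≠ 0 := by
    by_contra hcon
    push Not at hcon
    have := T.sum x
    rw [Finset.sum_eq_zero fun i _ => hcon i] at this
    exact zero_ne_one this
  have hxs : x ∈ tsupport (T.χ a) := subset_tsupport _ ha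
  have hxa : At (T.e a) x := ⟨T.mem a, T.supp a hxs⟩
  have hxU := T.suppU a hxs
  refine density_le_of_chart hDt.isDensity_re (hDs.isDensity_re.const_mul _) hxa ?_ hx
  rw [reD_eq hDt hxa hxU]
  show _ ≤ _ * reD B.L _ _ _
  rw [reD_eq hDs hxa (hU _ hxU)]
  have h6 := hC a (T.e a x) ⟨x, hxs, rfl⟩ (s.f (T.i a) (T.e a) (T.e a x))
  rw [← hst _ _ x hxa hxU] at h6
  refine h6.trans ?_
  have h7 : 0 ≤ (hw (wt B.ρ (T.i a) (T.e a)) (B.w (T.e a)) (T.e a x)
      (s.f (T.i a) (T.e a) (T.e a x)) (s.f (T.i a) (T.e a) (T.e a x))).re :=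
    hw_nonneg (kat B.kahler hxa) _
  have h8 : C a ≤ ∑ a, C a := Finset.single_le_sum (fun i _ => hC0 i) (Finset.mem_univ a)
  exact mul_le_mul_of_nonneg_right h8 h7

end HB

end Vale.Agent.P301.H862
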