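import Vale.Agent.P301.H862.Wt
import Vale.Agent.P272.K.Inv.Chart

/-!
# P301, index theorem: behaviour of the local operators under a change of trivialisation
-/

open scoped Manifold ContDiff ComplexOrder Topology Matrix
open Vale.Agent.P272.K Vale.Agent.P272.K.C2 Vale.Agent.P299.H954 Vale.Agent.P299.IX

set_option linter.unusedSectionVars false

noncomputable section

namespace Vale.Agent.P301.H862

variable {n : ℕ}

/-- a holomorphic change of trivialisation near `z`: `τ` is the change of coordinates and `γ` the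
transition function -/
structure TrAt (τ : Cm n → Cm n) (γ : Cm n → ℂ) (z : Cm n) : Prop where
  hτ : ContDiffAt ℂ ω τ z
  hγ : ContDiffAt ℂ ω γ z
  det : (jmat τ z).det ≠ 0
  ne : γ z ≠ 0

/-- transition matrix of forms with values in the line bundle -/
def tm (τ : Cm n → Cm n) (γ : Cm n → ℂ) (y : Cm n) : Matrix (FI n) (FI n) ℂ :=
  γ y • lam (jmat τ y)ᵀ

variable {τ : Cm n → Cm n} {γ : Cm n → ℂ} {z : Cm n}

theorem contDiffAt_real {E F : Type*} [NormedAddCommGroup E] [NormedSpace ℂ E]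
    [NormedAddCommGroup F] [NormedSpace ℂ F] {g : E → F} {z : E} (h : ContDiffAt ℂ ω g z) :
    ContDiffAt ℝ ∞ g z := (h.restrict_scalars ℝ).of_le (by exact le_top)

theorem dz_log_norm_sq (h : ContDiffAt ℂ ω γ z) (h0 : γ z ≠ 0) (l : Fin n) :
    dz l (fun y => ((Real.log (‖γ y‖ ^ 2) : ℝ) : ℂ)) z = dz l γ z / γ z := by
  have hd : DifferentiableAt ℂ γ z := h.differentiableAt (by simp)
  have hdr : DifferentiableAt ℝ γ z := hd.restrictScalars ℝ
  have hn : DifferentiableAt ℝ (fun y => ‖γ y‖ ^ 2) z := hdr.norm_sq ℝ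
  have h1 := C2.dz_comp_real l (u := fun y => ‖γ y‖ ^ 2)
    (Real.hasDerivAt_log (pow_ne_zero 2 (norm_ne_zero_iff.2 h0))) hn
  rw [h1]
  have h2 : (fun y => ((‖γ y‖ ^ 2 : ℝ) : ℂ)) = fun y => γ y * (starRingEnd ℂ) (γ y) := by
    funext y
    rw [Complex.mul_conj, Complex.normSq_eq_norm_sq]
  rw [h2, C2.dz_mul l hdr (differentiableAt_conj hdr), C2.dz_conj l hdr, dzb_of_holo hd, map_zero,
    mul_zero, add_zero]
  have h3 : (((‖γ z‖ ^ 2)⁻¹ : ℝ) : ℂ) = (γ z * (starRingEnd ℂ) (γ z))⁻¹ := by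
    rw [Complex.mul_conj, Complex.normSq_eq_norm_sq, Complex.ofReal_inv]
  rw [h3]
  have h4 : (starRingEnd ℂ) (γ z) ≠ 0 := by simpa using h0
  field_simp

namespace TrAt

theorem eventually (h : TrAt τ γ z) : ∀ᶠ y in 𝓝 z, TrAt τ γ y := by
  have h1 : ∀ᶠ y in 𝓝 z, ContDiffAt ℂ ω τ y := h.hτ.eventually (by simp)
  have h2 : ∀ᶠ y in 𝓝 z, ContDiffAt ℂ ω γ y := h.hγ.eventually (by simp)
  have h3 : ∀ᶠ y in 𝓝 z, γ y ≠ 0 := h.hγ.continuousAt.eventually_ne h.ne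
  have h4 : ContinuousAt (fun y => (jmat τ y).det) z := by
    have : (fun y => (jmat τ y).det) = fun y => ∑ σ : Equiv.Perm (Fin n),
        (Equiv.Perm.sign σ : ℂ) * ∏ i, jmat τ y (σ i) i := by
      funext y; rw [Matrix.det_apply']
    rw [this]
    exact (ContDiffAt.sum fun σ _ => contDiffAt_const.mul (contDiffAt_prod fun i _ =>
      jmat_holo h.hτ _ _)).continuousAt (𝕜 := ℂ) (n := ω)
  filter_upwards [h1, h2, h3, h4.eventually_ne h.det] with y a b c d using ⟨a, b, d, c⟩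

theorem dτ (h : TrAt τ γ z) : DifferentiableAt ℂ τ z := h.hτ.differentiableAt (by simp)

theorem dγ (h : TrAt τ γ z) : DifferentiableAt ℂ γ z := h.hγ.differentiableAt (by simp)

theorem unit (h : TrAt τ γ z) : IsUnit (jmat τ z).det := isUnit_iff_ne_zero.2 h.det

theorem unitT (h : TrAt τ γ z) : IsUnit ((jmat τ z)ᵀ).det := by
  rw [Matrix.det_transpose]; exact h.unit

theorem MC_J (h : TrAt τ γ z) : MC ∞ (fun y => (jmat τ y)ᵀ) z := fun i j =>
  contDiffAt_real (jmat_holo h.hτ j i)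

theorem MC_tm (h : TrAt τ γ z) : MC ∞ (tm τ γ) z :=
  MC_smul (contDiffAt_real h.hγ) (MC_lam h.MC_J)

theorem DMb_J (h : TrAt τ γ z) (b : Fin n) : DMb b (fun y => (jmat τ y)ᵀ) z = 0 := by
  ext i j
  rw [DMb_apply, Matrix.zero_apply]
  exact dzb_of_holo ((jmat_holo h.hτ j i).differentiableAt (by simp))

theorem DMb_lamJ (h : TrAt τ γ z) (b : Fin n) : DMb b (fun y => lam (jmat τ y)ᵀ) z = 0 := by
  rw [DMb_lam (h.MC_J.mono (by exact_mod_cast le_top)) h.unitT.ne_zero, h.DMb_J, Matrix.zero_mul]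
  simp [dlam]

theorem DMb_smul {ι κ : Type*} {g : Cm n → ℂ} {F : Cm n → Matrix ι κ ℂ} {b : Fin n}
    (hg : ContDiffAt ℝ 1 g z) (hF : MC 1 F z) :
    DMb b (fun y => g y • F y) z = dzb b g z • F z + g z • DMb b F z := by
  ext i j
  exact C2.dzb_mul b (hg.differentiableAt one_ne_zero_inf)
    ((hF i j).differentiableAt one_ne_zero_inf)

theorem DM_smul {ι κ : Type*} {g : Cm n → ℂ} {F : Cm n → Matrix ι κ ℂ} {b : Fin n}
    (hg : ContDiffAt ℝ 1 g z) (hF : MC 1 F z) :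
    DM b (fun y => g y • F y) z = dz b g z • F z + g z • DM b F z := by
  ext i j
  exact C2.dz_mul b (hg.differentiableAt one_ne_zero_inf)
    ((hF i j).differentiableAt one_ne_zero_inf)

theorem one_le_inf : (1 : WithTop ℕ∞) ≤ ∞ := by exact_mod_cast le_top

theorem DMb_tm (h : TrAt τ γ z) (b : Fin n) : DMb b (tm τ γ) z = 0 := by
  have := DMb_smul (b := b) ((contDiffAt_real h.hγ).of_le one_le_inf)
    ((MC_lam h.MC_J).mono one_le_inf)
  show DMb b (fun y => γ y • lam (jmat τ y)ᵀ) z = 0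
  rw [this, h.DMb_lamJ, dzb_of_holo h.dγ, zero_smul, smul_zero, add_zero]

/-- symmetry of the second derivatives -/
theorem DM_J_symm (h : TrAt τ γ z) (l a c : Fin n) :
    DM l (fun y => (jmat τ y)ᵀ) z a c = DM a (fun y => (jmat τ y)ᵀ) z l c := by
  rw [DM_apply, DM_apply]
  have h1 : ContDiffAt ℝ 2 (fun y => τ y c) z := by
    have h2 : ContDiffAt ℂ ω (fun y => τ y c) z := (contDiffAt_pi.1 h.hτ) c
    exact (contDiffAt_real h2).of_le (by norm_cast)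
  exact C2.dz_dz_comm l a h1

theorem sum_eps_DM_lam (h : TrAt τ γ z) :
    ∑ l, eps l * DM l (fun y => lam (jmat τ y)ᵀ) z = 0 := by
  have h1 : ∀ l, DM l (fun y => lam (jmat τ y)ᵀ) z =
      dlam (DM l (fun y => (jmat τ y)ᵀ) z * ((jmat τ z)ᵀ)⁻¹) * lam (jmat τ z)ᵀ := fun l =>
    DM_lam (h.MC_J.mono one_le_inf) h.unitT.ne_zero l
  simp only [h1, ← Matrix.mul_assoc]
  rw [← Matrix.sum_mul]
  have h2 : ∀ l, eps l * dlam (DM l (fun y => (jmat τ y)ᵀ) z * ((jmat τ z)ᵀ)⁻¹) =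
      ∑ a, eps l * eps a * ∑ m, (DM l (fun y => (jmat τ y)ᵀ) z * ((jmat τ z)ᵀ)⁻¹) a m • iot m := by
    intro l
    simp only [dlam, Matrix.mul_sum]
    refine Finset.sum_congr rfl fun a _ => Finset.sum_congr rfl fun m _ => ?_
    rw [Matrix.mul_smul, Matrix.mul_smul, Matrix.mul_assoc]
  simp only [h2]
  rw [sum_eps_symm, Matrix.zero_mul]
  intro k l
  refine Finset.sum_congr rfl fun m _ => ?_
  congr 1
  rw [Matrix.mul_apply, Matrix.mul_apply]
  exact Finset.sum_congr rfl fun c _ => by rw [h.DM_J_symm]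

theorem sum_eps_DM_tm (h : TrAt τ γ z) :
    ∑ l, eps l * DM l (tm τ γ) z = ∑ l, (dz l γ z / γ z) • (eps l * tm τ γ z) := by
  have h1 : ∀ l, DM l (tm τ γ) z = dz l γ z • lam (jmat τ z)ᵀ +
      γ z • DM l (fun y => lam (jmat τ y)ᵀ) z := fun l =>
    DM_smul (b := l) ((contDiffAt_real h.hγ).of_le one_le_inf) ((MC_lam h.MC_J).mono one_le_inf)
  simp only [h1, Matrix.mul_add, Finset.sum_add_distrib, Matrix.mul_smul]
  rw [← Finset.smul_sum, h.sum_eps_DM_lam, smul_zero, add_zero]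
  refine Finset.sum_congr rfl fun l _ => ?_
  rw [tm, Matrix.mul_smul, smul_smul, div_mul_cancel₀ _ h.ne]

theorem sum_J_eps (p : Fin n) :
    (∑ l, jmat τ z p l • eps l) * tm τ γ z = tm τ γ z * eps p := by
  rw [tm, Matrix.mul_smul, Matrix.smul_mul, lam_eps]
  rfl

/-- the derivatives of a composition -/
theorem DV_comp {κ : Type*} (h : TrAt τ γ z) {a : Cm n → κ → ℂ} (ha : VC 1 a (τ z)) (l : Fin n) :
    DV l (fun y => a (τ y)) z = ∑ p, jmat τ z p l • DV p a (τ z) := by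
  ext i
  simp only [Finset.sum_apply, Pi.smul_apply, smul_eq_mul]
  have := dz_comp_holo (i := l) (f := fun y => a y i) (ha.d one_ne_zero_inf i) h.dτ
  show dz l (fun y => a (τ y) i) z = _
  rw [this]
  exact Finset.sum_congr rfl fun p _ => mul_comm _ _

theorem DVb_comp {κ : Type*} (h : TrAt τ γ z) {a : Cm n → κ → ℂ} (ha : VC 1 a (τ z)) (l : Fin n) :
    DVb l (fun y => a (τ y)) z = ∑ p, (starRingEnd ℂ) (jmat τ z p l) • DVb p a (τ z) := by
  ext i
  simp only [Finset.sum_apply, Pi.smul_apply, smul_eq_mul]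
  have := dzb_comp_holo (i := l) (f := fun y => a y i) (ha.d one_ne_zero_inf i) h.dτ
  show dzb l (fun y => a (τ y) i) z = _
  rw [this]
  exact Finset.sum_congr rfl fun p _ => mul_comm _ _

theorem VC_comp {κ : Type*} {m : WithTop ℕ∞} (hm : m ≤ ∞) (h : TrAt τ γ z) {a : Cm n → κ → ℂ}
    (ha : VC m a (τ z)) : VC m (fun y => a (τ y)) z := fun i =>
  ContDiffAt.comp z (g := fun y => a y i) (ha i) ((contDiffAt_real h.hτ).of_le hm)

/-- transformation of `∂̄` -/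
theorem cov_DVb (h : TrAt τ γ z) {a a' : Cm n → FI n → ℂ} (ha : VC 1 a' (τ z))
    (e : a =ᶠ[𝓝 z] fun y => tm τ γ y *ᵥ a' (τ y)) (b : Fin n) :
    DVb b a z = tm τ γ z *ᵥ ∑ p, (starRingEnd ℂ) (jmat τ z p b) • DVb p a' (τ z) := by
  rw [DVb_congr e, DVb_mulVec (h.MC_tm.mono one_le_inf) (h.VC_comp one_le_inf ha), h.DMb_tm,
    Matrix.zero_mulVec, zero_add, h.DVb_comp ha]

/-- transformation of `D'` -/
theorem cov_Dw (h : TrAt τ γ z) {f f' : Cm n → ℝ} {a a' : Cm n → FI n → ℂ} (ha : VC 1 a' (τ z))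
    (hf : ContDiffAt ℝ 1 f' (τ z)) (e : a =ᶠ[𝓝 z] fun y => tm τ γ y *ᵥ a' (τ y))
    (ef : f =ᶠ[𝓝 z] fun y => f' (τ y) + Real.log (‖γ y‖ ^ 2)) :
    Dw f a z = tm τ γ z *ᵥ Dw f' a' (τ z) := by
  have e1 : ∀ l, DV l a z = DM l (tm τ γ) z *ᵥ a' (τ z) +
      tm τ γ z *ᵥ ∑ p, jmat τ z p l • DV p a' (τ z) := by
    intro l
    rw [DV_congr e, DV_mulVec (h.MC_tm.mono one_le_inf) (h.VC_comp one_le_inf ha), h.DV_comp ha]
  have e2 : ∀ l, dz l (cw f) z = ∑ p, jmat τ z p l * dz p (cw f') (τ z) + dz l γ z / γ z := by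
    intro l
    have h1 : cw f =ᶠ[𝓝 z] fun y => cw f' (τ y) + ((Real.log (‖γ y‖ ^ 2) : ℝ) : ℂ) := by
      filter_upwards [ef] with y hy
      simp only [cw, hy, Complex.ofReal_add]
    have hfd : DifferentiableAt ℝ (cw f') (τ z) :=
      (cw_contDiffAt hf).differentiableAt one_ne_zero_inf
    have h2 : DifferentiableAt ℝ (fun y => cw f' (τ y)) z :=
      DifferentiableAt.comp z (g := cw f') hfd (h.dτ.restrictScalars ℝ)
    have h3 : DifferentiableAt ℝ (fun y => ((Real.log (‖γ y‖ ^ 2) : ℝ) : ℂ)) z := by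
      refine differentiableAt_ofReal ?_
      exact ((h.dγ.restrictScalars ℝ).norm_sq ℝ).log (pow_ne_zero 2 (norm_ne_zero_iff.2 h.ne))
    rw [C2.dz_congr l h1, C2.dz_add l h2 h3, dz_log_norm_sq h.hγ h.ne,
      dz_comp_holo (i := l) hfd h.dτ]
    congr 1
    exact Finset.sum_congr rfl fun p _ => mul_comm _ _
  have e0 : a z = tm τ γ z *ᵥ a' (τ z) := e.self_of_nhds
  simp only [Dw, e1, e2, e0, Matrix.mulVec_sub, Matrix.mulVec_add, add_smul, Finset.sum_sub_distrib,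
    Finset.sum_add_distrib, Matrix.mulVec_smul]
  have s1 : ∑ l, eps l *ᵥ (DM l (tm τ γ) z *ᵥ a' (τ z)) =
      ∑ l, (dz l γ z / γ z) • (eps l *ᵥ (tm τ γ z *ᵥ a' (τ z))) := by
    have := congrArg (· *ᵥ a' (τ z)) h.sum_eps_DM_tm
    simp only [Matrix.sum_mulVec, Matrix.smul_mulVec, ← Matrix.mulVec_mulVec] at this
    exact this
  have s2 : ∀ v : Fin n → FI n → ℂ, ∑ l, eps l *ᵥ (tm τ γ z *ᵥ ∑ p, jmat τ z p l • v p) =
      tm τ γ z *ᵥ ∑ p, eps p *ᵥ v p := by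
    intro v
    have h1 : ∀ l, eps l *ᵥ (tm τ γ z *ᵥ ∑ p, jmat τ z p l • v p) =
        ∑ p, (jmat τ z p l • eps l) *ᵥ (tm τ γ z *ᵥ v p) := by
      intro l
      simp only [Matrix.mulVec_sum, Matrix.mulVec_smul, Matrix.smul_mulVec]
    simp only [h1]
    rw [Finset.sum_comm, Matrix.mulVec_sum]
    refine Finset.sum_congr rfl fun p _ => ?_
    rw [← Matrix.sum_mulVec, Matrix.mulVec_mulVec, sum_J_eps, ← Matrix.mulVec_mulVec]
  have s3 : ∑ l, (∑ p, jmat τ z p l * dz p (cw f') (τ z)) • (eps l *ᵥ (tm τ γ z *ᵥ a' (τ z))) =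
      tm τ γ z *ᵥ ∑ p, dz p (cw f') (τ z) • (eps p *ᵥ a' (τ z)) := by
    have h1 := s2 fun p => dz p (cw f') (τ z) • a' (τ z)
    simp only [Matrix.mulVec_smul, smul_smul, Matrix.mulVec_sum] at h1
    simp only [Finset.sum_smul, Matrix.mulVec_sum, Matrix.mulVec_smul]
    exact h1
  rw [s1, s2, s3, Matrix.mulVec_sum (tm τ γ z)]
  simp only [Matrix.mulVec_sum, Matrix.mulVec_smul]
  abel

/-- the metrics in the two coordinate systems -/
def WTr (τ : Cm n → Cm n) (w w' : Cm n → Matrix (Fin n) (Fin n) ℂ) (z : Cm n) : Prop :=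
  w z = (jmat τ z)ᵀ * w' (τ z) * (jmat τ z).map (starRingEnd ℂ)

theorem unitC (h : TrAt τ γ z) : IsUnit ((jmat τ z).map (starRingEnd ℂ)).det := isUnit_conj h.unit

theorem conj_inv (h : TrAt τ γ z) {w w' : Cm n → Matrix (Fin n) (Fin n) ℂ} (hw : WTr τ w w' z) :
    (jmat τ z).map (starRingEnd ℂ) * (w z)⁻¹ = (w' (τ z))⁻¹ * ((jmat τ z)ᵀ)⁻¹ := by
  rw [hw, Matrix.mul_inv_rev, Matrix.mul_inv_rev, ← Matrix.mul_assoc,
    Matrix.mul_nonsing_inv _ h.unitC, Matrix.one_mul]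

theorem conj_inv' (h : TrAt τ γ z) {w w' : Cm n → Matrix (Fin n) (Fin n) ℂ} (hw : WTr τ w w' z) :
    (jmat τ z).map (starRingEnd ℂ) * (w z)⁻¹ * (jmat τ z)ᵀ = (w' (τ z))⁻¹ := by
  rw [h.conj_inv hw, Matrix.mul_assoc, Matrix.nonsing_inv_mul _ h.unitT, Matrix.mul_one]

theorem sum_J_epd (h : TrAt τ γ z) {w w' : Cm n → Matrix (Fin n) (Fin n) ℂ} (hw : WTr τ w w' z)
    (p : Fin n) :
    (∑ b, (starRingEnd ℂ) (jmat τ z p b) • epd b w z) * tm τ γ z =
      tm τ γ z * epd p w' (τ z) := by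
  have h1 : ∑ b, (starRingEnd ℂ) (jmat τ z p b) • epd b w z =
      ∑ q, (w' (τ z))⁻¹ p q • ∑ l, ((jmat τ z)ᵀ)⁻¹ q l • iot l := by
    simp only [epd, Finset.smul_sum, smul_smul]
    rw [Finset.sum_comm]
    conv_rhs => rw [Finset.sum_comm]
    refine Finset.sum_congr rfl fun l _ => ?_
    rw [← Finset.sum_smul, ← Finset.sum_smul]
    congr 1
    have := congrFun (congrFun (h.conj_inv hw) p) l
    rw [Matrix.mul_apply, Matrix.mul_apply] at this
    exact this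
  rw [h1, tm, Matrix.mul_smul, Matrix.smul_mul, epd, Matrix.sum_mul, Matrix.mul_sum]
  congr 1
  refine Finset.sum_congr rfl fun q _ => ?_
  rw [Matrix.smul_mul, Matrix.mul_smul, lam_iot h.unitT]

/-- transformation of `δ` -/
theorem cov_De (h : TrAt τ γ z) {w w' : Cm n → Matrix (Fin n) (Fin n) ℂ} (hw : WTr τ w w' z)
    {a a' : Cm n → FI n → ℂ} (ha : VC 1 a' (τ z))
    (e : a =ᶠ[𝓝 z] fun y => tm τ γ y *ᵥ a' (τ y)) :
    De w a z = tm τ γ z *ᵥ De w' a' (τ z) := by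
  simp only [De, Matrix.mulVec_neg, h.cov_DVb ha e]
  congr 1
  have h1 : ∀ b, epd b w z *ᵥ (tm τ γ z *ᵥ ∑ p, (starRingEnd ℂ) (jmat τ z p b) • DVb p a' (τ z)) =
      ∑ p, ((starRingEnd ℂ) (jmat τ z p b) • epd b w z) *ᵥ (tm τ γ z *ᵥ DVb p a' (τ z)) := by
    intro b
    simp only [Matrix.mulVec_sum, Matrix.mulVec_smul, Matrix.smul_mulVec]
  simp only [h1]
  rw [Finset.sum_comm, Matrix.mulVec_sum]
  refine Finset.sum_congr rfl fun p _ => ?_
  rw [← Matrix.sum_mulVec, Matrix.mulVec_mulVec, h.sum_J_epd hw, ← Matrix.mulVec_mulVec]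

theorem map_conj_eq (J : Matrix (Fin n) (Fin n) ℂ) : J.map (starRingEnd ℂ) = Jᴴᵀ := by
  ext i j; simp

/-- transformation of the Hermitian product -/
theorem cov_hw (h : TrAt τ γ z) {w w' : Cm n → Matrix (Fin n) (Fin n) ℂ} (hw : WTr τ w w' z)
    {f f' : Cm n → ℝ} (ef : f z = f' (τ z) + Real.log (‖γ z‖ ^ 2)) (u v : FI n → ℂ) :
    H862.hw f w z (tm τ γ z *ᵥ u) (tm τ γ z *ᵥ v) =
      ((‖(jmat τ z).det‖ ^ 2 : ℝ) : ℂ) * H862.hw f' w' (τ z) u v := by
  have hg : (0 : ℝ) < ‖γ z‖ ^ 2 := by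
    have := norm_pos_iff.2 h.ne; positivity
  have e1 : (Real.exp (-f z) : ℂ) * (γ z * (starRingEnd ℂ) (γ z)) = (Real.exp (-f' (τ z)) : ℂ) := by
    rw [ef, Complex.mul_conj, Complex.normSq_eq_norm_sq, ← Complex.ofReal_mul, neg_add,
      Real.exp_add, Real.exp_neg (Real.log _), Real.exp_log hg, mul_assoc,
      inv_mul_cancel₀ hg.ne', mul_one]
  have e2 : (w z).det = ((‖(jmat τ z).det‖ ^ 2 : ℝ) : ℂ) * (w' (τ z)).det := by
    rw [hw, Matrix.det_mul, Matrix.det_mul, Matrix.det_transpose]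
    have : ((jmat τ z).map (starRingEnd ℂ)).det = (starRingEnd ℂ) (jmat τ z).det := by
      rw [RingHom.map_det]; rfl
    rw [this, ← Complex.normSq_eq_norm_sq, ← Complex.mul_conj]
    ring
  have e3 : pr (Ld w z *ᵥ (lam (jmat τ z)ᵀ *ᵥ u)) (lam (jmat τ z)ᵀ *ᵥ v) =
      pr (Ld w' (τ z) *ᵥ u) v := by
    rw [pr_mulVec_right, Matrix.mulVec_mulVec, Matrix.mulVec_mulVec, ← lam_conjTranspose, Ld, Ld,
      ← lam_mul, ← lam_mul]
    congr 3
    have : ((jmat τ z)ᵀ)ᴴ = (jmat τ z).map (starRingEnd ℂ) := by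
      ext i j; simp
    rw [this]
    exact h.conj_inv' hw
  simp only [H862.hw, hp, rho, zero_add, pow_one, tm, Matrix.smul_mulVec, Matrix.mulVec_smul,
    pr_smul_left, pr_smul_right, e3, e2]
  rw [← e1]
  ring

/-- transformation of the gradient term -/
theorem cov_grad (h : TrAt τ γ z) {w w' : Cm n → Matrix (Fin n) (Fin n) ℂ} (hw : WTr τ w w' z)
    {f f' : Cm n → ℝ} (ef : f z = f' (τ z) + Real.log (‖γ z‖ ^ 2))
    {a a' c c' : Cm n → FI n → ℂ} (ha : VC 1 a' (τ z)) (hc : VC 1 c' (τ z))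
    (ea : a =ᶠ[𝓝 z] fun y => tm τ γ y *ᵥ a' (τ y))
    (ec : c =ᶠ[𝓝 z] fun y => tm τ γ y *ᵥ c' (τ y)) :
    ∑ l, ∑ b, (w z)⁻¹ b l * H862.hw f w z (DVb b a z) (DVb l c z) =
      ((‖(jmat τ z).det‖ ^ 2 : ℝ) : ℂ) * ∑ l, ∑ b, (w' (τ z))⁻¹ b l *
        H862.hw f' w' (τ z) (DVb b a' (τ z)) (DVb l c' (τ z)) := by
  simp only [h.cov_DVb ha ea, h.cov_DVb hc ec, h.cov_hw hw ef, hw_sum_left, hw_sum_right,
    hw_smul_left, hw_smul_right]
  have key : ∀ q p, ∑ l, ∑ b, (w z)⁻¹ b l * (jmat τ z q l * (starRingEnd ℂ) (jmat τ z p b)) =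
      (w' (τ z))⁻¹ p q := by
    intro q p
    have := congrFun (congrFun (h.conj_inv' hw) p) q
    rw [← this, Matrix.mul_apply]
    refine Finset.sum_congr rfl fun l _ => ?_
    rw [Matrix.mul_apply, Finset.sum_mul]
    refine Finset.sum_congr rfl fun b _ => ?_
    simp only [Matrix.map_apply, Matrix.transpose_apply]
    ring
  set N : ℂ := ((‖(jmat τ z).det‖ ^ 2 : ℝ) : ℂ) with hN
  set H : Fin n → Fin n → ℂ := fun p q =>
    H862.hw f' w' (τ z) (DVb p a' (τ z)) (DVb q c' (τ z)) with hH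
  have e2 : N * ∑ l, ∑ b, (w' (τ z))⁻¹ b l * H b l =
      ∑ q, ∑ p, ∑ l, ∑ b, (w z)⁻¹ b l * (jmat τ z q l * (starRingEnd ℂ) (jmat τ z p b)) *
        (N * H p q) := by
    rw [Finset.mul_sum]
    refine Finset.sum_congr rfl fun q _ => ?_
    rw [Finset.mul_sum]
    refine Finset.sum_congr rfl fun p _ => ?_
    rw [← key q p, Finset.sum_mul, Finset.mul_sum]
    refine Finset.sum_congr rfl fun l _ => ?_
    rw [Finset.sum_mul, Finset.mul_sum]
    exact Finset.sum_congr rfl fun b _ => by ring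
  rw [e2]
  have e3 : ∀ q, ∑ p, ∑ l, ∑ b, (w z)⁻¹ b l * (jmat τ z q l * (starRingEnd ℂ) (jmat τ z p b)) *
        (N * H p q) = ∑ l, ∑ b, ∑ p, (w z)⁻¹ b l * (jmat τ z q l *
          (starRingEnd ℂ) (jmat τ z p b)) * (N * H p q) := by
    intro q
    rw [Finset.sum_comm]
    exact Finset.sum_congr rfl fun l _ => Finset.sum_comm
  simp only [e3]
  conv_rhs => rw [Finset.sum_comm]
  refine Finset.sum_congr rfl fun l _ => ?_
  conv_rhs => rw [Finset.sum_comm]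
  refine Finset.sum_congr rfl fun b _ => ?_
  simp only [Finset.mul_sum, Complex.conj_conj]
  refine Finset.sum_congr rfl fun q _ => ?_
  refine Finset.sum_congr rfl fun p _ => ?_
  ring

/-- transformation of the zeroth order term -/
theorem cov_Qw (h : TrAt τ γ z) {w w' : Cm n → Matrix (Fin n) (Fin n) ℂ} (hw : WTr τ w w' z)
    {f f' : Cm n → ℝ} (hf : ContDiffAt ℝ 2 f' (τ z))
    (ef : f =ᶠ[𝓝 z] fun y => f' (τ y) + Real.log (‖γ y‖ ^ 2)) (u : FI n → ℂ) :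
    Qw f w z (tm τ γ z *ᵥ u) = tm τ γ z *ᵥ Qw f' w' (τ z) u := by
  have h1 : cHess f z = (jmat τ z)ᵀ * cHess f' (τ z) * (jmat τ z).map (starRingEnd ℂ) := by
    have h2 : ContDiffAt ℝ 2 (fun y => f' (τ y)) z :=
      ContDiffAt.comp z (g := f') hf ((contDiffAt_real h.hτ).of_le (by norm_cast))
    have h3 : ContDiffAt ℝ 2 (fun y => Real.log (‖γ y‖ ^ 2)) z := by
      have hd : ContDiffAt ℝ 2 γ z := (contDiffAt_real h.hγ).of_le (by norm_cast)
      exact (hd.norm_sq ℝ).log (pow_ne_zero 2 (norm_ne_zero_iff.2 h.ne))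
    rw [P272.K.cHess_congr ef, P272.K.cHess_add h2 h3, cHess_log_norm_sq h.hγ h.ne, add_zero,
      cHess_comp hf h.hτ]
  have h4 : ∀ l b, cHess f z l b • (epd b w z *ᵥ (eps l *ᵥ (tm τ γ z *ᵥ u))) =
      ∑ p, ∑ q, cHess f' (τ z) p q • (((starRingEnd ℂ) (jmat τ z q b) • epd b w z) *ᵥ
        ((jmat τ z p l • eps l) *ᵥ (tm τ γ z *ᵥ u))) := by
    intro l b
    rw [h1, Matrix.mul_apply, Finset.sum_smul, Finset.sum_comm]
    refine Finset.sum_congr rfl fun q _ => ?_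
    rw [Matrix.mul_apply, Finset.sum_mul, Finset.sum_smul]
    refine Finset.sum_congr rfl fun p _ => ?_
    simp only [Matrix.smul_mulVec, Matrix.mulVec_smul, smul_smul, Matrix.transpose_apply,
      Matrix.map_apply]
    congr 1
    ring
  simp only [Qw, h4]
  have h5 : ∀ l, ∑ b, ∑ p, ∑ q, cHess f' (τ z) p q • (((starRingEnd ℂ) (jmat τ z q b) • epd b w z) *ᵥ
        ((jmat τ z p l • eps l) *ᵥ (tm τ γ z *ᵥ u))) =
      ∑ p, ∑ q, ∑ b, cHess f' (τ z) p q • (((starRingEnd ℂ) (jmat τ z q b) • epd b w z) *ᵥ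
        ((jmat τ z p l • eps l) *ᵥ (tm τ γ z *ᵥ u))) := by
    intro l
    rw [Finset.sum_comm]
    exact Finset.sum_congr rfl fun p _ => Finset.sum_comm
  simp only [h5]
  rw [Finset.sum_comm, Matrix.mulVec_sum]
  refine Finset.sum_congr rfl fun p _ => ?_
  rw [Finset.sum_comm, Matrix.mulVec_sum]
  refine Finset.sum_congr rfl fun q _ => ?_
  rw [Finset.sum_comm]
  have h6 : ∑ b, ∑ l, cHess f' (τ z) p q • (((starRingEnd ℂ) (jmat τ z q b) • epd b w z) *ᵥ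
        ((jmat τ z p l • eps l) *ᵥ (tm τ γ z *ᵥ u))) = cHess f' (τ z) p q •
        ((∑ b, (starRingEnd ℂ) (jmat τ z q b) • epd b w z) *ᵥ ((∑ l, jmat τ z p l • eps l) *ᵥ
          (tm τ γ z *ᵥ u))) := by
    simp only [Matrix.sum_mulVec, Matrix.mulVec_sum, Finset.smul_sum]
    exact Finset.sum_comm
  rw [h6, Matrix.mulVec_smul, Matrix.mulVec_mulVec _ (∑ l, jmat τ z p l • eps l), sum_J_eps,
    ← Matrix.mulVec_mulVec _ (tm τ γ z), Matrix.mulVec_mulVec _ _ (tm τ γ z), h.sum_J_epd hw,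
    ← Matrix.mulVec_mulVec]

end TrAt

end Vale.Agent.P301.H862
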