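import Vale.Agent.P299.H863.IdxP

/-!
# P301, index theorem: abstract symmetric elliptic operators with a parity

Definitions only.
-/

open Filter Topology Module UniformSpace
open scoped InnerProductSpace
open Vale.Agent.P299.H863

noncomputable section

namespace Vale.Agent.P301.H862

/-- a symmetric operator `D` on a pre-Hilbert space with smoothing operators `J`, a parity
operator `par` anticommuting with `D`, and compactness of the graph unit ball -/
structure Ell (H : Type*) [NormedAddCommGroup H] [InnerProductSpace ℂ H] where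
  D : H →ₗ[ℂ] H
  par : H →ₗ[ℂ] H
  J : ℕ → H →ₗ[ℂ] H
  symm : ∀ u v, inner ℂ (D u) v = inner ℂ u (D v)
  par_sq : ∀ u, par (par u) = u
  par_symm : ∀ u v, inner ℂ (par u) v = inner ℂ u (par v)
  anti : ∀ u, D (par u) = -par (D u)
  smoothing : Smoothing ℂ J
  comm : SmoothingComm D J J
  tb : TotallyBounded {u : H | ‖u‖ ≤ 1 ∧ ‖D u‖ ≤ 1}

/-- the strong kernel of `D` on the closure of a subspace `K` -/
def skOn {H : Type*} [NormedAddCommGroup H] [InnerProductSpace ℂ H] (D : H →ₗ[ℂ] H)
    (K : Submodule ℂ H) : Submodule ℂ (Completion H) where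
  carrier := {x | ∃ w : ℕ → H, (∀ n, w n ∈ K) ∧
    Tendsto (fun n => (w n : Completion H)) atTop (𝓝 x) ∧ Tendsto (fun n => D (w n)) atTop (𝓝 0)}
  zero_mem' := ⟨fun _ => 0, fun _ => K.zero_mem, by
    simp,
    by simp⟩
  add_mem' := by
    rintro x y ⟨w, h1, h2, h3⟩ ⟨w', h1', h2', h3'⟩
    refine ⟨fun n => w n + w' n, fun n => K.add_mem (h1 n) (h1' n), ?_, ?_⟩
    · simpa only [Completion.coe_add] using h2.add h2'
    · simpa only [map_add, add_zero] using h3.add h3'
  smul_mem' := by
    rintro c x ⟨w, h1, h2, h3⟩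
    refine ⟨fun n => c • w n, fun n => K.smul_mem c (h1 n), ?_, ?_⟩
    · simpa only [Completion.coe_smul] using h2.const_smul c
    · simpa only [map_smul, smul_zero] using h3.const_smul c

namespace Ell

variable {H : Type*} [NormedAddCommGroup H] [InnerProductSpace ℂ H]

/-- the vectors of parity `σ` -/
def pt (A : Ell H) (σ : ℤˣ) : Submodule ℂ H where
  carrier := {u | A.par u = ((σ : ℤ) : ℂ) • u}
  zero_mem' := by simp
  add_mem' := by
    intro u v hu hv
    show A.par (u + v) = _
    rw [map_add, show A.par u = _ from hu, show A.par v = _ from hv, smul_add]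
  smul_mem' := by
    intro c u hu
    show A.par (c • u) = _
    rw [map_smul, show A.par u = _ from hu, smul_comm]

/-- the strong kernel of parity `σ` -/
def sk (A : Ell H) (σ : ℤˣ) : Submodule ℂ (Completion H) := skOn A.D (A.pt σ)

/-- the index -/
def P (A : Ell H) : ℤ := (finrank ℂ (A.sk 1) : ℤ) - (finrank ℂ (A.sk (-1)) : ℤ)

/-- a grading -/
structure Grading (A : Ell H) (d : ℕ) where
  dg : ℕ → H →ₗ[ℂ] H
  idem : ∀ p u, dg p (dg p u) = dg p u
  symm : ∀ p u v, inner ℂ (dg p u) v = inner ℂ u (dg p v)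
  orth : ∀ p q, p ≠ q → ∀ u, dg p (dg q u) = 0
  sum : ∀ u, ∑ p ∈ Finset.range (d + 1), dg p u = u
  par : ∀ u, A.par u = ∑ p ∈ Finset.range (d + 1), (-1 : ℂ) ^ p • dg p u
  norm_D : ∀ u, ‖A.D u‖ ^ 2 = ∑ p ∈ Finset.range (d + 1), ‖A.D (dg p u)‖ ^ 2

end Ell

end Vale.Agent.P301.H862
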