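import Vale.Agent.P301.H862.Bdd
import Vale.Agent.P301.H862.Ell
import Vale.Agent.P299.H863.IdxFin
import Mathlib.Topology.UrysohnsLemma

/-!
# P301, index theorem: `D' + δ` controls `∂̄`; the structure `Ell`
-/

open scoped Manifold ContDiff ComplexOrder Topology Matrix ComplexConjugate
open Vale.Agent.P272.K Vale.Agent.P272.K.C2 Vale.Agent.P299.H954 Vale.Agent.P299.IX
open Vale.Agent.P301.H599 MeasureTheory Set Filter Vale.Agent.P299.H863
open Vale.Agent.P299.IX.Fock
open Vale.Agent.P272.K.INT (intX IsDensity intX_add intX_sub intX_const_mul intX_congr intX_nonneg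
  intX_mono intX_of_support intX_sum)

set_option linter.unusedSectionVars false

noncomputable section

namespace Vale.Agent.P301.H862

variable {d : ℕ} {X : Type} [TopologicalSpace X] {ι : Type} [ChartedSpace (Cm d) X]
  [IsManifold 𝓘(ℂ, Cm d) ω X] [T2Space X] [CompactSpace X]
  {B B' : HB d X ι} {g h : Fam d X ι} {i j : ι} {e e' : Chart d X} {x : X} {z : Cm d}
  {L : LineBundle d X ι}

/-! ### integrals over compact sets in a chart -/

/-- the integral of a nonnegative density over a compact subset of a chart -/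
theorem setIntegral_le_intC {D : ι → Chart d X → Cm d → ℂ} (hD : IsDens L D)
    (h0 : ∀ i e x, At e x → x ∈ L.U i → 0 ≤ (D i e (e x)).re) (he : e ∈ atlas (Cm d) X)
    {K : Set (Cm d)} (hK : IsCompact K) (hKe : K ⊆ dom L i e) :
    IntegrableOn (D i e) K ∧ ∫ z in K, (D i e z).re ≤ (intC L D).re := by
  have hsc : IsCompact (e.symm '' K) :=
    hK.image_of_continuousOn (e.continuousOn_symm.mono fun _ hz => (hKe hz).1)
  have hopen : IsOpen (e.source ∩ L.U i) := e.open_source.inter (L.isOpen i)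
  have hsub : e.symm '' K ⊆ e.source ∩ L.U i := by
    rintro _ ⟨z, hz, rfl⟩; exact ⟨e.map_target (hKe hz).1, (hKe hz).2⟩
  obtain ⟨θ, hθs, hθ1, hθ⟩ := exists_tsupport_one_of_isOpen_isClosed hopen
    (isClosed_closure.isCompact) hsc.isClosed hsub
  have hDθ : IsDens L (fun i e z => ((θ (e.symm z) : ℝ) : ℂ) * D i e z) := by
    refine ⟨fun i e x hx hi => ?_, fun i j e e' x hx hx' hi hj => ?_⟩
    · refine ContinuousAt.mul ?_ (hD.cont i e x hx hi)
      refine Complex.continuous_ofReal.continuousAt.comp ?_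
      exact θ.continuous.continuousAt.comp (e.continuousAt_symm hx.mem_target)
    · show ((θ (e.symm (e x)) : ℝ) : ℂ) * _ = _ * (((θ (e'.symm (e' x)) : ℝ) : ℂ) * _)
      rw [hx.left_inv, hx'.left_inv, hD.change i j e e' x hx hx' hi hj]; ring
  have hsupp : ∀ i e' x, At e' x → x ∈ L.U i → x ∉ tsupport θ →
      ((θ (e'.symm (e' x)) : ℝ) : ℂ) * D i e' (e' x) = 0 := by
    intro i e' x hx hi hxK
    rw [hx.left_inv, image_eq_zero_of_notMem_tsupport hxK, Complex.ofReal_zero, zero_mul]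
  have hint := hDθ.integrableOn he (isClosed_tsupport θ) (hθs.trans inter_subset_left)
    (hθs.trans inter_subset_right) hsupp
  have h1 := intC_of_support hDθ he (isClosed_tsupport θ) (hθs.trans inter_subset_left)
    (hθs.trans inter_subset_right) hsupp
  have h2 : (intC L fun i e z => ((θ (e.symm z) : ℝ) : ℂ) * D i e z).re ≤ (intC L D).re := by
    refine intC_re_mono hDθ hD fun i e x hx hi => ?_
    rw [hx.left_inv, Complex.re_ofReal_mul]
    exact mul_le_of_le_one_left (h0 i e x hx hi) (hθ x).2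
  have hDK : IntegrableOn (D i e) K := by
    have hc : ContinuousOn (D i e) K := fun z hz => by
      have h1 := At.of_dom he (hKe hz)
      have := hD.cont i e _ h1.1 h1.2.1
      rw [h1.2.2] at this
      exact this.continuousWithinAt
    exact hc.integrableOn_compact hK
  refine ⟨hDK, le_trans ?_ h2⟩
  have e0 : (∫ z in dom L i e, ((θ (e.symm z) : ℝ) : ℂ) * D i e z).re =
      ∫ z in dom L i e, (((θ (e.symm z) : ℝ) : ℂ) * D i e z).re := (integral_re hint).symm
  rw [h1, e0]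
  have e1 : ∫ z in K, (D i e z).re = ∫ z in K, (((θ (e.symm z) : ℝ) : ℂ) * D i e z).re := by
    refine setIntegral_congr_fun hK.measurableSet fun z hz => ?_
    have : θ (e.symm z) = 1 := hθ1 ⟨z, hz, rfl⟩
    show (D i e z).re = (((θ (e.symm z) : ℝ) : ℂ) * D i e z).re
    rw [this, Complex.ofReal_one, one_mul]
  rw [e1]
  refine setIntegral_mono_set hint.re ?_ hKe.eventuallyLE
  refine (ae_restrict_iff' (isOpen_dom L i e).measurableSet).2 (Eventually.of_forall fun z hz => ?_)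
  have h3 := At.of_dom he hz
  have h4 := h0 i e _ h3.1 h3.2.1
  rw [h3.2.2] at h4
  show 0 ≤ (((θ (e.symm z) : ℝ) : ℂ) * D i e z).re
  rw [Complex.re_ofReal_mul]
  exact mul_nonneg (hθ _).1 h4

namespace HB

/-! ### the gradient term -/

/-- the matrix of the gradient form -/
def KM (B : HB d X ι) (i : ι) (e : Chart d X) (z : Cm d) :
    Matrix (Fin d × FI d) (Fin d × FI d) ℂ :=
  Matrix.kroneckerMap (· * ·) ((B.w e z)⁻¹)ᵀ (B.HM i e z)

theorem hw_eq_dot (i : ι) (e : Chart d X) (z : Cm d) (u v : FI d → ℂ) :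
    hw (wt B.ρ i e) (B.w e) z u v = star v ⬝ᵥ (B.HM i e z *ᵥ u) := by
  have h1 := inner_GG (B := B) i e z (WithLp.toLp 2 u) (WithLp.toLp 2 v)
  rw [EuclideanSpace.inner_eq_star_dotProduct, GG, Matrix.ofLp_toEuclideanCLM,
    dotProduct_comm] at h1
  exact h1.symm

theorem KM_form (i : ι) (e : Chart d X) (z : Cm d) (ξ : Fin d → FI d → ℂ) :
    star (fun p : Fin d × FI d => ξ p.1 p.2) ⬝ᵥ (B.KM i e z *ᵥ fun p => ξ p.1 p.2) =
      ∑ l, ∑ b, (B.w e z)⁻¹ b l * hw (wt B.ρ i e) (B.w e) z (ξ b) (ξ l) := by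
  simp only [hw_eq_dot, KM, dotProduct, Matrix.mulVec, Fintype.sum_prod_type,
    Matrix.kroneckerMap_apply, Matrix.transpose_apply, Pi.star_apply, Finset.mul_sum]
  refine Finset.sum_congr rfl fun l _ => ?_
  rw [Finset.sum_comm]
  refine Finset.sum_congr rfl fun b _ => ?_
  refine Finset.sum_congr rfl fun I _ => Finset.sum_congr rfl fun J _ => ?_
  ring

theorem HM_posDef (B : HB d X ι) (he : e ∈ atlas (Cm d) X) (hz : z ∈ dom B.L i e) :
    (B.HM i e z).PosDef := by
  have hz' := At.of_dom he hz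
  have hK := B.katz he hz
  have h1 := B.kahler.posDef e _ hz'.1
  rw [hz'.2.2] at h1
  refine (lam_posDef h1.inv).smul ?_
  refine mul_pos ?_ h1.det_pos
  exact_mod_cast Real.exp_pos _

theorem exists_grad_lower (B : HB d X ι) (he : e ∈ atlas (Cm d) X) {K : Set (Cm d)}
    (hK : IsCompact K) (hKe : K ⊆ dom B.L i e) :
    ∃ m : ℝ, 0 < m ∧ ∀ z ∈ K, ∀ ξ : Fin d → FI d → ℂ, m * ∑ b, ∑ I, ‖ξ b I‖ ^ 2 ≤
      (∑ l, ∑ b, (B.w e z)⁻¹ b l * hw (wt B.ρ i e) (B.w e) z (ξ b) (ξ l)).re := by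
  have hcont : ContinuousOn (fun z => (Matrix.toEuclideanCLM (𝕜 := ℂ) (B.KM i e z) :
      EuclideanSpace ℂ (Fin d × FI d) →L[ℂ] EuclideanSpace ℂ (Fin d × FI d))) K := by
    have h1 : (fun z => (Matrix.toEuclideanCLM (𝕜 := ℂ) (B.KM i e z) :
        EuclideanSpace ℂ (Fin d × FI d) →L[ℂ] EuclideanSpace ℂ (Fin d × FI d))) =
        fun z => ∑ p, ∑ q, B.KM i e z p q •
        Matrix.toEuclideanCLM (𝕜 := ℂ) (Matrix.single p q (1 : ℂ)) := by
      funext z
      conv_lhs => rw [Matrix.matrix_eq_sum_single (B.KM i e z)]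
      simp only [map_sum]
      refine Finset.sum_congr rfl fun p _ => Finset.sum_congr rfl fun q _ => ?_
      rw [← map_smul, Matrix.smul_single, smul_eq_mul, mul_one]
    rw [h1]
    refine continuousOn_finsetSum _ fun p _ => continuousOn_finsetSum _ fun q _ => ?_
    have h5 : ContinuousOn (fun z => B.KM i e z p q) K := fun z hz => by
      have hz' := At.of_dom he (hKe hz)
      have h2 := B.HM_smooth hz'.1 hz'.2.1
      rw [hz'.2.2] at h2
      have h3 := (B.katz he (hKe hz)).inv q.1 p.1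
      exact (h3.continuousAt.mul (h2 p.2 q.2).continuousAt).continuousWithinAt
    exact h5.smul continuousOn_const
  obtain ⟨m, hm, hmb⟩ := exists_lower hK hcont fun z hz v hv => by
    have hz' := At.of_dom he (hKe hz)
    have h1 := B.kahler.posDef e _ hz'.1
    rw [hz'.2.2] at h1
    have hP : (B.KM i e z).PosDef := h1.inv.transpose.kronecker (B.HM_posDef he (hKe hz))
    rw [EuclideanSpace.inner_eq_star_dotProduct, Matrix.ofLp_toEuclideanCLM, dotProduct_comm]
    exact (Complex.lt_def.1 (hP.dotProduct_mulVec_pos fun h => hv (by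
      ext j; exact congrFun h j))).1
  refine ⟨m, hm, fun z hz ξ => ?_⟩
  have h := hmb z hz (WithLp.toLp 2 fun p : Fin d × FI d => ξ p.1 p.2)
  rw [EuclideanSpace.inner_eq_star_dotProduct, Matrix.ofLp_toEuclideanCLM, dotProduct_comm,
    EuclideanSpace.norm_sq_eq, Fintype.sum_prod_type] at h
  rw [← KM_form]
  exact h

/-- `∫ |∂̄ s|²` -/
def grad (B : HB d X ι) (s : B.S) : ℝ := (intC B.L (gradX B.ρ B.w s.f s.f)).re

theorem grad_pt_nonneg (s : B.S) (hx : At e x) (hi : x ∈ B.L.U i) :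
    0 ≤ (gradX B.ρ B.w s.f s.f i e (e x)).re := by
  obtain ⟨m, hm, h⟩ := B.exists_grad_lower hx.1 (isCompact_singleton (x := e x))
    (Set.singleton_subset_iff.2 (mem_dom hx hi))
  exact le_trans (mul_nonneg hm.le (Finset.sum_nonneg fun b _ => Finset.sum_nonneg fun I _ =>
    by positivity)) (h _ rfl fun b => DVb b (s.f i e) (e x))

theorem grad_nonneg (s : B.S) : 0 ≤ B.grad s :=
  intC_re_nonneg fun _ _ _ hx hi => grad_pt_nonneg s hx hi

theorem dbv_eq {a : Cm d → FI d → ℂ} (ha : VC 1 a z) (b : Fin d) :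
    dbv b (fun y => (WithLp.toLp 2 (a y) : EuclideanSpace ℂ (FI d))) z =
      WithLp.toLp 2 (DVb b a z) := dzbE_fderiv ha b

/-- local control of `∂̄` -/
theorem exists_dbar_le (B : HB d X ι) (T : Triv B.L) (a : Fin T.N) {ψ : Cm d → ℝ}
    (hψ : TestV (T.cov.Ω a) ψ) (b : Fin d) : ∃ C : ℝ, 0 ≤ C ∧ ∀ s : B.S,
      n2 volume (fun z => ψ z • dbv b ((B.locSp T).r a s) z) ^ 2 ≤ C * B.grad s := by
  have hK : IsCompact (tsupport ψ) := hψ.cpt
  obtain ⟨m, hm, hmb⟩ := B.exists_grad_lower (T.mem a) hK hψ.supp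
  obtain ⟨Cψ, hCψ0, hCψ⟩ := exists_bound_on hK hψ.smooth.continuous.continuousOn
  refine ⟨Cψ ^ 2 / m, by positivity, fun s => ?_⟩
  have ht := (B.locSp T).test_dbv hψ b s
  rw [n2_sq ht.memLp]
  have h0 : ∀ z ∉ tsupport ψ, ‖ψ z • dbv b ((B.locSp T).r a s) z‖ ^ 2 = 0 := by
    intro z hz
    rw [image_eq_zero_of_notMem_tsupport hz, zero_smul, norm_zero]; norm_num
  rw [← setIntegral_eq_integral_of_forall_compl_eq_zero h0]
  have hD := s.isSec.isDens_gradX B.metric B.kahler s.isSec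
  obtain ⟨hi1, hi2⟩ := setIntegral_le_intC hD (fun i e x hx hi => grad_pt_nonneg s hx hi)
    (T.mem a) hK hψ.supp
  have h1 : ∫ z in tsupport ψ, ‖ψ z • dbv b ((B.locSp T).r a s) z‖ ^ 2 ≤
      ∫ z in tsupport ψ, Cψ ^ 2 / m * (gradX B.ρ B.w s.f s.f (T.i a) (T.e a) z).re := by
    refine setIntegral_mono_on ?_ (hi1.re.const_mul _) hK.measurableSet fun z hz => ?_
    · exact (ht.smooth.continuous.norm.pow 2).continuousOn.integrableOn_compact hK
    · have hv1 : VC 1 (s.f (T.i a) (T.e a)) z :=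
        (s.smoothAt (T.mem a) (hψ.supp hz)).mono TrAt.one_le_inf
      have e1 : dbv b ((B.locSp T).r a s) z = WithLp.toLp 2 (DVb b (s.f (T.i a) (T.e a)) z) :=
        dbv_eq hv1 b
      have h2 := hmb z hz fun b => DVb b (s.f (T.i a) (T.e a)) z
      have h3 : ‖WithLp.toLp 2 (DVb b (s.f (T.i a) (T.e a)) z)‖ ^ 2 ≤
          ∑ b, ∑ I, ‖DVb b (s.f (T.i a) (T.e a)) z I‖ ^ 2 := by
        rw [EuclideanSpace.norm_sq_eq]
        exact Finset.single_le_sum (f := fun b => ∑ I, ‖DVb b (s.f (T.i a) (T.e a)) z I‖ ^ 2)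
          (fun b _ => Finset.sum_nonneg fun I _ => by positivity) (Finset.mem_univ b)
      rw [e1, norm_smul, mul_pow]
      calc ‖ψ z‖ ^ 2 * ‖WithLp.toLp 2 (DVb b (s.f (T.i a) (T.e a)) z)‖ ^ 2
          ≤ Cψ ^ 2 * ∑ b, ∑ I, ‖DVb b (s.f (T.i a) (T.e a)) z I‖ ^ 2 := by
            gcongr
            exact hCψ z hz
        _ = Cψ ^ 2 / m * (m * ∑ b, ∑ I, ‖DVb b (s.f (T.i a) (T.e a)) z I‖ ^ 2) := by field_simp
        _ ≤ _ := by gcongr; exact h2
  refine h1.trans ?_
  rw [integral_const_mul]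
  gcongr
  exact hi2

end HB

end Vale.Agent.P301.H862
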