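import Vale.Agent.P301.H862.KosTot
import Vale.Agent.P301.H103.Ext
import Vale.Agent.P301.H650.Abs2

/-!
# P301, index theorem: approximate kernels for the powers of a line bundle
-/

open scoped Manifold ContDiff ComplexOrder Topology Matrix ComplexConjugate
open Vale.Agent.P272.K Vale.Agent.P272.K.C2 Vale.Agent.P299.H954 Vale.Agent.P299.IX
open Vale.Agent.P301.H599 MeasureTheory Set Filter Vale.Agent.P299.H863
open Vale.Agent.P299.IX.Fock Vale.Agent.P301.H103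

set_option linter.unusedSectionVars false

noncomputable section

namespace Vale.Agent.P301.H862

variable {d : ℕ} {X : Type} [TopologicalSpace X] {ι : Type} [ChartedSpace (Cm d) X]
  [IsManifold 𝓘(ℂ, Cm d) ω X] [T2Space X] [CompactSpace X]
  {L : LineBundle d X ι} {B : HB d X ι} {k0 N : ℕ}
  {i j : ι} {e e' : Chart d X} {x : X} {z : Cm d}

/-- a degree operator in components -/
theorem HB.deg_of_dg {p : ℕ} {s : B.S} (h : B.dg p s = s) (hx : At e x) (hi : x ∈ B.L.U i)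
    {I : FI d} (hI : I.card ≠ p) : s.f i e (e x) I = 0 := by
  rw [← h, HB.dg, HB.dgc_at _ _ hx hi, dgl_mulVec, if_neg hI, zero_mul]

theorem finrank_ge {H : Type*} [NormedAddCommGroup H] [InnerProductSpace ℂ H] (A : Ell H) {n : ℕ}
    (h : n ≤ A.P.natAbs) : ∃ σ : ℤˣ, n ≤ Module.finrank ℂ (A.sk σ) := by
  unfold Ell.P at h
  by_cases h1 : n ≤ Module.finrank ℂ (A.sk 1)
  · exact ⟨1, h1⟩
  · refine ⟨-1, ?_⟩
    omega

/-- **Approximate kernels**, modulo the computation of the index at level `0`. -/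
theorem exists_approx (L : LineBundle d X ι) (k0 : ℕ) {χ : ℤ} (hχ : χ ≠ 0)
    (h0 : ∀ B : HB d X ι, (∀ s, FiniteDimensional ℂ ((B.pow 0).ell.sk s)) →
      (B.pow 0).ell.P = χ) : ∃ M : ℕ, ∀ B : HB d X ι, B.L = L → ∀ η : ℝ, 0 < η →
    ∃ m, 1 ≤ m ∧ m ≤ M ∧ ∃ (σ : ℤˣ) (r : ℕ → ℕ),
      χ.natAbs ≤ (∑ p ∈ Finset.range (d + 1), if ((-1) ^ p = σ) then r p else 0) ∧
      ∀ p ∈ Finset.range (d + 1), (-1) ^ p = σ → ∃ g : Fin (r p) → (B.pow (m * k0)).S,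
        (∀ a, (B.pow (m * k0)).dg p (g a) = g a) ∧
        (∀ a b, ‖(inner ℂ (g a) (g b) : ℂ) - if a = b then 1 else 0‖ ≤ η) ∧
        ∀ a, ‖(B.pow (m * k0)).D (g a)‖ ^ 2 ≤ η := by
  obtain ⟨N, hN⟩ := exists_KS L
  refine ⟨(2 * χ.natAbs - 1) * N, fun B hB η hη => ?_⟩
  subst hB
  obtain ⟨K⟩ := hN k0
  have hfin : ∀ m s, FiniteDimensional ℂ ((B.pow (m * k0)).ell.sk s) := fun m s =>
    (HB.index_rel K m).1 ∅ s
  have hP0 : (B.pow (0 * k0)).ell.P = χ := by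
    have h1 : ∀ n, n = 0 → (∀ s, FiniteDimensional ℂ ((B.pow n).ell.sk s)) →
        (B.pow n).ell.P = χ := by
      rintro n rfl h; exact h0 B h
    exact h1 _ (zero_mul k0) (hfin 0)
  obtain ⟨m, hm1, hm2, hm3⟩ := H650.exists_large (fun m => (B.pow (m * k0)).ell.P) N
    (fun b => (HB.index_rel K b).2) (by rw [hP0]; exact hχ)
  rw [hP0] at hm2 hm3
  obtain ⟨σ, hσ⟩ := finrank_ge _ hm3
  have := hfin m σ
  obtain ⟨r, hr1, hr2⟩ := extraction (B.pow (m * k0)).ell (B.pow (m * k0)).grading σ hη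
  refine ⟨m, hm1, hm2, σ, r, ?_, hr2⟩
  rw [hr1]; exact hσ

/-- **Approximate kernels** on the level of forms. -/
theorem exists_forms (L : LineBundle d X ι) (k0 : ℕ) {χ : ℤ} (hχ : χ ≠ 0)
    (h0 : ∀ B : HB d X ι, (∀ s, FiniteDimensional ℂ ((B.pow 0).ell.sk s)) →
      (B.pow 0).ell.P = χ) :
    ∃ M : ℕ, ∀ (ρ : ι → X → ℝ), IsMetric L ρ →
      ∀ w : Chart d X → Cm d → Matrix (Fin d) (Fin d) ℂ, IsKahler w → ∀ η : ℝ, 0 < η →
      ∃ m, 1 ≤ m ∧ m ≤ M ∧ ∃ (σ : ℤˣ) (r : ℕ → ℕ),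
        χ.natAbs ≤ (∑ p ∈ Finset.range (d + 1), if ((-1) ^ p = σ) then r p else 0) ∧
        ∀ p ∈ Finset.range (d + 1), (-1) ^ p = σ → ∃ g : Fin (r p) → Fam d X ι,
          (∀ a, IsSec (powL L (m * k0)) (g a)) ∧
          (∀ a i e x, At e x → x ∈ L.U i → ∀ I : FI d, I.card ≠ p → g a i e (e x) I = 0) ∧
          (∀ a b, ‖ip (powL L (m * k0)) (fun i x => (m * k0 : ℕ) * ρ i x) w (g a) (g b) -
            if a = b then 1 else 0‖ ≤ η) ∧
          ∀ a, (ip (powL L (m * k0)) (fun i x => (m * k0 : ℕ) * ρ i x) w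
              (DX (fun i x => (m * k0 : ℕ) * ρ i x) (g a))
              (DX (fun i x => (m * k0 : ℕ) * ρ i x) (g a))).re +
            (ip (powL L (m * k0)) (fun i x => (m * k0 : ℕ) * ρ i x) w
              (dX w (g a)) (dX w (g a))).re ≤ η := by
  obtain ⟨M, hM⟩ := exists_approx L k0 hχ h0
  refine ⟨M, fun ρ hρ w hw η hη => ?_⟩
  obtain ⟨m, hm1, hm2, σ, r, hr, hg⟩ := hM ⟨L, ρ, w, hρ, hw⟩ rfl η hη
  refine ⟨m, hm1, hm2, σ, r, hr, fun p hp hs => ?_⟩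
  obtain ⟨g, h1, h2, h3⟩ := hg p hp hs
  refine ⟨fun a => (g a).f, fun a => (g a).isSec, fun a i e x hx hi I hI =>
    HB.deg_of_dg (h1 a) hx hi hI, fun a b => ?_, fun a => ?_⟩
  · have h4 := h2 b a
    simp only [eq_comm (a := b) (b := a)] at h4
    exact h4
  · refine le_trans (le_of_eq ?_) (h3 a)
    rw [HB.norm_D_sq, HB.norm_sq_eq, HB.norm_sq_eq,
      HB.ipB_congr (g := (HB.Dp _ (g a)).f) (h := (HB.Dp _ (g a)).f)
        (fun i e x hx hi => HB.Dp_at (g a) hx hi) (fun i e x hx hi => HB.Dp_at (g a) hx hi),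
      HB.ipB_congr (g := (HB.Dd _ (g a)).f) (h := (HB.Dd _ (g a)).f)
        (fun i e x hx hi => HB.Dd_at (g a) hx hi) (fun i e x hx hi => HB.Dd_at (g a) hx hi)]
    rfl

end Vale.Agent.P301.H862
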