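import Vale.Agent.P301.H862.Sec

/-!
# P301, index theorem: integration of densities, divergences
-/

open scoped Manifold ContDiff ComplexOrder Topology Matrix
open Vale.Agent.P272.K Vale.Agent.P272.K.C2 Vale.Agent.P299.H954 Vale.Agent.P299.IX
open Vale.Agent.P301.H599 MeasureTheory Set
open Vale.Agent.P272.K.INT (intX IsDensity intX_add intX_sub intX_const_mul intX_congr intX_nonneg
  intX_mono intX_of_support intX_sum)

set_option linter.unusedSectionVars false

noncomputable section

namespace Vale.Agent.P301.H862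

variable {d : ℕ} {X : Type} [TopologicalSpace X] {ι : Type} [ChartedSpace (Cm d) X]

section dens

variable {L : LineBundle d X ι} {D D' : ι → Chart d X → Cm d → ℂ} {i j : ι} {e e' : Chart d X}
  {x : X}

theorem IsDens.add (hD : IsDens L D) (hD' : IsDens L D') :
    IsDens L (fun i e z => D i e z + D' i e z) where
  cont i e x h hi := (hD.cont i e x h hi).add (hD'.cont i e x h hi)
  change i j e e' x h h' hi hj := by
    rw [hD.change i j e e' x h h' hi hj, hD'.change i j e e' x h h' hi hj]; ring

theorem IsDens.sub (hD : IsDens L D) (hD' : IsDens L D') :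
    IsDens L (fun i e z => D i e z - D' i e z) where
  cont i e x h hi := (hD.cont i e x h hi).sub (hD'.cont i e x h hi)
  change i j e e' x h h' hi hj := by
    rw [hD.change i j e e' x h h' hi hj, hD'.change i j e e' x h h' hi hj]; ring

theorem IsDens.const_mul (hD : IsDens L D) (c : ℂ) :
    IsDens L (fun i e z => c * D i e z) where
  cont i e x h hi := continuousAt_const.mul (hD.cont i e x h hi)
  change i j e e' x h h' hi hj := by
    rw [hD.change i j e e' x h h' hi hj]; ring

theorem IsDens.conj (hD : IsDens L D) :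
    IsDens L (fun i e z => (starRingEnd ℂ) (D i e z)) where
  cont i e x h hi := Complex.continuous_conj.continuousAt.comp (hD.cont i e x h hi)
  change i j e e' x h h' hi hj := by
    rw [hD.change i j e e' x h h' hi hj, map_mul, Complex.conj_ofReal]

theorem IsDens.sum {τ : Type*} (s : Finset τ) {D : τ → ι → Chart d X → Cm d → ℂ}
    (h : ∀ t ∈ s, IsDens L (D t)) : IsDens L (fun i e z => ∑ t ∈ s, D t i e z) where
  cont i e x h1 hi := tendsto_finsetSum _ fun t ht => (h t ht).cont i e x h1 hi
  change i j e e' x h1 h' hi hj := by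
    rw [Finset.mul_sum]
    exact Finset.sum_congr rfl fun t ht => (h t ht).change i j e e' x h1 h' hi hj

/-- the index used at a point -/
def ix (L : LineBundle d X ι) (x : X) : ι := (L.cover x).choose

theorem mem_ix (L : LineBundle d X ι) (x : X) : x ∈ L.U (ix L x) := (L.cover x).choose_spec

/-- real part -/
def reD (L : LineBundle d X ι) (D : ι → Chart d X → Cm d → ℂ) : Chart d X → Cm d → ℝ :=
  fun e z => (D (ix L (e.symm z)) e z).re

/-- imaginary part -/
def imD (L : LineBundle d X ι) (D : ι → Chart d X → Cm d → ℂ) : Chart d X → Cm d → ℝ :=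
  fun e z => (D (ix L (e.symm z)) e z).im

variable [IsManifold 𝓘(ℂ, Cm d) ω X]

theorem IsDens.indep (hD : IsDens L D) (h : At e x) (hi : x ∈ L.U i) (hj : x ∈ L.U j) :
    D i e (e x) = D j e (e x) := by
  rw [hD.change i j e e x h h hi hj, jacM_self h]
  simp

theorem reD_eq (hD : IsDens L D) (h : At e x) (hi : x ∈ L.U i) :
    reD L D e (e x) = (D i e (e x)).re := by
  unfold reD
  rw [h.left_inv, hD.indep h (mem_ix L x) hi]

theorem imD_eq (hD : IsDens L D) (h : At e x) (hi : x ∈ L.U i) :
    imD L D e (e x) = (D i e (e x)).im := by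
  unfold imD
  rw [h.left_inv, hD.indep h (mem_ix L x) hi]

theorem ev_on (h : At e x) (hi : x ∈ L.U i) :
    ∀ᶠ z in 𝓝 (e x), At e (e.symm z) ∧ e.symm z ∈ L.U i ∧ e (e.symm z) = z := by
  filter_upwards [nhds_on h h hi hi] with z hz using ⟨hz.2.1, hz.2.2.2.1, e.right_inv hz.1⟩

theorem IsDens.isDensity_re (hD : IsDens L D) : IsDensity (reD L D) where
  cont e x h := by
    have hi := mem_ix L x
    have h1 : ContinuousAt (fun z => (D (ix L x) e z).re) (e x) :=
      Complex.continuous_re.continuousAt.comp (hD.cont _ e x h hi)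
    refine h1.congr ?_
    filter_upwards [ev_on h hi] with z hz
    have := reD_eq hD hz.1 hz.2.1
    rw [hz.2.2] at this
    exact this.symm
  change e e' x h h' := by
    rw [reD_eq hD h (mem_ix L x), reD_eq hD h' (mem_ix L x),
      hD.change _ _ e e' x h h' (mem_ix L x) (mem_ix L x), Complex.re_ofReal_mul, mul_comm]

theorem IsDens.isDensity_im (hD : IsDens L D) : IsDensity (imD L D) where
  cont e x h := by
    have hi := mem_ix L x
    have h1 : ContinuousAt (fun z => (D (ix L x) e z).im) (e x) :=
      Complex.continuous_im.continuousAt.comp (hD.cont _ e x h hi)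
    refine h1.congr ?_
    filter_upwards [ev_on h hi] with z hz
    have := imD_eq hD hz.1 hz.2.1
    rw [hz.2.2] at this
    exact this.symm
  change e e' x h h' := by
    rw [imD_eq hD h (mem_ix L x), imD_eq hD h' (mem_ix L x),
      hD.change _ _ e e' x h h' (mem_ix L x) (mem_ix L x), Complex.im_ofReal_mul, mul_comm]

variable [T2Space X] [CompactSpace X]

/-- integral of a complex density -/
def intC (L : LineBundle d X ι) (D : ι → Chart d X → Cm d → ℂ) : ℂ :=
  (intX (reD L D) : ℂ) + Complex.I * (intX (imD L D) : ℂ)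

theorem intC_re (L : LineBundle d X ι) (D : ι → Chart d X → Cm d → ℂ) :
    (intC L D).re = intX (reD L D) := by simp [intC]

theorem intC_im (L : LineBundle d X ι) (D : ι → Chart d X → Cm d → ℂ) :
    (intC L D).im = intX (imD L D) := by simp [intC]

theorem intC_congr (h : ∀ i e x, At e x → x ∈ L.U i → D i e (e x) = D' i e (e x)) :
    intC L D = intC L D' := by
  have h1 : intX (reD L D) = intX (reD L D') := by
    refine intX_congr fun e x hx => ?_
    show (D (ix L (e.symm (e x))) e (e x)).re = (D' (ix L (e.symm (e x))) e (e x)).re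
    rw [hx.left_inv, h _ e x hx (mem_ix L x)]
  have h2 : intX (imD L D) = intX (imD L D') := by
    refine intX_congr fun e x hx => ?_
    show (D (ix L (e.symm (e x))) e (e x)).im = (D' (ix L (e.symm (e x))) e (e x)).im
    rw [hx.left_inv, h _ e x hx (mem_ix L x)]
  rw [intC, intC, h1, h2]

theorem intC_add (hD : IsDens L D) (hD' : IsDens L D') :
    intC L (fun i e z => D i e z + D' i e z) = intC L D + intC L D' := by
  have h1 : intX (reD L fun i e z => D i e z + D' i e z) = intX (reD L D) + intX (reD L D') :=
    intX_add hD.isDensity_re hD'.isDensity_re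
  have h2 : intX (imD L fun i e z => D i e z + D' i e z) = intX (imD L D) + intX (imD L D') :=
    intX_add hD.isDensity_im hD'.isDensity_im
  rw [intC, intC, intC, h1, h2]
  push_cast; ring

theorem intC_const_mul (hD : IsDens L D) (c : ℂ) :
    intC L (fun i e z => c * D i e z) = c * intC L D := by
  have h1 : intX (reD L fun i e z => c * D i e z) =
      c.re * intX (reD L D) - c.im * intX (imD L D) := by
    have e1 : reD L (fun i e z => c * D i e z) = fun e z => c.re * reD L D e z -
        c.im * imD L D e z := by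
      funext e z; simp [reD, imD, Complex.mul_re]
    rw [e1, intX_sub (hD.isDensity_re.const_mul _) (hD.isDensity_im.const_mul _),
      intX_const_mul, intX_const_mul]
  have h2 : intX (imD L fun i e z => c * D i e z) =
      c.re * intX (imD L D) + c.im * intX (reD L D) := by
    have e1 : imD L (fun i e z => c * D i e z) = fun e z => c.re * imD L D e z +
        c.im * reD L D e z := by
      funext e z; simp [reD, imD, Complex.mul_im]
    rw [e1, intX_add (hD.isDensity_im.const_mul _) (hD.isDensity_re.const_mul _),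
      intX_const_mul, intX_const_mul]
  apply Complex.ext
  · rw [intC_re, h1, Complex.mul_re, intC_re, intC_im]
  · rw [intC_im, h2, Complex.mul_im, intC_re, intC_im]

theorem intC_neg (hD : IsDens L D) : intC L (fun i e z => -D i e z) = -intC L D := by
  have := intC_const_mul hD (-1)
  simpa using this

theorem intC_sub (hD : IsDens L D) (hD' : IsDens L D') :
    intC L (fun i e z => D i e z - D' i e z) = intC L D - intC L D' := by
  have h1 := intC_add hD (hD'.const_mul (-1))
  rw [intC_const_mul hD' (-1)] at h1
  simp only [neg_mul, one_mul] at h1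
  simpa [sub_eq_add_neg] using h1

theorem intC_zero : intC L (fun _ _ _ => 0) = 0 := by
  have h1 : IsDens L (fun (_ : ι) (_ : Chart d X) (_ : Cm d) => (0 : ℂ)) :=
    ⟨fun _ _ _ _ _ => continuousAt_const, fun _ _ _ _ _ _ _ _ _ => by simp⟩
  have := intC_const_mul h1 0
  simpa using this

theorem intC_sum {τ : Type*} (s : Finset τ) {D : τ → ι → Chart d X → Cm d → ℂ}
    (h : ∀ t ∈ s, IsDens L (D t)) :
    intC L (fun i e z => ∑ t ∈ s, D t i e z) = ∑ t ∈ s, intC L (D t) := by
  classical
  induction s using Finset.induction_on with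
  | empty => simpa using intC_zero
  | insert a s ha ih =>
    simp only [Finset.sum_insert ha]
    rw [intC_add (h a (Finset.mem_insert_self a s))
      (IsDens.sum s fun i hi => h i (Finset.mem_insert_of_mem hi)),
      ih fun i hi => h i (Finset.mem_insert_of_mem hi)]

theorem intC_conj (D : ι → Chart d X → Cm d → ℂ) :
    intC L (fun i e z => (starRingEnd ℂ) (D i e z)) = (starRingEnd ℂ) (intC L D) := by
  apply Complex.ext
  · rw [intC_re, Complex.conj_re, intC_re]
    rfl
  · rw [intC_im, Complex.conj_im, intC_im]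
    have : imD L (fun i e z => (starRingEnd ℂ) (D i e z)) = fun e z => (-1) * imD L D e z := by
      funext e z; simp [imD]
    rw [this, intX_const_mul]; ring

theorem intC_re_nonneg (h : ∀ i e x, At e x → x ∈ L.U i → 0 ≤ (D i e (e x)).re) :
    0 ≤ (intC L D).re := by
  rw [intC_re]
  refine intX_nonneg fun e x hx => ?_
  show 0 ≤ (D (ix L (e.symm (e x))) e (e x)).re
  rw [hx.left_inv]
  exact h _ e x hx (mem_ix L x)

theorem intC_re_mono (hD : IsDens L D) (hD' : IsDens L D')
    (h : ∀ i e x, At e x → x ∈ L.U i → (D i e (e x)).re ≤ (D' i e (e x)).re) :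
    (intC L D).re ≤ (intC L D').re := by
  rw [intC_re, intC_re]
  refine intX_mono hD.isDensity_re hD'.isDensity_re fun e x hx => ?_
  rw [reD_eq hD hx (mem_ix L x), reD_eq hD' hx (mem_ix L x)]
  exact h _ e x hx (mem_ix L x)

/-- the domain of a trivialisation -/
def dom (L : LineBundle d X ι) (i : ι) (e : Chart d X) : Set (Cm d) := e.target ∩ e.symm ⁻¹' L.U i

omit [T2Space X] [CompactSpace X] [IsManifold 𝓘(ℂ, Cm d) ω X] in
theorem isOpen_dom (L : LineBundle d X ι) (i : ι) (e : Chart d X) : IsOpen (dom L i e) :=
  e.isOpen_inter_preimage_symm (L.isOpen i)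

omit [T2Space X] [CompactSpace X] [IsManifold 𝓘(ℂ, Cm d) ω X] in
theorem At.of_dom {e : Chart d X} (he : e ∈ atlas (Cm d) X) {z : Cm d} (hz : z ∈ dom L i e) :
    At e (e.symm z) ∧ e.symm z ∈ L.U i ∧ e (e.symm z) = z :=
  ⟨P272.K.At.of_target he hz.1, hz.2, e.right_inv hz.1⟩

omit [T2Space X] [CompactSpace X] [IsManifold 𝓘(ℂ, Cm d) ω X] in
theorem mem_dom (h : At e x) (hi : x ∈ L.U i) : e x ∈ dom L i e := by
  refine ⟨h.mem_target, ?_⟩
  show e.symm (e x) ∈ L.U i
  rw [h.left_inv]; exact hi

theorem IsDens.integrableOn (hD : IsDens L D) (he : e ∈ atlas (Cm d) X) {K : Set X}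
    (hK : IsClosed K) (hKe : K ⊆ e.source) (hKi : K ⊆ L.U i)
    (h0 : ∀ i e' x, At e' x → x ∈ L.U i → x ∉ K → D i e' (e' x) = 0) :
    IntegrableOn (D i e) (dom L i e) := by
  have hc : IsCompact (e '' K) :=
    hK.isCompact.image_of_continuousOn (e.continuousOn.mono hKe)
  have hsub : e '' K ⊆ dom L i e := by
    rintro _ ⟨x, hx, rfl⟩; exact mem_dom ⟨he, hKe hx⟩ (hKi hx)
  have hcont : ContinuousOn (D i e) (dom L i e) := fun z hz => by
    have h1 := At.of_dom he hz
    have := hD.cont i e _ h1.1 h1.2.1
    rw [h1.2.2] at this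
    exact this.continuousWithinAt
  have h1 : IntegrableOn (D i e) (e '' K) := (hcont.mono hsub).integrableOn_compact hc
  refine h1.of_forall_sdiff_eq_zero (isOpen_dom L i e).measurableSet fun z hz => ?_
  have h2 := At.of_dom he hz.1
  have h3 := h0 i e _ h2.1 h2.2.1 fun h => hz.2 ⟨_, h, h2.2.2⟩
  rwa [h2.2.2] at h3

/-- the integral of a density supported in the domain of a trivialisation -/
theorem intC_of_support (hD : IsDens L D) (he : e ∈ atlas (Cm d) X) {K : Set X} (hK : IsClosed K)
    (hKe : K ⊆ e.source) (hKi : K ⊆ L.U i)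
    (h0 : ∀ i e' x, At e' x → x ∈ L.U i → x ∉ K → D i e' (e' x) = 0) :
    intC L D = ∫ z in dom L i e, D i e z := by
  have hint := hD.integrableOn he hK hKe hKi h0
  have hre : intX (reD L D) = ∫ z in dom L i e, (D i e z).re := by
    rw [intX_of_support hD.isDensity_re he hK hKe (fun e' x hx hxK => by
      rw [reD_eq hD hx (mem_ix L x), h0 _ e' x hx (mem_ix L x) hxK, Complex.zero_re])]
    rw [setIntegral_eq_of_subset_of_forall_sdiff_eq_zero e.open_target.measurableSet
      (inter_subset_left : dom L i e ⊆ e.target)]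
    · refine setIntegral_congr_fun (isOpen_dom L i e).measurableSet fun z hz => ?_
      have h1 := At.of_dom he hz
      have := reD_eq hD h1.1 h1.2.1
      rwa [h1.2.2] at this
    · intro z hz
      have h1 : At e (e.symm z) := P272.K.At.of_target he hz.1
      have h2 : e.symm z ∉ K := fun h => hz.2 ⟨hz.1, hKi h⟩
      have h3 := h0 _ e _ h1 (mem_ix L _) h2
      rw [e.right_inv hz.1] at h3
      show (D (ix L (e.symm z)) e z).re = 0
      rw [h3, Complex.zero_re]
  have him : intX (imD L D) = ∫ z in dom L i e, (D i e z).im := by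
    rw [intX_of_support hD.isDensity_im he hK hKe (fun e' x hx hxK => by
      rw [imD_eq hD hx (mem_ix L x), h0 _ e' x hx (mem_ix L x) hxK, Complex.zero_im])]
    rw [setIntegral_eq_of_subset_of_forall_sdiff_eq_zero e.open_target.measurableSet
      (inter_subset_left : dom L i e ⊆ e.target)]
    · refine setIntegral_congr_fun (isOpen_dom L i e).measurableSet fun z hz => ?_
      have h1 := At.of_dom he hz
      have := imD_eq hD h1.1 h1.2.1
      rwa [h1.2.2] at this
    · intro z hz
      have h1 : At e (e.symm z) := P272.K.At.of_target he hz.1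
      have h2 : e.symm z ∉ K := fun h => hz.2 ⟨hz.1, hKi h⟩
      have h3 := h0 _ e _ h1 (mem_ix L _) h2
      rw [e.right_inv hz.1] at h3
      show (D (ix L (e.symm z)) e z).im = 0
      rw [h3, Complex.zero_im]
  apply Complex.ext
  · rw [intC_re, hre]
    exact integral_re hint
  · rw [intC_im, him]
    exact integral_im hint

/-- **divergence theorem** for densities supported in the domain of a trivialisation -/
theorem intC_div (hD : IsDens L D) (he : e ∈ atlas (Cm d) X) {K : Set X} (hK : IsClosed K)
    (hKe : K ⊆ e.source) (hKi : K ⊆ L.U i)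
    (h0 : ∀ i e' x, At e' x → x ∈ L.U i → x ∉ K → D i e' (e' x) = 0)
    {V : Fin d → Cm d → ℂ} (hV : ∀ l, ∀ z ∈ dom L i e, ContDiffAt ℝ 1 (V l) z)
    (hV0 : ∀ l, ∀ z ∈ dom L i e, e.symm z ∉ K → V l z = 0)
    (hDV : ∀ z ∈ dom L i e, D i e z = ∑ l, dz l (V l) z) : intC L D = 0 := by
  rw [intC_of_support hD he hK hKe hKi h0]
  have hc : IsCompact (e '' K) :=
    hK.isCompact.image_of_continuousOn (e.continuousOn.mono hKe)
  have hsub : e '' K ⊆ dom L i e := by
    rintro _ ⟨x, hx, rfl⟩; exact mem_dom ⟨he, hKe hx⟩ (hKi hx)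
  set W : Fin d → Cm d → ℂ := fun l => (dom L i e).indicator (V l) with hW
  have hsupp : ∀ l, Function.support (W l) ⊆ e '' K := by
    intro l z hz
    rw [Function.mem_support] at hz
    have hzd : z ∈ dom L i e := by
      by_contra h; exact hz (indicator_of_notMem h _)
    rw [hW] at hz
    simp only at hz
    rw [indicator_of_mem hzd] at hz
    by_contra hne
    exact hz (hV0 l z hzd fun h => hne ⟨_, h, (At.of_dom he hzd).2.2⟩)
  have hts : ∀ l, tsupport (W l) ⊆ e '' K := fun l => closure_minimal (hsupp l) hc.isClosed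
  have hWc : ∀ l, HasCompactSupport (W l) := fun l =>
    hc.of_isClosed_subset (isClosed_tsupport _) (hts l)
  have hev : ∀ l, ∀ z ∈ dom L i e, W l =ᶠ[𝓝 z] V l := by
    intro l z hz
    filter_upwards [(isOpen_dom L i e).mem_nhds hz] with y hy
    exact indicator_of_mem hy _
  have hWs : ∀ l, ContDiff ℝ 1 (W l) := by
    intro l
    rw [contDiff_iff_contDiffAt]
    intro z
    by_cases hz : z ∈ dom L i e
    · exact (hV l z hz).congr_of_eventuallyEq (hev l z hz)
    · exact contDiffAt_const.congr_of_eventuallyEq
        (notMem_tsupport_iff_eventuallyEq.1 fun h => hz (hsub (hts l h)))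
  have h1 : ∀ l, ∫ z, dz l (W l) z = 0 := fun l => INT.integral_dz_eq_zero (hWs l) (hWc l) l
  have h2 : ∀ l, ∫ z in dom L i e, dz l (V l) z = 0 := by
    intro l
    rw [← h1 l, ← integral_indicator (isOpen_dom L i e).measurableSet]
    congr 1
    funext z
    by_cases hz : z ∈ dom L i e
    · rw [indicator_of_mem hz, C2.dz_congr l (hev l z hz)]
    · rw [indicator_of_notMem hz]
      have : W l =ᶠ[𝓝 z] fun _ => 0 :=
        notMem_tsupport_iff_eventuallyEq.1 fun h => hz (hsub (hts l h))
      rw [C2.dz_congr l this, C2.dz_const]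
  have hint : ∀ l, IntegrableOn (fun z => dz l (V l) z) (dom L i e) := by
    intro l
    have hcd : Continuous (dz l (W l)) := by
      rw [continuous_iff_continuousAt]
      intro z
      exact (C2.contDiffAt_dz (m := 0) l (hWs l).contDiffAt (by norm_num)).continuousAt
    have h3 : Integrable (dz l (W l)) := by
      refine hcd.integrable_of_hasCompactSupport ?_
      refine HasCompactSupport.intro hc fun z hz => ?_
      have : W l =ᶠ[𝓝 z] fun _ => 0 :=
        notMem_tsupport_iff_eventuallyEq.1 fun h => hz (hts l h)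
      rw [C2.dz_congr l this, C2.dz_const]
    refine (h3.integrableOn (s := dom L i e)).congr_fun (fun z hz => ?_)
      (isOpen_dom L i e).measurableSet
    exact C2.dz_congr l (hev l z hz)
  rw [setIntegral_congr_fun (isOpen_dom L i e).measurableSet hDV, integral_finsetSum _ fun l _ => hint l]
  exact Finset.sum_eq_zero fun l _ => h2 l

end dens

end Vale.Agent.P301.H862
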