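import Vale.Agent.P301.H862.Koszul

/-!
# P301, index theorem: the Koszul operator on the total space
-/

open scoped Manifold ContDiff ComplexOrder Topology Matrix ComplexConjugate
open Vale.Agent.P272.K Vale.Agent.P272.K.C2 Vale.Agent.P299.H954 Vale.Agent.P299.IX
open Vale.Agent.P301.H599 MeasureTheory Set Filter Vale.Agent.P299.H863
open Vale.Agent.P299.IX.Fock Vale.Agent.P301.H103

set_option linter.unusedSectionVars false

noncomputable section

namespace Vale.Agent.P301.H862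

variable {d : ℕ} {X : Type} [TopologicalSpace X] {ι : Type} [ChartedSpace (Cm d) X]

variable {L : LineBundle d X ι} {k k' k0 N : ℕ} {c c' : ι → X → ℂ} {B : HB d X ι}
  {g h : Fam d X ι} {i j : ι} {e e' : Chart d X} {x : X} {z : Cm d}

theorem KS.exists_sg_lower [CompactSpace X] (K : KS L k0 N) {ρ : ι → X → ℝ}
    (hρ : IsMetric L ρ) : ∃ m : ℝ, 0 < m ∧ ∀ i x, x ∈ L.U i → m ≤ K.sg ρ i x := by
  rcases isEmpty_or_nonempty X with hX | hX
  · exact ⟨1, one_pos, fun i x => (hX.false x).elim⟩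
  have hcont : Continuous fun x => K.sg ρ (ix L x) x := by
    rw [continuous_iff_continuousAt]
    intro x
    set i := ix L x with hi'
    have hi : x ∈ L.U i := mem_ix L x
    set e := chartAt (Cm d) x with he
    have hx : At e x := ⟨chart_mem_atlas _ x, mem_chart_source _ x⟩
    have h1 : ∀ f : X → ℝ, ContinuousAt (fun z => f (e.symm z)) (e x) → ContinuousAt f x := by
      intro f hf
      have h2 : ContinuousAt (fun y => f (e.symm (e y))) x :=
        ContinuousAt.comp (f := e) (x := x) (g := fun z => f (e.symm z)) hf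
          (e.continuousAt hx.2)
      refine h2.congr ?_
      filter_upwards [e.open_source.mem_nhds hx.2] with y hy
      rw [e.left_inv hy]
    have h3 : ContinuousAt (K.sg ρ i) x := by
      refine h1 _ ?_
      unfold KS.sg
      refine tendsto_finsetSum _ fun a _ => ?_
      refine ContinuousAt.mul ?_ ?_
      · exact ((K.smooth a i e x hx hi).continuousAt.norm).pow 2
      · exact Real.continuous_exp.continuousAt.comp
          (continuousAt_const.mul (hρ.smooth i e x hx hi).continuousAt).neg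
    refine h3.congr ?_
    filter_upwards [(L.isOpen i).mem_nhds hi] with y hy
    exact K.sg_indep hρ hy (mem_ix L y)
  obtain ⟨x, -, hx⟩ := isCompact_univ.exists_isMinOn univ_nonempty hcont.continuousOn
  refine ⟨K.sg ρ (ix L x) x, K.sg_pos ρ (mem_ix L x), fun i y hy => ?_⟩
  rw [K.sg_indep hρ hy (mem_ix L y)]
  exact hx (mem_univ y)

theorem norm_le_sum {α : Type} [Fintype α] {H : α → Type} [∀ a, NormedAddCommGroup (H a)]
    [∀ a, InnerProductSpace ℂ (H a)] (v : PiLp 2 H) : ‖v‖ ≤ ∑ a, ‖v a‖ := by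
  have h0 : 0 ≤ ∑ a, ‖v a‖ := Finset.sum_nonneg fun a _ => norm_nonneg _
  refine abs_le_of_sq_le_sq' ?_ h0 |>.2
  rw [nsq]
  have h1 : ∀ a, ‖v a‖ ^ 2 ≤ ‖v a‖ * ∑ b, ‖v b‖ := fun a => by
    rw [sq]
    exact mul_le_mul_of_nonneg_left (Finset.single_le_sum (f := fun b => ‖v b‖)
      (fun b _ => norm_nonneg _) (Finset.mem_univ a)) (norm_nonneg _)
  calc ∑ a, ‖v a‖ ^ 2 ≤ ∑ a, ‖v a‖ * ∑ b, ‖v b‖ := Finset.sum_le_sum fun a _ => h1 a
    _ = _ := by rw [← Finset.sum_mul, sq]

namespace HB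

variable [IsManifold 𝓘(ℂ, Cm d) ω X] [T2Space X] [CompactSpace X]

/-- the spaces -/
abbrev HT (B : HB d X ι) (k0 b N : ℕ) (S : Finset (Fin N)) : Type :=
  (B.pow ((b + S.card) * k0)).S

/-- the elliptic structures -/
def AT (B : HB d X ι) (k0 b N : ℕ) (S : Finset (Fin N)) : Ell (HT B k0 b N S) :=
  (B.pow ((b + S.card) * k0)).ell

/-- the signs -/
def sgn (N : ℕ) (S : Finset (Fin N)) : ℤˣ := (-1) ^ S.card

/-- the blocks -/
def blk (K : KS B.L k0 N) (b : ℕ) (S T : Finset (Fin N)) :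
    HT B k0 b N T →ₗ[ℂ] HT B k0 b N S := B.mul _ (K.isMul B.metric b S T)

/-- the Koszul operator -/
def kos (K : KS B.L k0 N) (b : ℕ) : PiLp 2 (HT B k0 b N) →ₗ[ℂ] PiLp 2 (HT B k0 b N) where
  toFun u := WithLp.toLp 2 fun S => ∑ T, blk K b S T (u T)
  map_add' u v := by
    ext S
    simp only [PiLp.add_apply, map_add, Finset.sum_add_distrib]
  map_smul' q u := by
    ext S
    simp only [PiLp.smul_apply, map_smul, Finset.smul_sum, RingHom.id_apply]

variable (K : KS B.L k0 N) (b : ℕ)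

theorem kos_apply (u : PiLp 2 (HT B k0 b N)) (S : Finset (Fin N)) :
    kos K b u S = ∑ T, blk K b S T (u T) := rfl

theorem blk_at (S T : Finset (Fin N)) (u : HT B k0 b N T) (hx : At e x) (hi : x ∈ B.L.U i) :
    (blk K b S T u).f i e (e x) = K.M B.ρ i x S T • u.f i e (e x) :=
  mul_at _ u hx hi

theorem kos_bounded : ∃ C : ℝ, ∀ u, ‖kos K b u‖ ≤ C * ‖u‖ := by
  choose C hC0 hC using fun S T => B.mul_bounded (K.isMul B.metric b S T)
  refine ⟨∑ S, ∑ T, C S T, fun u => ?_⟩
  refine (norm_le_sum _).trans ?_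
  rw [Finset.sum_mul]
  refine Finset.sum_le_sum fun S _ => ?_
  rw [kos_apply, Finset.sum_mul]
  refine (norm_sum_le _ _).trans (Finset.sum_le_sum fun T _ => ?_)
  refine (hC S T (u T)).trans ?_
  have := hC0 S T
  gcongr
  exact H103.norm_apply_le u T

theorem kos_symm (u v : PiLp 2 (HT B k0 b N)) :
    inner ℂ (kos K b u) v = inner ℂ u (kos K b v) := by
  rw [H103.inner_eq, H103.inner_eq]
  simp only [kos_apply, sum_inner, inner_sum]
  rw [Finset.sum_comm]
  refine Finset.sum_congr rfl fun T _ => Finset.sum_congr rfl fun S _ => ?_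
  exact inner_mul (K.isMul B.metric b S T) (K.isMul B.metric b T S)
    (fun i x _ => K.M_adj B.ρ i x b S T) (u T) (v S)

theorem uc_sgn (S : Finset (Fin N)) : (((sgn N S : ℤˣ) : ℤ) : ℂ) = (-1) ^ S.card := by
  simp [sgn]

theorem blk_sgn (S T : Finset (Fin N)) (u : HT B k0 b N T) :
    (-1 : ℂ) ^ T.card • blk K b S T u = -((-1 : ℂ) ^ S.card • blk K b S T u) := by
  apply HB.S.ext_f
  intro i e x hx hi
  show (-1 : ℂ) ^ T.card • (blk K b S T u).f i e (e x) =
    -((-1 : ℂ) ^ S.card • (blk K b S T u).f i e (e x))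
  rw [blk_at K b S T u hx hi, smul_smul, smul_smul, ← neg_smul]
  congr 1
  have h := kos_par (fun a => K.s a i x) (fun a => K.t B.ρ a i x) S T
  show (-1 : ℂ) ^ T.card * K.M B.ρ i x S T = -((-1) ^ S.card * K.M B.ρ i x S T)
  rw [KS.M, h, neg_neg, mul_comm]

theorem kos_par (u : PiLp 2 (HT B k0 b N)) :
    kos K b (totPar (AT B k0 b N) (sgn N) u) = -totPar (AT B k0 b N) (sgn N) (kos K b u) := by
  ext S
  rw [PiLp.neg_apply, kos_apply, totPar_apply, kos_apply, uc_sgn]
  show _ = -((-1 : ℂ) ^ S.card • (B.pow ((b + S.card) * k0)).par (∑ T, blk K b S T (u T)))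
  rw [map_sum, Finset.smul_sum, ← Finset.sum_neg_distrib]
  refine Finset.sum_congr rfl fun T _ => ?_
  rw [totPar_apply, uc_sgn, map_smul]
  have h1 : blk K b S T ((AT B k0 b N T).par (u T)) =
      (B.pow ((b + S.card) * k0)).par (blk K b S T (u T)) := mul_par _ (u T)
  rw [h1]
  have h2 := congrArg (B.pow ((b + S.card) * k0)).par (blk_sgn K b S T (u T))
  rw [map_smul, map_neg, map_smul] at h2
  exact h2

theorem kos_anti : ∃ C : ℝ, ∀ u, ‖totD (AT B k0 b N) (sgn N) (kos K b u) +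
    kos K b (totD (AT B k0 b N) (sgn N) u)‖ ≤ C * ‖u‖ := by
  choose C hC0 hC using fun S T => B.comm_bounded (K.isMul B.metric b S T)
  refine ⟨∑ S, ∑ T, C S T, fun u => ?_⟩
  refine (norm_le_sum _).trans ?_
  rw [Finset.sum_mul]
  refine Finset.sum_le_sum fun S _ => ?_
  have h1 : (totD (AT B k0 b N) (sgn N) (kos K b u) +
      kos K b (totD (AT B k0 b N) (sgn N) u)) S = ∑ T, (-1 : ℂ) ^ S.card •
        ((B.pow ((b + S.card) * k0)).D (blk K b S T (u T)) -
          blk K b S T ((B.pow ((b + T.card) * k0)).D (u T))) := by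
    rw [PiLp.add_apply, totD_apply, kos_apply, kos_apply, uc_sgn]
    show (-1 : ℂ) ^ S.card • (B.pow ((b + S.card) * k0)).D (∑ T, blk K b S T (u T)) + _ = _
    rw [map_sum, Finset.smul_sum, ← Finset.sum_add_distrib]
    refine Finset.sum_congr rfl fun T _ => ?_
    rw [totD_apply, uc_sgn, map_smul, blk_sgn, smul_sub, ← sub_eq_add_neg]
    rfl
  rw [h1, Finset.sum_mul]
  refine (norm_sum_le _ _).trans (Finset.sum_le_sum fun T _ => ?_)
  rw [norm_smul, norm_pow, norm_neg, norm_one, one_pow, one_mul]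
  refine (hC S T (u T)).trans ?_
  have := hC0 S T
  gcongr
  exact H103.norm_apply_le u T

theorem kos_kos (u : PiLp 2 (HT B k0 b N)) (S : Finset (Fin N)) (hx : At e x)
    (hi : x ∈ B.L.U i) : (kos K b (kos K b u) S).f i e (e x) =
      (K.sg B.ρ i x : ℂ) • (u S).f i e (e x) := by
  have h1 : ∀ (v : PiLp 2 (HT B k0 b N)) (S : Finset (Fin N)), (kos K b v S).f i e (e x) =
      ∑ T, K.M B.ρ i x S T • (v T).f i e (e x) := by
    intro v S
    rw [kos_apply, HB.S.sum_f]
    simp only [Finset.sum_apply]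
    exact Finset.sum_congr rfl fun T _ => blk_at K b S T (v T) hx hi
  rw [h1]
  simp only [h1, Finset.smul_sum, smul_smul]
  rw [Finset.sum_comm]
  have h2 : ∀ R, ∑ T, (K.M B.ρ i x S T * K.M B.ρ i x T R) • (u R).f i e (e x) =
      (K.M B.ρ i x * K.M B.ρ i x) S R • (u R).f i e (e x) := by
    intro R
    rw [← Finset.sum_smul, Matrix.mul_apply]
  rw [Finset.sum_congr rfl fun R _ => h2 R, K.M_sq, Finset.sum_eq_single S]
  · rw [Matrix.smul_apply, Matrix.one_apply_eq, smul_eq_mul, mul_one]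
  · intro R _ hR
    rw [Matrix.smul_apply, Matrix.one_apply_ne hR.symm, smul_zero, zero_smul]
  · intro h; exact absurd (Finset.mem_univ S) h

theorem kos_low : ∃ q : ℝ, 0 < q ∧ ∀ u, q * ‖u‖ ≤ ‖kos K b u‖ := by
  obtain ⟨m, hm, hmb⟩ := K.exists_sg_lower B.metric
  refine ⟨Real.sqrt m, Real.sqrt_pos.2 hm, fun u => ?_⟩
  refine abs_le_of_sq_le_sq' ?_ (norm_nonneg _) |>.2
  rw [mul_pow, Real.sq_sqrt hm.le]
  have h1 : ‖kos K b u‖ ^ 2 = (inner ℂ (kos K b (kos K b u)) u).re := by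
    rw [kos_symm]
    exact (inner_self_eq_norm_sq (𝕜 := ℂ) _).symm
  rw [h1, H103.inner_eq, Complex.re_sum, H103.nsq, Finset.mul_sum]
  refine Finset.sum_le_sum fun S _ => ?_
  have hD1 := (B.pow ((b + S.card) * k0)).dens (u S).isSec (kos K b (kos K b u) S).isSec
  have hD2 := (B.pow ((b + S.card) * k0)).dens (u S).isSec (u S).isSec
  have h2 : m * ‖u S‖ ^ 2 = (intC (B.pow ((b + S.card) * k0)).L
      (fun i e z => (m : ℂ) * hX (B.pow ((b + S.card) * k0)).ρ (B.pow ((b + S.card) * k0)).w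
        (u S).f (u S).f i e z)).re := by
    rw [intC_const_mul hD2, Complex.re_ofReal_mul, norm_sq_eq]
    rfl
  rw [h2]
  refine intC_re_mono (hD2.const_mul _) hD1 fun i e x hx hi => ?_
  show _ ≤ (hw _ _ _ _ ((kos K b (kos K b u) S).f i e (e x))).re
  rw [kos_kos K b u S hx hi, hw_smul_right, Complex.conj_ofReal, Complex.re_ofReal_mul,
    Complex.re_ofReal_mul]
  have h3 : 0 ≤ (hX (B.pow ((b + S.card) * k0)).ρ B.w (u S).f (u S).f i e (e x)).re :=
    hw_nonneg (kat B.kahler hx) _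
  exact mul_le_mul_of_nonneg_right (hmb i x hi) h3

/-- the index relation -/
theorem index_rel (K : KS B.L k0 N) (b : ℕ) : (∀ (S : Finset (Fin N)) s, FiniteDimensional ℂ
      ((B.pow ((b + S.card) * k0)).ell.sk s)) ∧
    ∑ S : Finset (Fin N), (-1 : ℤ) ^ S.card * (B.pow ((b + S.card) * k0)).ell.P = 0 := by
  obtain ⟨q, hq, hlow⟩ := kos_low K b
  obtain ⟨C, hC⟩ := kos_anti K b
  obtain ⟨h1, h2⟩ := index_total (AT B k0 b N) (sgn N) (kos K b) (kos_bounded K b)
    (kos_symm K b) (kos_par K b) hq hlow hC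
  refine ⟨h1, ?_⟩
  refine (Finset.sum_congr rfl fun S _ => ?_).trans h2
  simp [sgn, AT]

end HB

end Vale.Agent.P301.H862
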