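import Vale.Agent.P301.H862.Mul
import Vale.Agent.P301.H103.Tot

/-!
# P301, index theorem: the Koszul operator
-/

open scoped Manifold ContDiff ComplexOrder Topology Matrix ComplexConjugate
open Vale.Agent.P272.K Vale.Agent.P272.K.C2 Vale.Agent.P299.H954 Vale.Agent.P299.IX
open Vale.Agent.P301.H599 MeasureTheory Set Filter Vale.Agent.P299.H863
open Vale.Agent.P299.IX.Fock

set_option linter.unusedSectionVars false

noncomputable section

namespace Vale.Agent.P301.H862

section alg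

variable {N : ℕ}

theorem dgl_eps_geo {c : ℕ → ℂ} {q : ℂ} (hc : ∀ p, c (p + 1) = q * c p) (j : Fin N) :
    (dgl c : FM N) * eps j = q • (eps j * dgl c) := by
  rw [dgl_eps, ← Matrix.mul_smul]
  congr 1
  ext I K
  simp only [dgl, Matrix.diagonal_apply, Matrix.smul_apply, smul_eq_mul]
  split_ifs
  · exact hc _
  · rw [mul_zero]

theorem iot_dgl_geo {c : ℕ → ℂ} {q : ℂ} (hc : ∀ p, c (p + 1) = q * c p) (j : Fin N) :
    iot j * (dgl c : FM N) = q • (dgl c * iot j) := by
  rw [← dgl_iot, ← Matrix.smul_mul]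
  congr 1
  ext I K
  simp only [dgl, Matrix.diagonal_apply, Matrix.smul_apply, smul_eq_mul]
  split_ifs
  · exact hc _
  · rw [mul_zero]

/-- change of frame -/
theorem frame_change {c : ℕ → ℂ} {q : ℂ} (hc : ∀ p, c (p + 1) = q * c p) {s s' t t' : Fin N → ℂ}
    (hs : ∀ a, s a = q * s' a) (ht : ∀ a, t a * q = t' a) :
    (epsV s + iotV t) * (dgl c : FM N) = dgl c * (epsV s' + iotV t') := by
  rw [Matrix.add_mul, Matrix.mul_add]
  congr 1
  · rw [epsV, epsV, Finset.sum_mul, Finset.mul_sum]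
    refine Finset.sum_congr rfl fun a _ => ?_
    rw [Matrix.smul_mul, Matrix.mul_smul, dgl_eps_geo hc, smul_smul, hs, mul_comm]
  · rw [iotV, iotV, Finset.sum_mul, Finset.mul_sum]
    refine Finset.sum_congr rfl fun a _ => ?_
    rw [Matrix.smul_mul, Matrix.mul_smul, iot_dgl_geo hc, smul_smul, ht]

/-- adjoint -/
theorem adj_change {c : ℕ → ℂ} {q : ℂ} (hc : ∀ p, c (p + 1) = q * c p) {s t : Fin N → ℂ}
    (h1 : ∀ a, conj (s a) * q = t a) (h2 : ∀ a, s a * q = conj (t a)) :
    (epsV s + iotV t)ᴴ * (dgl c : FM N) = dgl c * (epsV s + iotV t) := by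
  rw [Matrix.conjTranspose_add, epsV_conjTranspose, iotV_conjTranspose, Matrix.add_mul,
    Matrix.mul_add, add_comm]
  congr 1
  · rw [epsV, epsV, Finset.sum_mul, Finset.mul_sum]
    refine Finset.sum_congr rfl fun a _ => ?_
    rw [Matrix.smul_mul, Matrix.mul_smul, dgl_eps_geo hc, smul_smul, h2]
    rfl
  · rw [iotV, iotV, Finset.sum_mul, Finset.mul_sum]
    refine Finset.sum_congr rfl fun a _ => ?_
    rw [Matrix.smul_mul, Matrix.mul_smul, iot_dgl_geo hc, smul_smul, ← h1]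
    rfl

theorem kos_sq (s t : Fin N → ℂ) :
    (epsV s + iotV t) * (epsV s + iotV t) = (t ⬝ᵥ s) • (1 : FM N) := by
  rw [Matrix.add_mul, Matrix.mul_add, Matrix.mul_add, epsV_sq, iotV_sq, ← iotV_epsV]
  abel

theorem par_epsV (v : Fin N → ℂ) : par * epsV v = -(epsV v * par) := by
  unfold epsV
  rw [Finset.mul_sum, Finset.sum_mul, ← Finset.sum_neg_distrib]
  refine Finset.sum_congr rfl fun l _ => ?_
  rw [Matrix.mul_smul, Matrix.smul_mul, par_eps, smul_neg]

theorem par_iotV (v : Fin N → ℂ) : par * iotV v = -(iotV v * par) := by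
  unfold iotV
  rw [Finset.mul_sum, Finset.sum_mul, ← Finset.sum_neg_distrib]
  refine Finset.sum_congr rfl fun l _ => ?_
  rw [Matrix.mul_smul, Matrix.smul_mul, par_iot, smul_neg]

theorem kos_par (s t : Fin N → ℂ) (S T : FI N) :
    (-1 : ℂ) ^ S.card * (epsV s + iotV t) S T = -((epsV s + iotV t) S T * (-1) ^ T.card) := by
  have h : par * (epsV s + iotV t) = -((epsV s + iotV t) * par) := by
    rw [Matrix.mul_add, Matrix.add_mul, par_epsV, par_iotV, neg_add]
  have h1 := congrFun (congrFun h S) T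
  rw [par, dgl, Matrix.diagonal_mul, Matrix.neg_apply, Matrix.mul_diagonal] at h1
  exact h1

end alg

variable {d : ℕ} {X : Type} [TopologicalSpace X] {ι : Type} [ChartedSpace (Cm d) X]

/-- sections of `L^k0` without common zeros -/
structure KS (L : LineBundle d X ι) (k0 N : ℕ) where
  s : Fin N → ι → X → ℂ
  smooth : ∀ a i (e : Chart d X) x, At e x → x ∈ L.U i →
    ContDiffAt ℝ ∞ (fun z => s a i (e.symm z)) (e x)
  change : ∀ a i j x, x ∈ L.U i → x ∈ L.U j → s a i x = L.g i j x ^ k0 * s a j x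
  nz : ∀ i x, x ∈ L.U i → ∃ a, s a i x ≠ 0

variable {L : LineBundle d X ι} {k k' k0 N : ℕ} {c c' : ι → X → ℂ} {B : HB d X ι}
  {g h : Fam d X ι} {i j : ι} {e e' : Chart d X} {x : X} {z : Cm d}

theorem exists_KS [IsManifold 𝓘(ℂ, Cm d) ω X] [T2Space X] [CompactSpace X]
    (L : LineBundle d X ι) : ∃ N, ∀ k0, Nonempty (KS L k0 N) := by
  classical
  obtain ⟨T⟩ := exists_triv L
  refine ⟨T.N, fun k0 => ⟨⟨fun a i x => if x ∈ L.U (T.i a) then
    (T.χ a x : ℂ) * L.g i (T.i a) x ^ k0 else 0, ?_, ?_, ?_⟩⟩⟩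
  · intro a i e x hx hi
    have hsymm : ContinuousAt e.symm (e x) := e.continuousAt_symm hx.mem_target
    by_cases h : x ∈ L.U (T.i a)
    · have h1 : ContDiffAt ℝ ∞ (fun z => (T.χ a (e.symm z) : ℂ) *
          L.g i (T.i a) (e.symm z) ^ k0) (e x) := by
        refine (contDiffAt_ofReal (T.smooth a e x hx)).mul ?_
        have h2 : ContDiffAt ℝ ∞ (fun z => L.g i (T.i a) (e.symm z)) (e x) :=
          (((L.holo i (T.i a) e x hx hi h).contDiffAt (n := ω)).restrict_scalars ℝ).of_le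
            (by exact le_top)
        exact h2.pow k0
      refine h1.congr_of_eventuallyEq ?_
      have h3 : ∀ᶠ z in 𝓝 (e x), e.symm z ∈ L.U (T.i a) :=
        hsymm.eventually_mem (by rw [hx.left_inv]; exact (L.isOpen _).mem_nhds h)
      filter_upwards [h3] with z hz
      rw [if_pos hz]
    · have hx' : x ∉ tsupport (T.χ a) := fun h' => h (T.suppU a h')
      have h3 : ∀ᶠ z in 𝓝 (e x), e.symm z ∈ (tsupport (T.χ a))ᶜ :=
        hsymm.eventually_mem (by
          rw [hx.left_inv]; exact (isClosed_tsupport _).isOpen_compl.mem_nhds hx')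
      refine (contDiffAt_const (c := (0 : ℂ))).congr_of_eventuallyEq ?_
      filter_upwards [h3] with z hz
      split_ifs
      · rw [image_eq_zero_of_notMem_tsupport hz, Complex.ofReal_zero, zero_mul]
      · rfl
  · intro a i j x hi hj
    split_ifs with h
    · rw [← L.cocycle i j (T.i a) x hi hj h, mul_pow]; ring
    · rw [mul_zero]
  · intro i x hi
    obtain ⟨a, ha⟩ : ∃ a, T.χ a x ≠ 0 := by
      by_contra hcon
      push Not at hcon
      have := T.sum x
      rw [Finset.sum_eq_zero fun i _ => hcon i] at this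
      exact zero_ne_one this
    have hxs : x ∈ tsupport (T.χ a) := subset_tsupport _ ha
    refine ⟨a, ?_⟩
    rw [if_pos (T.suppU a hxs)]
    exact mul_ne_zero (Complex.ofReal_ne_zero.2 ha)
      (pow_ne_zero _ (L.ne_zero _ _ _ hi (T.suppU a hxs)))

namespace KS

variable (K : KS L k0 N) {ρ : ι → X → ℝ}

/-- the dual sections -/
def t (ρ : ι → X → ℝ) (a : Fin N) (i : ι) (x : X) : ℂ :=
  conj (K.s a i x) * (Real.exp (-(k0 * ρ i x)) : ℝ)

/-- the Koszul matrix -/
def M (ρ : ι → X → ℝ) (i : ι) (x : X) : FM N :=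
  epsV (fun a => K.s a i x) + iotV (fun a => K.t ρ a i x)

theorem exp_change (hρ : IsMetric L ρ) (hi : x ∈ L.U i) (hj : x ∈ L.U j) (k : ℕ) :
    (Real.exp (-(k * ρ i x)) : ℂ) * ((‖L.g i j x‖ ^ 2 : ℝ) : ℂ) ^ k =
      (Real.exp (-(k * ρ j x)) : ℂ) := by
  have h0 : 0 < ‖L.g i j x‖ ^ 2 := by
    have := norm_pos_iff.2 (L.ne_zero i j x hi hj); positivity
  have h1 : (‖L.g i j x‖ ^ 2) ^ k = Real.exp (k * Real.log (‖L.g i j x‖ ^ 2)) := by
    rw [mul_comm, ← Real.rpow_natCast, Real.rpow_def_of_pos h0]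
  rw [← Complex.ofReal_pow, ← Complex.ofReal_mul, h1, ← Real.exp_add, hρ.change i j x hi hj]
  congr 2
  ring

theorem t_change (hρ : IsMetric L ρ) (hi : x ∈ L.U i) (hj : x ∈ L.U j) (a : Fin N) :
    K.t ρ a i x * L.g i j x ^ k0 = K.t ρ a j x := by
  unfold t
  rw [K.change a i j x hi hj, map_mul, map_pow, ← exp_change hρ hi hj k0]
  have h1 : ((‖L.g i j x‖ ^ 2 : ℝ) : ℂ) = conj (L.g i j x) * L.g i j x := by
    rw [← Complex.normSq_eq_conj_mul_self, Complex.normSq_eq_norm_sq]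
  rw [h1, mul_pow]
  ring

theorem M_change (hρ : IsMetric L ρ) (hi : x ∈ L.U i) (hj : x ∈ L.U j) (b : ℕ) :
    K.M ρ i x * dgl (fun p => L.g i j x ^ ((b + p) * k0)) =
      dgl (fun p => L.g i j x ^ ((b + p) * k0)) * K.M ρ j x := by
  refine frame_change (q := L.g i j x ^ k0) (fun p => ?_) (fun a => K.change a i j x hi hj)
    fun a => K.t_change hρ hi hj a
  rw [← pow_add]; congr 1; ring

theorem smooth_t (hρ : IsMetric L ρ) (a : Fin N) (i : ι) (e : Chart d X) (x : X) (hx : At e x)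
    (hi : x ∈ L.U i) : ContDiffAt ℝ ∞ (fun z => K.t ρ a i (e.symm z)) (e x) := by
  refine ContDiffAt.mul ?_ ?_
  · exact Complex.conjCLE.contDiff.contDiffAt.comp (e x) (K.smooth a i e x hx hi)
  · exact contDiffAt_expw (contDiffAt_const.mul (hρ.smooth i e x hx hi))

theorem isMul (hρ : IsMetric L ρ) (b : ℕ) (S T : FI N) :
    IsMul L ((b + T.card) * k0) ((b + S.card) * k0) (fun i x => K.M ρ i x S T) where
  smooth i e x hx hi := by
    simp only [M, Matrix.add_apply, epsV, iotV, Matrix.sum_apply, Matrix.smul_apply, smul_eq_mul]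
    refine ContDiffAt.add (ContDiffAt.sum fun a _ => ?_) (ContDiffAt.sum fun a _ => ?_)
    · exact (K.smooth a i e x hx hi).mul contDiffAt_const
    · exact (K.smooth_t hρ a i e x hx hi).mul contDiffAt_const
  change i j x hi hj := by
    have h1 := congrFun (congrFun (K.M_change hρ hi hj b) S) T
    rw [dgl, Matrix.mul_diagonal, Matrix.diagonal_mul] at h1
    exact h1

theorem M_adj (ρ : ι → X → ℝ) (i : ι) (x : X) (b : ℕ) (S T : FI N) :
    conj (K.M ρ i x S T) * Real.exp (-(((b + S.card) * k0 : ℕ) * ρ i x)) =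
      K.M ρ i x T S * Real.exp (-(((b + T.card) * k0 : ℕ) * ρ i x)) := by
  have h := adj_change (N := N) (q := (Real.exp (-(k0 * ρ i x)) : ℂ))
    (c := fun p => (Real.exp (-(((b + p) * k0 : ℕ) * ρ i x)) : ℂ)) (s := fun a => K.s a i x)
    (t := fun a => K.t ρ a i x) (fun p => by
      rw [← Complex.ofReal_mul, ← Real.exp_add]
      congr 2
      push_cast
      ring) (fun a => rfl) (fun a => by
        unfold t
        rw [map_mul, Complex.conj_conj, Complex.conj_ofReal])
  have h1 := congrFun (congrFun h T) S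
  rw [dgl, Matrix.mul_diagonal, Matrix.diagonal_mul, Matrix.conjTranspose_apply] at h1
  rw [mul_comm (K.M ρ i x T S)]
  exact h1

/-- the sum of the squares of the norms of the sections -/
def sg (ρ : ι → X → ℝ) (i : ι) (x : X) : ℝ :=
  ∑ a, ‖K.s a i x‖ ^ 2 * Real.exp (-(k0 * ρ i x))

theorem M_sq (ρ : ι → X → ℝ) (i : ι) (x : X) :
    K.M ρ i x * K.M ρ i x = (K.sg ρ i x : ℂ) • (1 : FM N) := by
  rw [M, kos_sq]
  congr 1
  simp only [dotProduct, sg, t]
  rw [Complex.ofReal_sum]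
  refine Finset.sum_congr rfl fun a _ => ?_
  rw [Complex.ofReal_mul, ← Complex.normSq_eq_norm_sq, Complex.normSq_eq_conj_mul_self]
  ring

theorem sg_pos (ρ : ι → X → ℝ) (hi : x ∈ L.U i) : 0 < K.sg ρ i x := by
  obtain ⟨a, ha⟩ := K.nz i x hi
  refine Finset.sum_pos' (fun b _ => by positivity) ⟨a, Finset.mem_univ _, ?_⟩
  have := norm_pos_iff.2 ha
  positivity

theorem sg_indep (hρ : IsMetric L ρ) (hi : x ∈ L.U i) (hj : x ∈ L.U j) :
    K.sg ρ i x = K.sg ρ j x := by
  unfold sg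
  refine Finset.sum_congr rfl fun a _ => ?_
  have h1 := exp_change hρ hi hj k0
  have h2 : Real.exp (-(k0 * ρ i x)) * (‖L.g i j x‖ ^ 2) ^ k0 = Real.exp (-(k0 * ρ j x)) := by
    exact_mod_cast h1
  rw [K.change a i j x hi hj, norm_mul, norm_pow, mul_pow, ← h2]
  ring

end KS

end Vale.Agent.P301.H862
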