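import Vale.Agent.P301.H862.LocInst
import Vale.Agent.P299.H598.IX.OpL
import Vale.Agent.P299.H863.LocD

/-!
# P301, index theorem: operators on sections; `D' + δ` is a local first order operator
-/

open scoped Manifold ContDiff ComplexOrder Topology Matrix ComplexConjugate
open Vale.Agent.P272.K Vale.Agent.P272.K.C2 Vale.Agent.P299.H954 Vale.Agent.P299.IX
open Vale.Agent.P301.H599 MeasureTheory Set Filter Vale.Agent.P299.H863
open Vale.Agent.P299.IX.Fock

set_option linter.unusedSectionVars false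

noncomputable section

namespace Vale.Agent.P301.H862

section loc

variable {n : ℕ} {w : Cm n → Matrix (Fin n) (Fin n) ℂ} {f : Cm n → ℝ} {z : Cm n}
  {a b : Cm n → FI n → ℂ}

theorem Dw_congr (h : a =ᶠ[𝓝 z] b) : Dw f a z = Dw f b z := by
  simp only [Dw, DV_congr h, h.self_of_nhds]

theorem De_congr (h : a =ᶠ[𝓝 z] b) : De w a z = De w b z := by
  simp only [De, DVb_congr h]

theorem Dw_add (ha : VC 1 a z) (hb : VC 1 b z) :
    Dw f (fun y => a y + b y) z = Dw f a z + Dw f b z := by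
  simp only [Dw]
  rw [← Finset.sum_add_distrib]
  refine Finset.sum_congr rfl fun l _ => ?_
  rw [DV_add ha hb, smul_add, ← Matrix.mulVec_add]
  congr 1; abel

theorem De_add (ha : VC 1 a z) (hb : VC 1 b z) :
    De w (fun y => a y + b y) z = De w a z + De w b z := by
  simp only [De]
  rw [← neg_add, ← Finset.sum_add_distrib]
  congr 1
  refine Finset.sum_congr rfl fun l _ => ?_
  rw [DVb_add ha hb, Matrix.mulVec_add]

theorem DV_csmul {κ : Type*} {a : Cm n → κ → ℂ} {l : Fin n} (c : ℂ) (ha : VC 1 a z) :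
    DV l (fun y => c • a y) z = c • DV l a z := by
  ext i
  exact INT.dz_const_mul c ((ha i).differentiableAt (by simp))

theorem DVb_csmul {κ : Type*} {a : Cm n → κ → ℂ} {l : Fin n} (c : ℂ) (ha : VC 1 a z) :
    DVb l (fun y => c • a y) z = c • DVb l a z := by
  ext i
  exact INT.dzb_const_mul c ((ha i).differentiableAt (by simp))

theorem Dw_csmul (c : ℂ) (ha : VC 1 a z) : Dw f (fun y => c • a y) z = c • Dw f a z := by
  simp only [Dw]
  rw [Finset.smul_sum]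
  refine Finset.sum_congr rfl fun l _ => ?_
  rw [DV_csmul c ha, smul_comm, ← smul_sub, Matrix.mulVec_smul]

theorem De_csmul (c : ℂ) (ha : VC 1 a z) : De w (fun y => c • a y) z = c • De w a z := by
  simp only [De]
  rw [smul_neg, Finset.smul_sum]
  congr 1
  refine Finset.sum_congr rfl fun l _ => ?_
  rw [DVb_csmul c ha, Matrix.mulVec_smul]

/-- constant matrices -/
theorem DV_cm {κ : Type*} [Fintype κ] {a : Cm n → κ → ℂ} (A : Matrix κ κ ℂ)
    (hu : VC 1 a z) (l : Fin n) : DV l (fun y => A *ᵥ a y) z = A *ᵥ DV l a z := by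
  rw [DV_mulVec (M := fun _ => A) (MC_const A) hu, DM_const, Matrix.zero_mulVec, zero_add]

theorem DVb_cm {κ : Type*} [Fintype κ] {a : Cm n → κ → ℂ} (A : Matrix κ κ ℂ)
    (hu : VC 1 a z) (l : Fin n) : DVb l (fun y => A *ᵥ a y) z = A *ᵥ DVb l a z := by
  rw [DVb_mulVec (M := fun _ => A) (MC_const A) hu, DMb_const, Matrix.zero_mulVec, zero_add]

/-- `D'` raises the degree -/
theorem Dw_dgl (c : ℕ → ℂ) (ha : VC 1 a z) :
    Dw f (fun y => dgl (fun p => c (p + 1)) *ᵥ a y) z = dgl c *ᵥ Dw f a z := by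
  simp only [Dw]
  rw [Matrix.mulVec_sum]
  refine Finset.sum_congr rfl fun l _ => ?_
  rw [DV_cm _ ha, ← Matrix.mulVec_smul, ← Matrix.mulVec_sub, Matrix.mulVec_mulVec,
    Matrix.mulVec_mulVec, dgl_eps]

theorem epd_dgl (c : ℕ → ℂ) (l : Fin n) :
    epd l w z * dgl c = dgl (fun p => c (p + 1)) * epd l w z := by
  unfold epd
  rw [Finset.sum_mul, Finset.mul_sum]
  refine Finset.sum_congr rfl fun q _ => ?_
  rw [Matrix.smul_mul, Matrix.mul_smul, dgl_iot]

/-- `δ` lowers the degree -/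
theorem De_dgl (c : ℕ → ℂ) (ha : VC 1 a z) :
    De w (fun y => dgl c *ᵥ a y) z = dgl (fun p => c (p + 1)) *ᵥ De w a z := by
  simp only [De]
  rw [Matrix.mulVec_neg, Matrix.mulVec_sum]
  congr 1
  refine Finset.sum_congr rfl fun l _ => ?_
  rw [DVb_cm _ ha, Matrix.mulVec_mulVec, Matrix.mulVec_mulVec, epd_dgl]

theorem hw_dgl (c : ℕ → ℂ) (u v : FI n → ℂ) :
    hw f w z (dgl c *ᵥ u) v = hw f w z u (dgl (fun p => conj (c p)) *ᵥ v) := by
  unfold hw hp pr Ld
  congr 2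
  rw [Matrix.mulVec_mulVec, ← dgl_lam, ← Matrix.mulVec_mulVec]
  simp only [dgl_mulVec]
  refine Finset.sum_congr rfl fun I _ => ?_
  rw [map_mul, Complex.conj_conj]; ring

end loc

variable {d : ℕ} {X : Type} [TopologicalSpace X] {ι : Type} [ChartedSpace (Cm d) X]

/-- an operator on sections, given on the components -/
structure Opr (B B' : HB d X ι) where
  F : Fam d X ι → Fam d X ι
  dom : ∀ i, B'.L.U i ⊆ B.L.U i
  sec : ∀ {g}, IsSec B.L g → IsSec B'.L (F g)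
  add : ∀ {g h}, IsSec B.L g → IsSec B.L h → ∀ i e x, At e x → x ∈ B.L.U i →
    F (g + h) i e (e x) = F g i e (e x) + F h i e (e x)
  smul : ∀ (c : ℂ) {g}, IsSec B.L g → ∀ i e x, At e x → x ∈ B.L.U i →
    F (c • g) i e (e x) = c • F g i e (e x)

variable {B B' : HB d X ι} {g h : Fam d X ι} {i j : ι} {e e' : Chart d X} {x : X} {z : Cm d}

/-- the operator on sections -/
def Opr.op (O : Opr B B') : B.S →ₗ[ℂ] B'.S where
  toFun s := HB.mkS (O.F s.f) (O.sec s.isSec)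
  map_add' s t := by
    apply HB.S.ext_f
    intro i e x hx hi
    rw [HB.mkS_at _ hx hi, HB.S.add_f s t, O.add s.isSec t.isSec i e x hx (O.dom i hi),
      HB.S.add_f]
    exact congrArg₂ (· + ·) (HB.mkS_at (O.sec s.isSec) hx hi).symm
      (HB.mkS_at (O.sec t.isSec) hx hi).symm
  map_smul' c s := by
    apply HB.S.ext_f
    intro i e x hx hi
    rw [HB.mkS_at _ hx hi, HB.S.smul_f c s, O.smul c s.isSec i e x hx (O.dom i hi)]
    exact congrArg (c • ·) (HB.mkS_at (O.sec s.isSec) hx hi).symm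

theorem Opr.op_at (O : Opr B B') (s : B.S) (hx : At e x) (hi : x ∈ B'.L.U i) :
    (O.op s).f i e (e x) = O.F s.f i e (e x) := HB.mkS_at (O.sec s.isSec) hx hi

theorem Opr.op_near (O : Opr B B') (s : B.S) (hx : At e x) (hi : x ∈ B'.L.U i) :
    (O.op s).f i e =ᶠ[𝓝 (e x)] O.F s.f i e := HB.mkS_near (O.sec s.isSec) hx hi

theorem vc1 {L : LineBundle d X ι} (hg : IsSec L g) (hx : At e x) (hi : x ∈ L.U i) :
    VC 1 (g i e) (e x) := (hg.smooth i e x hx hi).mono TrAt.one_le_inf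

/-! ### degree operators -/

/-- multiplication by a function of the degree -/
def dglX (c : ℕ → ℂ) (g : Fam d X ι) : Fam d X ι := fun i e z => dgl c *ᵥ g i e z

theorem IsSec.dglX {L : LineBundle d X ι} (c : ℕ → ℂ) (hg : IsSec L g) :
    IsSec L (dglX c g) where
  smooth i e x hx hi := VC_constMul _ (hg.smooth i e x hx hi)
  change i j e e' x hx h' hi hj := by
    show dgl c *ᵥ g i e (e x) = _ *ᵥ (dgl c *ᵥ g j e' (e' x))
    rw [hg.change i j e e' x hx h' hi hj, Matrix.mulVec_mulVec, Matrix.mulVec_mulVec,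
      Matrix.mul_smul, Matrix.smul_mul, dgl_lam]

/-- multiplication by a function of the degree -/
def HB.opd (B : HB d X ι) (c' : ℕ → ℂ) : Opr B B where
  F := dglX c'
  dom _ := subset_rfl
  sec hg := hg.dglX c'
  add _ _ _ _ _ _ _ := Matrix.mulVec_add _ _ _
  smul c g _ i e x _ _ := Matrix.mulVec_smul (dgl c') c (g i e (e x))

variable [IsManifold 𝓘(ℂ, Cm d) ω X]

/-- `D'` -/
def HB.opP (B : HB d X ι) : Opr B B where
  F := DX B.ρ
  dom _ := subset_rfl
  sec hg := hg.DX B.metric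
  add hg hh _ _ _ hx hi := Dw_add (vc1 hg hx hi) (vc1 hh hx hi)
  smul c _ hg _ _ _ hx hi := Dw_csmul c (vc1 hg hx hi)

/-- `δ` -/
def HB.opE (B : HB d X ι) : Opr B B where
  F := dX B.w
  dom _ := subset_rfl
  sec hg := hg.dX B.kahler
  add hg hh _ _ _ hx hi := De_add (vc1 hg hx hi) (vc1 hh hx hi)
  smul c _ hg _ _ _ hx hi := De_csmul c (vc1 hg hx hi)

/-- `D' + δ` -/
def HB.opD (B : HB d X ι) : Opr B B where
  F g := DX B.ρ g + dX B.w g
  dom _ := subset_rfl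
  sec hg := (hg.DX B.metric).add (hg.dX B.kahler)
  add {g h} hg hh i e x hx hi := by
    show Dw _ _ _ + De _ _ _ = (Dw _ _ _ + De _ _ _) + (Dw _ _ _ + De _ _ _)
    rw [show (g + h) i e = fun z => g i e z + h i e z from rfl,
      Dw_add (vc1 hg hx hi) (vc1 hh hx hi), De_add (vc1 hg hx hi) (vc1 hh hx hi)]
    abel
  smul c g hg i e x hx hi := by
    show Dw _ _ _ + De _ _ _ = c • (Dw _ _ _ + De _ _ _)
    rw [show (c • g) i e = fun z => c • g i e z from rfl,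
      Dw_csmul c (vc1 hg hx hi), De_csmul c (vc1 hg hx hi), smul_add]

/-- the operators -/
def HB.Dp (B : HB d X ι) : B.S →ₗ[ℂ] B.S := B.opP.op
/-- the operators -/
def HB.Dd (B : HB d X ι) : B.S →ₗ[ℂ] B.S := B.opE.op
/-- the operators -/
def HB.D (B : HB d X ι) : B.S →ₗ[ℂ] B.S := B.opD.op
/-- the operators -/
def HB.dgc (B : HB d X ι) (c : ℕ → ℂ) : B.S →ₗ[ℂ] B.S := (B.opd c).op

theorem HB.D_eq (B : HB d X ι) (s : B.S) : B.D s = B.Dp s + B.Dd s := by
  apply HB.S.ext_f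
  intro i e x hx hi
  rw [HB.S.add_f]
  refine (B.opD.op_at s hx hi).trans ?_
  exact congrArg₂ (· + ·) (B.opP.op_at s hx hi).symm (B.opE.op_at s hx hi).symm

theorem HB.Dp_at (s : B.S) (hx : At e x) (hi : x ∈ B.L.U i) :
    (B.Dp s).f i e (e x) = Dw (wt B.ρ i e) (s.f i e) (e x) := B.opP.op_at s hx hi

theorem HB.Dd_at (s : B.S) (hx : At e x) (hi : x ∈ B.L.U i) :
    (B.Dd s).f i e (e x) = De (B.w e) (s.f i e) (e x) := B.opE.op_at s hx hi

theorem HB.D_at (s : B.S) (hx : At e x) (hi : x ∈ B.L.U i) :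
    (B.D s).f i e (e x) = Dw (wt B.ρ i e) (s.f i e) (e x) + De (B.w e) (s.f i e) (e x) :=
  B.opD.op_at s hx hi

theorem HB.dgc_at (c : ℕ → ℂ) (s : B.S) (hx : At e x) (hi : x ∈ B.L.U i) :
    (B.dgc c s).f i e (e x) = dgl c *ᵥ s.f i e (e x) := (B.opd c).op_at s hx hi

theorem HB.dgc_near (c : ℕ → ℂ) (s : B.S) (hx : At e x) (hi : x ∈ B.L.U i) :
    (B.dgc c s).f i e =ᶠ[𝓝 (e x)] fun z => dgl c *ᵥ s.f i e z := (B.opd c).op_near s hx hi

theorem HB.Dp_dgl (c : ℕ → ℂ) (s : B.S) :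
    B.Dp (B.dgc (fun p => c (p + 1)) s) = B.dgc c (B.Dp s) := by
  apply HB.S.ext_f
  intro i e x hx hi
  rw [HB.Dp_at _ hx hi, HB.dgc_at _ _ hx hi, HB.Dp_at _ hx hi, Dw_congr (HB.dgc_near _ _ hx hi),
    Dw_dgl c (vc1 s.isSec hx hi)]

theorem HB.Dd_dgl (c : ℕ → ℂ) (s : B.S) :
    B.Dd (B.dgc c s) = B.dgc (fun p => c (p + 1)) (B.Dd s) := by
  apply HB.S.ext_f
  intro i e x hx hi
  rw [HB.Dd_at _ hx hi, HB.dgc_at _ _ hx hi, HB.Dd_at _ hx hi, De_congr (HB.dgc_near _ _ hx hi),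
    De_dgl c (vc1 s.isSec hx hi)]

theorem HB.dgc_dgl (c c' : ℕ → ℂ) (s : B.S) : B.dgc c (B.dgc c' s) = B.dgc (fun p => c p * c' p) s := by
  apply HB.S.ext_f
  intro i e x hx hi
  rw [HB.dgc_at _ _ hx hi, HB.dgc_at _ _ hx hi, HB.dgc_at _ _ hx hi, Matrix.mulVec_mulVec, dgl_mul]

theorem HB.Dp_Dp (s : B.S) : B.Dp (B.Dp s) = 0 := by
  apply HB.S.ext_f
  intro i e x hx hi
  rw [HB.Dp_at _ hx hi]
  refine (Dw_congr (B.opP.op_near s hx hi)).trans ?_
  exact Dw_Dw ((B.metric.smooth i e x hx hi).of_le two_le_inf)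
    ((s.isSec.smooth i e x hx hi).mono two_le_inf)

variable [T2Space X] [CompactSpace X]

theorem HB.inner_Dp (s t : B.S) : inner ℂ (B.Dp s) t = inner ℂ s (B.Dd t) := by
  show B.ipB t.f (B.Dp s).f = B.ipB (B.Dd t).f s.f
  rw [HB.ipB_congr (g' := t.f) (h' := DX B.ρ s.f) (fun _ _ _ _ _ => rfl)
      (fun i e x hx hi => HB.Dp_at s hx hi),
    HB.ipB_congr (g' := dX B.w t.f) (h' := s.f) (fun i e x hx hi => HB.Dd_at t hx hi)
      (fun _ _ _ _ _ => rfl)]
  exact (ip_adj' B.metric B.kahler t.isSec s.isSec).symm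

theorem HB.inner_Dd (s t : B.S) : inner ℂ (B.Dd s) t = inner ℂ s (B.Dp t) := by
  rw [← inner_conj_symm, ← HB.inner_Dp, inner_conj_symm]

theorem HB.D_symm (s t : B.S) : inner ℂ (B.D s) t = inner ℂ s (B.D t) := by
  rw [HB.D_eq, HB.D_eq, inner_add_left, inner_add_right, HB.inner_Dp, HB.inner_Dd, add_comm]

theorem HB.inner_dgl (c : ℕ → ℂ) (s t : B.S) :
    inner ℂ (B.dgc c s) t = inner ℂ s (B.dgc (fun p => conj (c p)) t) := by
  show B.ipB t.f (B.dgc c s).f = B.ipB (B.dgc (fun p => conj (c p)) t).f s.f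
  refine intC_congr fun i e x hx hi => ?_
  show hw _ _ _ (t.f i e (e x)) ((B.dgc c s).f i e (e x)) =
    hw _ _ _ ((B.dgc (fun p => conj (c p)) t).f i e (e x)) (s.f i e (e x))
  rw [HB.dgc_at _ _ hx hi, HB.dgc_at _ _ hx hi, hw_dgl]
  simp only [Complex.conj_conj]

end Vale.Agent.P301.H862
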