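import Vale.Agent.P301.H862.Cov
import Vale.Agent.P301.H599.Stmt
import Vale.Agent.P272.K.INT.Dens

/-!
# P301, index theorem: smooth forms of type `(*,0)` with values in a line bundle
-/

open scoped Manifold ContDiff ComplexOrder Topology Matrix
open Vale.Agent.P272.K Vale.Agent.P272.K.C2 Vale.Agent.P299.H954 Vale.Agent.P299.IX
open Vale.Agent.P301.H599

set_option linter.unusedSectionVars false

noncomputable section

namespace Vale.Agent.P301.H862

variable {d : ℕ} {X : Type} [TopologicalSpace X] {ι : Type}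

variable (d X ι) in
/-- families of components of forms of type `(*,0)` -/
abbrev Fam := ι → Chart d X → Cm d → FI d → ℂ

/-- the weight in a chart -/
def wt (ρ : ι → X → ℝ) (i : ι) (e : Chart d X) : Cm d → ℝ := fun z => ρ i (e.symm z)

/-- `D'` -/
def DX (ρ : ι → X → ℝ) (g : Fam d X ι) : Fam d X ι := fun i e => Dw (wt ρ i e) (g i e)

/-- `δ` -/
def dX (w : Chart d X → Cm d → Matrix (Fin d) (Fin d) ℂ) (g : Fam d X ι) : Fam d X ι :=
  fun i e => De (w e) (g i e)

/-- the zeroth order term of BKN -/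
def QX (ρ : ι → X → ℝ) (w : Chart d X → Cm d → Matrix (Fin d) (Fin d) ℂ) (g : Fam d X ι) :
    Fam d X ι := fun i e z => Qw (wt ρ i e) (w e) z (g i e z)

/-- multiplication by a family of functions -/
def mulF (s : ι → X → ℂ) (g : Fam d X ι) : Fam d X ι := fun i e z => s i (e.symm z) • g i e z

/-- the Hermitian product times the volume density -/
def hX (ρ : ι → X → ℝ) (w : Chart d X → Cm d → Matrix (Fin d) (Fin d) ℂ) (g h : Fam d X ι) :
    ι → Chart d X → Cm d → ℂ := fun i e z => hw (wt ρ i e) (w e) z (g i e z) (h i e z)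

/-- the gradient term `Σ w^{b l} ⟨∂̄_b g, ∂̄_l h⟩` times the volume density -/
def gradX (ρ : ι → X → ℝ) (w : Chart d X → Cm d → Matrix (Fin d) (Fin d) ℂ) (g h : Fam d X ι) :
    ι → Chart d X → Cm d → ℂ := fun i e z =>
  ∑ l, ∑ b, (w e z)⁻¹ b l * hw (wt ρ i e) (w e) z (DVb b (g i e) z) (DVb l (h i e) z)

variable [ChartedSpace (Cm d) X]

/-- `g` is a smooth section of `Λ^{*,0} ⊗ L` -/
structure IsSec (L : LineBundle d X ι) (g : Fam d X ι) : Prop where
  smooth : ∀ i e x, At e x → x ∈ L.U i → VC ∞ (g i e) (e x)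
  change : ∀ i j e e' x, At e x → At e' x → x ∈ L.U i → x ∈ L.U j →
    g i e (e x) = (L.g i j x • lam (jacM e e' x)ᵀ) *ᵥ g j e' (e' x)

/-- `D` is a complex density -/
structure IsDens (L : LineBundle d X ι) (D : ι → Chart d X → Cm d → ℂ) : Prop where
  cont : ∀ i e x, At e x → x ∈ L.U i → ContinuousAt (D i e) (e x)
  change : ∀ i j e e' x, At e x → At e' x → x ∈ L.U i → x ∈ L.U j →
    D i e (e x) = ((‖(jacM e e' x).det‖ ^ 2 : ℝ) : ℂ) * D j e' (e' x)

/-- the coordinate change and the transition function -/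
def cc (e e' : Chart d X) : Cm d → Cm d := fun z => e' (e.symm z)

/-- transition function in the chart `e` -/
def cg (L : LineBundle d X ι) (i j : ι) (e : Chart d X) : Cm d → ℂ := fun z => L.g i j (e.symm z)

section

variable [IsManifold 𝓘(ℂ, Cm d) ω X] {L : LineBundle d X ι} {i j : ι} {e e' : Chart d X} {x : X}

theorem trAt (h : At e x) (h' : At e' x) (hi : x ∈ L.U i) (hj : x ∈ L.U j) :
    TrAt (cc e e') (cg L i j e) (e x) where
  hτ := transition h h'
  hγ := by
    have := (L.holo i j e x h hi hj).contDiffAt (n := ω)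
    exact this
  det := jacM_det_ne_zero h h'
  ne := by
    show L.g i j (e.symm (e x)) ≠ 0
    rw [h.left_inv]; exact L.ne_zero i j x hi hj

theorem cc_eq (h : At e x) : cc e e' (e x) = e' x := by
  show e' (e.symm (e x)) = e' x
  rw [h.left_inv]

theorem tm_eq (h : At e x) : tm (cc e e') (cg L i j e) (e x) = L.g i j x • lam (jacM e e' x)ᵀ := by
  show L.g i j (e.symm (e x)) • _ = _
  rw [h.left_inv]
  rfl

/-- near `e x` the point is in all the domains -/
theorem nhds_on (h : At e x) (h' : At e' x) (hi : x ∈ L.U i) (hj : x ∈ L.U j) :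
    ∀ᶠ z in 𝓝 (e x), z ∈ e.target ∧ At e (e.symm z) ∧ At e' (e.symm z) ∧ e.symm z ∈ L.U i ∧
      e.symm z ∈ L.U j := by
  have h1 : ContinuousAt e.symm (e x) := e.continuousAt_symm h.mem_target
  have h2 : ∀ᶠ z in 𝓝 (e x), e.symm z ∈ L.U i :=
    h1.eventually_mem (by rw [h.left_inv]; exact (L.isOpen i).mem_nhds hi)
  have h3 : ∀ᶠ z in 𝓝 (e x), e.symm z ∈ L.U j :=
    h1.eventually_mem (by rw [h.left_inv]; exact (L.isOpen j).mem_nhds hj)
  filter_upwards [h.nhds_at h', h2, h3] with z a b c using ⟨a.1, a.2.1, a.2.2, b, c⟩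

theorem IsSec.ev {g : Fam d X ι} (hg : IsSec L g) (h : At e x) (h' : At e' x) (hi : x ∈ L.U i)
    (hj : x ∈ L.U j) :
    g i e =ᶠ[𝓝 (e x)] fun z => tm (cc e e') (cg L i j e) z *ᵥ g j e' (cc e e' z) := by
  filter_upwards [nhds_on h h' hi hj] with z hz
  obtain ⟨hz1, hz2, hz3, hz4, hz5⟩ := hz
  have h1 := hg.change i j e e' (e.symm z) hz2 hz3 hz4 hz5
  rw [e.right_inv hz1] at h1
  rw [h1]
  have h2 : jacM e e' (e.symm z) = jmat (cc e e') z := by
    rw [jacM_eq, e.right_inv hz1]; rfl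
  rw [h2]
  rfl

theorem IsMetric.ev {ρ : ι → X → ℝ} (hρ : IsMetric L ρ) (h : At e x) (h' : At e' x)
    (hi : x ∈ L.U i) (hj : x ∈ L.U j) :
    wt ρ i e =ᶠ[𝓝 (e x)] fun z => wt ρ j e' (cc e e' z) + Real.log (‖cg L i j e z‖ ^ 2) := by
  filter_upwards [nhds_on h h' hi hj] with z hz
  obtain ⟨hz1, hz2, hz3, hz4, hz5⟩ := hz
  show ρ i (e.symm z) = ρ j (e'.symm (e' (e.symm z))) + _
  rw [hz3.left_inv]
  exact hρ.change i j _ hz4 hz5

theorem IsMetric.smoothAt {ρ : ι → X → ℝ} (hρ : IsMetric L ρ) (h : At e x) (hi : x ∈ L.U i) :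
    ContDiffAt ℝ ∞ (wt ρ i e) (e x) := hρ.smooth i e x h hi

theorem IsSec.smoothAt {g : Fam d X ι} (hg : IsSec L g) (h : At e x) (hi : x ∈ L.U i) :
    VC ∞ (g i e) (e x) := hg.smooth i e x h hi

theorem wtr {w : Chart d X → Cm d → Matrix (Fin d) (Fin d) ℂ} (hw : IsKahler w) (h : At e x)
    (h' : At e' x) : TrAt.WTr (cc e e') (w e) (w e') (e x) := by
  show w e (e x) = (jmat (cc e e') (e x))ᵀ * w e' (cc e e' (e x)) * _
  rw [cc_eq h]
  exact hw.change e e' x h h'

omit [IsManifold 𝓘(ℂ, Cm d) ω X] in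
theorem kat {w : Chart d X → Cm d → Matrix (Fin d) (Fin d) ℂ} (hw : IsKahler w) (h : At e x) :
    KAt (w e) (e x) := by
  have key : ∀ᶠ z in 𝓝 (e x), At e (e.symm z) ∧ e (e.symm z) = z := by
    filter_upwards [h.nhds_target] with z hz using ⟨At.of_target h.1 hz, e.right_inv hz⟩
  refine ⟨?_, ?_, ?_⟩
  · filter_upwards [key] with z hz
    intro a b
    have := hw.smooth e _ hz.1 a b
    rwa [hz.2] at this
  · filter_upwards [key] with z hz
    have := hw.posDef e _ hz.1
    rwa [hz.2] at this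
  · filter_upwards [key] with z hz a b c
    have := hw.closed e _ hz.1 a b c
    rwa [hz.2] at this

theorem le_inf {m : ℕ} : (m : WithTop ℕ∞) ≤ ∞ := by exact_mod_cast le_top

theorem two_le_inf : (2 : WithTop ℕ∞) ≤ ∞ := by norm_cast

theorem IsSec.DX {g : Fam d X ι} (hg : IsSec L g) {ρ : ι → X → ℝ} (hρ : IsMetric L ρ) :
    IsSec L (DX ρ g) where
  smooth i e x h hi := VC_Dw_inf (hρ.smooth i e x h hi) (hg.smooth i e x h hi)
  change i j e e' x h h' hi hj := by
    have h1 := (trAt h h' hi hj).cov_Dw (f := wt ρ i e) (f' := wt ρ j e') (a := g i e)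
      (a' := g j e')
      (by rw [cc_eq h]; exact (hg.smooth j e' x h' hj).mono TrAt.one_le_inf)
      (by rw [cc_eq h]; exact (hρ.smooth j e' x h' hj).of_le TrAt.one_le_inf)
      (hg.ev h h' hi hj) (IsMetric.ev hρ h h' hi hj)
    rw [cc_eq h, tm_eq h] at h1
    exact h1

theorem IsSec.dX {g : Fam d X ι} (hg : IsSec L g)
    {w : Chart d X → Cm d → Matrix (Fin d) (Fin d) ℂ} (hw : IsKahler w) : IsSec L (dX w g) where
  smooth i e x h hi := VC_De_inf (kat hw h) (hg.smooth i e x h hi)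
  change i j e e' x h h' hi hj := by
    have h1 := (trAt h h' hi hj).cov_De (w := w e) (w' := w e') (wtr hw h h') (a := g i e)
      (a' := g j e')
      (by rw [cc_eq h]; exact (hg.smooth j e' x h' hj).mono TrAt.one_le_inf)
      (hg.ev h h' hi hj)
    rw [cc_eq h, tm_eq h] at h1
    exact h1

theorem contDiffAt_cHess {f : Cm d → ℝ} {z : Cm d} (hf : ContDiffAt ℝ ∞ f z) (l b : Fin d) :
    ContDiffAt ℝ ∞ (fun y => cHess f y l b) z :=
  C2.contDiffAt_dz l (C2.contDiffAt_dzb b (contDiffAt_ofReal hf) inf_add_one) inf_add_one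

theorem VC_Qw {w : Cm d → Matrix (Fin d) (Fin d) ℂ} {f : Cm d → ℝ} {a : Cm d → FI d → ℂ} {z : Cm d}
    (h : KAt w z) (hf : ContDiffAt ℝ ∞ f z) (ha : VC ∞ a z) :
    VC ∞ (fun y => Qw f w y (a y)) z := by
  refine VC.sum _ fun l _ => VC.sum _ fun b _ => VC.smul (contDiffAt_cHess hf l b) ?_
  exact VC.mulVec (MC_epd h b) (VC_constMul _ ha)

theorem IsSec.QX {g : Fam d X ι} (hg : IsSec L g) {ρ : ι → X → ℝ} (hρ : IsMetric L ρ)
    {w : Chart d X → Cm d → Matrix (Fin d) (Fin d) ℂ} (hw : IsKahler w) : IsSec L (QX ρ w g) where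
  smooth i e x h hi := VC_Qw (kat hw h) (hρ.smooth i e x h hi) (hg.smooth i e x h hi)
  change i j e e' x h h' hi hj := by
    have h1 := (trAt h h' hi hj).cov_Qw (w := w e) (w' := w e') (wtr hw h h')
      (f := wt ρ i e) (f' := wt ρ j e')
      (by rw [cc_eq h]; exact (hρ.smooth j e' x h' hj).of_le two_le_inf)
      (IsMetric.ev hρ h h' hi hj) (g j e' (e' x))
    rw [cc_eq h, tm_eq h, ← hg.change i j e e' x h h' hi hj] at h1
    exact h1

/-- a family of functions on the `U i`, smooth, with transition functions those of `L'` -/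
structure IsSc (L : LineBundle d X ι) (s : ι → X → ℂ) : Prop where
  smooth : ∀ i (e : Chart d X) x, At e x → x ∈ L.U i →
    ContDiffAt ℝ ∞ (fun z => s i (e.symm z)) (e x)
  change : ∀ i j x, x ∈ L.U i → x ∈ L.U j → s i x = L.g i j x * s j x

end

end Vale.Agent.P301.H862
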