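import Vale.Agent.P299.H954.IX.Loc

/-!
# P301, index theorem: local calculus with an arbitrary weight

`w` is the coefficient matrix of a Kähler metric in a chart and `f` the weight of a Hermitian
metric on a line bundle; `D' = ∂ - ∂f ∧` and `δ` is the adjoint.
-/

open scoped Manifold ContDiff ComplexOrder Topology Matrix
open Vale.Agent.P272.K Vale.Agent.P272.K.C2 Vale.Agent.P299.H954 Vale.Agent.P299.IX

set_option linter.unusedSectionVars false

noncomputable section

namespace Vale.Agent.P301.H862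

variable {n : ℕ}

/-- the weight as a complex valued function -/
def cw (f : Cm n → ℝ) : Cm n → ℂ := fun y => (f y : ℂ)

/-- `D' = Σ ε_l (∂_l - ∂_l f)` -/
def Dw (f : Cm n → ℝ) (a : Cm n → FI n → ℂ) (z : Cm n) : FI n → ℂ :=
  ∑ l, eps l *ᵥ (DV l a z - dz l (cw f) z • a z)

/-- Hermitian product with weight `f` times volume density -/
def hw (f : Cm n → ℝ) (w : Cm n → Matrix (Fin n) (Fin n) ℂ) (z : Cm n) (u v : FI n → ℂ) : ℂ :=
  (Real.exp (-f z) : ℂ) * hp 0 w z u v

/-- the zeroth order term of BKN -/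
def Qw (f : Cm n → ℝ) (w : Cm n → Matrix (Fin n) (Fin n) ℂ) (z : Cm n) (u : FI n → ℂ) :
    FI n → ℂ :=
  ∑ l, ∑ b, cHess f z l b • (epd b w z *ᵥ (eps l *ᵥ u))

variable {w : Cm n → Matrix (Fin n) (Fin n) ℂ} {f : Cm n → ℝ} {z : Cm n}

theorem hw_add_left (u u' v : FI n → ℂ) : hw f w z (u + u') v = hw f w z u v + hw f w z u' v := by
  simp only [hw, hp_add_left, mul_add]

theorem hw_add_right (u v v' : FI n → ℂ) : hw f w z u (v + v') = hw f w z u v + hw f w z u v' := by
  simp only [hw, hp_add_right, mul_add]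

theorem hw_smul_left (c : ℂ) (u v : FI n → ℂ) : hw f w z (c • u) v = c * hw f w z u v := by
  simp only [hw, hp_smul_left]; ring

theorem hw_smul_right (c : ℂ) (u v : FI n → ℂ) :
    hw f w z u (c • v) = (starRingEnd ℂ) c * hw f w z u v := by
  simp only [hw, hp_smul_right]; ring

theorem hw_neg_left (u v : FI n → ℂ) : hw f w z (-u) v = -hw f w z u v := by
  simp only [hw, hp_neg_left]; ring

theorem hw_neg_right (u v : FI n → ℂ) : hw f w z u (-v) = -hw f w z u v := by
  simp only [hw, hp_neg_right]; ring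

theorem hw_sub_left (u u' v : FI n → ℂ) : hw f w z (u - u') v = hw f w z u v - hw f w z u' v := by
  rw [sub_eq_add_neg, hw_add_left, hw_neg_left, sub_eq_add_neg]

theorem hw_sub_right (u v v' : FI n → ℂ) : hw f w z u (v - v') = hw f w z u v - hw f w z u v' := by
  rw [sub_eq_add_neg, hw_add_right, hw_neg_right, sub_eq_add_neg]

theorem hw_zero_left (v : FI n → ℂ) : hw f w z 0 v = 0 := by
  simp [hw, hp_zero_left]

theorem hw_zero_right (u : FI n → ℂ) : hw f w z u 0 = 0 := by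
  have := hw_smul_right (f := f) (w := w) (z := z) 0 u 0
  simpa using this

theorem hw_sum_left {τ : Type*} (s : Finset τ) (F : τ → FI n → ℂ) (v : FI n → ℂ) :
    hw f w z (∑ i ∈ s, F i) v = ∑ i ∈ s, hw f w z (F i) v := by
  simp only [hw, hp_sum_left, Finset.mul_sum]

theorem hw_sum_right {τ : Type*} (s : Finset τ) (F : τ → FI n → ℂ) (u : FI n → ℂ) :
    hw f w z u (∑ i ∈ s, F i) = ∑ i ∈ s, hw f w z u (F i) := by
  simp only [hw, hp_sum_right, Finset.mul_sum]

theorem hw_eps (h : KAt w z) (l : Fin n) (u v : FI n → ℂ) :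
    hw f w z (eps l *ᵥ u) v = hw f w z u (epd l w z *ᵥ v) := by
  simp only [hw, hp_eps h]

theorem hp_zero_conj (h : KAt w z) (u v : FI n → ℂ) :
    (starRingEnd ℂ) (hp 0 w z u v) = hp 0 w z v u := by
  have h1 : (Ld w z).IsHermitian := (lam_posDef h.posz.inv).isHermitian
  have h2 : (starRingEnd ℂ) (w z).det = (w z).det := by
    rw [← C2.det_re_eq h.posz, Complex.conj_ofReal]
  simp only [hp, rho, map_mul, map_pow, h2, pr_conj]
  rw [pr_mulVec_right, h1.eq]

theorem hw_conj (h : KAt w z) (u v : FI n → ℂ) :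
    (starRingEnd ℂ) (hw f w z u v) = hw f w z v u := by
  rw [hw, map_mul, Complex.conj_ofReal, hp_zero_conj h, hw]

theorem hw_eps_right (h : KAt w z) (l : Fin n) (u v : FI n → ℂ) :
    hw f w z u (eps l *ᵥ v) = hw f w z (epd l w z *ᵥ u) v := by
  rw [← hw_conj h, hw_eps h, hw_conj h]

/-- `hw` is positive definite -/
theorem hw_pos (h : KAt w z) {u : FI n → ℂ} (hu : u ≠ 0) : 0 < (hw f w z u u).re := by
  have h1 : (Ld w z).PosDef := lam_posDef h.posz.inv
  have h2 := (Matrix.posDef_iff_dotProduct_mulVec.1 h1).2 hu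
  have h3 : hw f w z u u = ((Real.exp (-f z) * (w z).det.re : ℝ) : ℂ) *
      (star u ⬝ᵥ (Ld w z *ᵥ u)) := by
    rw [hw, hp, rho, zero_add, pow_one]
    have : pr (Ld w z *ᵥ u) u = star u ⬝ᵥ (Ld w z *ᵥ u) := by
      simp only [pr, dotProduct, Pi.star_apply]
      exact Finset.sum_congr rfl fun i _ => mul_comm _ _
    rw [this, Complex.ofReal_mul, C2.det_re_eq h.posz]
    ring
  rw [h3, Complex.re_ofReal_mul]
  have h4 : 0 < (star u ⬝ᵥ (Ld w z *ᵥ u)).re := (Complex.lt_def.1 h2).1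
  have h5 := C2.det_re_pos h.posz
  have h6 := Real.exp_pos (-f z)
  positivity

theorem hw_nonneg (h : KAt w z) (u : FI n → ℂ) : 0 ≤ (hw f w z u u).re := by
  by_cases hu : u = 0
  · rw [hu, hw_zero_left, Complex.zero_re]
  · exact (hw_pos h hu).le

theorem cw_contDiffAt {m : WithTop ℕ∞} (hf : ContDiffAt ℝ m f z) : ContDiffAt ℝ m (cw f) z :=
  contDiffAt_ofReal hf

theorem contDiffAt_expw {m : WithTop ℕ∞} (hf : ContDiffAt ℝ m f z) :
    ContDiffAt ℝ m (fun y => (Real.exp (-f y) : ℂ)) z :=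
  contDiffAt_ofReal hf.neg.exp

theorem dz_expw (hf : ContDiffAt ℝ 1 f z) (l : Fin n) :
    dz l (fun y => (Real.exp (-f y) : ℂ)) z = -dz l (cw f) z * (Real.exp (-f z) : ℂ) := by
  have hd : DifferentiableAt ℝ (fun y => -f y) z := (hf.differentiableAt (by norm_num)).neg
  have h1 := C2.dz_comp_real l (u := fun y => -f y) (Real.hasDerivAt_exp (-f z)) hd
  rw [h1]
  have h2 : (fun y => ((-f y : ℝ) : ℂ)) = fun y => -(cw f y) := by
    funext y; simp [cw]
  rw [h2, C2.dz_neg]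
  ring

theorem contDiffAt_hp {k : ℕ} (h : KAt w z) {a b : Cm n → FI n → ℂ} {m : ℕ} (ha : VC m a z)
    (hb : VC m b z) : ContDiffAt ℝ m (fun y => hp k w y (a y) (b y)) z := by
  have hle : (m : WithTop ℕ∞) ≤ ∞ := by exact_mod_cast le_top
  exact ((contDiffAt_rho h).of_le hle).mul
    (contDiffAt_pr (VC.mulVec ((MC_Ld h).mono hle) ha) hb)

/-- derivative of `hw` in terms of the derivative of `hp` -/
theorem dz_hw (h : KAt w z) (hf : ContDiffAt ℝ 1 f z) {a b : Cm n → FI n → ℂ} (ha : VC 1 a z)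
    (hb : VC 1 b z) (l : Fin n) :
    dz l (fun y => hw f w y (a y) (b y)) z =
      (Real.exp (-f z) : ℂ) * dz l (fun y => hp 0 w y (a y) (b y)) z
        - dz l (cw f) z * hw f w z (a z) (b z) := by
  have one := one_ne_zero_inf
  have h1 : ContDiffAt ℝ 1 (fun y => hp 0 w y (a y) (b y)) z := by
    exact_mod_cast contDiffAt_hp (m := 1) (k := 0) h (by exact_mod_cast ha) (by exact_mod_cast hb)
  simp only [hw]
  rw [C2.dz_mul l ((contDiffAt_expw hf).differentiableAt one) (h1.differentiableAt one),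
    dz_expw hf]
  ring

theorem Dp_zero (a : Cm n → FI n → ℂ) (z : Cm n) : Dp 0 w a z = ∑ l, eps l *ᵥ DV l a z := by
  simp only [Dp, Nat.cast_zero, zero_mul, zero_smul, add_zero]

theorem Qk_zero (u : FI n → ℂ) : Qk 0 w z u = 0 := by
  simp only [Qk, Nat.cast_zero, zero_mul, neg_zero, zero_smul, Finset.sum_const_zero]

theorem Dw_eq (a : Cm n → FI n → ℂ) (z : Cm n) :
    Dw f a z = Dp 0 w a z - ∑ l, dz l (cw f) z • (eps l *ᵥ a z) := by
  rw [Dp_zero, Dw, ← Finset.sum_sub_distrib]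
  refine Finset.sum_congr rfl fun l _ => ?_
  rw [Matrix.mulVec_sub, Matrix.mulVec_smul]

/-- **first divergence identity**, with a weight -/
theorem div_one_w (h : KAt w z) (hf : ContDiffAt ℝ 1 f z) {a b : Cm n → FI n → ℂ} (ha : VC 1 a z)
    (hb : VC 1 b z) :
    ∑ l, dz l (fun y => hw f w y (eps l *ᵥ a y) (b y)) z =
      hw f w z (Dw f a z) (b z) - hw f w z (a z) (De w b z) := by
  simp only [dz_hw h hf (VC_constMul (eps _) ha) hb]
  rw [Finset.sum_sub_distrib, ← Finset.mul_sum, div_one h ha hb, Dw_eq (w := w), hw_sub_left,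
    hw_sum_left]
  simp only [hw_smul_left]
  simp only [hw]
  ring

theorem VC_Dw {a : Cm n → FI n → ℂ} {q : ℕ} (hf : ContDiffAt ℝ (q + 1 : ℕ) f z)
    (ha : VC (q + 1) a z) : VC q (Dw f a) z := by
  refine VC.sum _ fun l _ => VC_constMul _ ?_
  have h1 : VC (q : WithTop ℕ∞) (fun y => dz l (cw f) y • a y) z := by
    refine VC.smul (contDiffAt_dz l (cw_contDiffAt hf) (by push_cast; exact le_rfl)) ?_
    exact ha.mono (by exact_mod_cast le_self_add)
  intro i
  exact (ha.DV le_rfl i).sub (h1 i)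

theorem VC_Dw_inf {a : Cm n → FI n → ℂ} (hf : ContDiffAt ℝ ∞ f z)
    (ha : VC ∞ a z) : VC ∞ (Dw f a) z := by
  refine VC.sum _ fun l _ => VC_constMul _ ?_
  have h1 : VC ∞ (fun y => dz l (cw f) y • a y) z :=
    VC.smul (contDiffAt_dz l (cw_contDiffAt hf) inf_add_one) ha
  intro i
  exact (ha.DV inf_add_one i).sub (h1 i)

theorem VC_De_inf {a : Cm n → FI n → ℂ} (h : KAt w z) (ha : VC ∞ a z) : VC ∞ (De w a) z :=
  (VC.sum _ fun b _ => VC.mulVec (MC_epd h b) (ha.DVb inf_add_one)).neg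

theorem DVb_smul' {k : Fin n} {ι : Type*} {g : Cm n → ℂ} {a : Cm n → ι → ℂ}
    (hg : ContDiffAt ℝ 1 g z) (ha : VC 1 a z) :
    DVb k (fun y => g y • a y) z = dzb k g z • a z + g z • DVb k a z := by
  ext i
  exact dzb_mul k (hg.differentiableAt one_ne_zero_inf) (ha.d one_ne_zero_inf i)

/-- **the Laplacian** `D'δ + δD'`, with a weight -/
theorem lap_w (h : KAt w z) (hf : ContDiffAt ℝ 2 f z) {a : Cm n → FI n → ℂ} (ha : VC 2 a z) :
    Dw f (De w a) z + De w (Dw f a) z =
      (Dp 0 w (De w a) z + De w (Dp 0 w a) z) + Qw f w z (a z) +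
        ∑ l, dz l (cw f) z • upb l w a z := by
  have ha1 : VC 1 a z := ha.mono (by norm_num)
  have hf1 : ∀ l, ContDiffAt ℝ 1 (fun y => dz l (cw f) y) z := fun l =>
    contDiffAt_dz l (cw_contDiffAt hf) (by norm_num)
  have hterm : ∀ l, VC 1 (fun y => dz l (cw f) y • (eps l *ᵥ a y)) z := fun l =>
    VC.smul (hf1 l) (VC_constMul _ ha1)
  have hS : VC 1 (fun y => ∑ l, dz l (cw f) y • (eps l *ᵥ a y)) z := VC.sum _ fun l _ => hterm l
  have hDp : VC 1 (Dp 0 w a) z := by
    have := VC_Dp (k := 0) (q := 1) h (a := a) (by exact_mod_cast ha)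
    exact_mod_cast this
  -- `δ (D_f a)`
  have e1 : De w (Dw f a) z = De w (Dp 0 w a) z -
      De w (fun y => ∑ l, dz l (cw f) y • (eps l *ᵥ a y)) z := by
    have h1 : Dw f a = fun y => Dp 0 w a y + -∑ l, dz l (cw f) y • (eps l *ᵥ a y) := by
      funext y; rw [Dw_eq (w := w), sub_eq_add_neg]
    rw [h1]
    have h2 : ∀ b, epd b w z *ᵥ DVb b (fun y => Dp 0 w a y + -∑ l, dz l (cw f) y • (eps l *ᵥ a y)) z =
        epd b w z *ᵥ DVb b (Dp 0 w a) z -
          epd b w z *ᵥ DVb b (fun y => ∑ l, dz l (cw f) y • (eps l *ᵥ a y)) z := by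
      intro b
      rw [DVb_add hDp hS.neg, DVb_neg, Matrix.mulVec_add, Matrix.mulVec_neg, sub_eq_add_neg]
    simp only [De, h2, Finset.sum_sub_distrib]
    abel
  have e2 : ∀ b, DVb b (fun y => ∑ l, dz l (cw f) y • (eps l *ᵥ a y)) z =
      ∑ l, (cHess f z l b • (eps l *ᵥ a z) + dz l (cw f) z • (eps l *ᵥ DVb b a z)) := by
    intro b
    rw [DVb_sum _ fun l _ => hterm l]
    refine Finset.sum_congr rfl fun l _ => ?_
    rw [DVb_smul' (hf1 l) (VC_constMul _ ha1), DVb_constMul _ ha1]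
    congr 2
    have h1 := dz_dzb_comm l b (cw_contDiffAt hf)
    rw [← h1]
    rfl
  have e3 : De w (fun y => ∑ l, dz l (cw f) y • (eps l *ᵥ a y)) z =
      -(Qw f w z (a z) + ∑ l, ∑ b, dz l (cw f) z • (epd b w z *ᵥ (eps l *ᵥ DVb b a z))) := by
    simp only [De, e2, Qw]
    rw [neg_inj, ← Finset.sum_add_distrib]
    have h1 : ∀ b, epd b w z *ᵥ ∑ l, (cHess f z l b • (eps l *ᵥ a z) +
        dz l (cw f) z • (eps l *ᵥ DVb b a z)) = ∑ l, (cHess f z l b • (epd b w z *ᵥ (eps l *ᵥ a z)) +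
          dz l (cw f) z • (epd b w z *ᵥ (eps l *ᵥ DVb b a z))) := by
      intro b
      rw [Matrix.mulVec_sum]
      refine Finset.sum_congr rfl fun l _ => ?_
      rw [Matrix.mulVec_add, Matrix.mulVec_smul, Matrix.mulVec_smul]
    simp only [h1]
    rw [Finset.sum_comm]
    refine Finset.sum_congr rfl fun l _ => ?_
    rw [Finset.sum_add_distrib]
  have e4 : Dw f (De w a) z = Dp 0 w (De w a) z +
      ∑ l, ∑ b, dz l (cw f) z • (eps l *ᵥ (epd b w z *ᵥ DVb b a z)) := by
    rw [Dw_eq (w := w), sub_eq_add_neg, ← Finset.sum_neg_distrib]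
    congr 1
    refine Finset.sum_congr rfl fun l _ => ?_
    simp only [De, Matrix.mulVec_neg, Matrix.mulVec_sum, smul_neg, neg_neg, Finset.smul_sum]
  have e5 : ∀ l, dz l (cw f) z • upb l w a z = ∑ b, (dz l (cw f) z • (eps l *ᵥ (epd b w z *ᵥ DVb b a z))
      + dz l (cw f) z • (epd b w z *ᵥ (eps l *ᵥ DVb b a z))) := by
    intro l
    rw [upb, Finset.smul_sum]
    refine Finset.sum_congr rfl fun b _ => ?_
    rw [← smul_add, Matrix.mulVec_mulVec, Matrix.mulVec_mulVec, ← Matrix.add_mulVec, car_epd,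
      Matrix.smul_mulVec, Matrix.one_mulVec]
  rw [e4, e1, e3]
  simp only [e5, Finset.sum_add_distrib]
  abel

/-- **second divergence identity** (BKN), with a weight -/
theorem div_two_w (h : KAt w z) (hf : ContDiffAt ℝ 2 f z) {a c : Cm n → FI n → ℂ} (ha : VC 2 a z)
    (hc : VC 1 c z) :
    ∑ l, dz l (fun y => hw f w y (upb l w a y) (c y)) z =
      -hw f w z (Dw f (De w a) z + De w (Dw f a) z) (c z) + hw f w z (Qw f w z (a z)) (c z)
        + ∑ l, ∑ b, (w z)⁻¹ b l * hw f w z (DVb b a z) (DVb l c z) := by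
  have hup : ∀ l, VC 1 (upb l w a) z := fun l => by
    have := VC_upb (l := l) (q := 1) h (a := a) (by exact_mod_cast ha)
    exact_mod_cast this
  have hf1 : ContDiffAt ℝ 1 f z := hf.of_le (by norm_num)
  simp only [dz_hw h hf1 (hup _) hc]
  rw [Finset.sum_sub_distrib, ← Finset.mul_sum, div_two h ha hc, lap_w h hf ha]
  simp only [hw_add_left, hw_sum_left, hw_smul_left, Qk_zero, hp_zero_left]
  have e1 : ∑ l, ∑ b, (w z)⁻¹ b l * hw f w z (DVb b a z) (DVb l c z) =
      (Real.exp (-f z) : ℂ) * ∑ l, ∑ b, (w z)⁻¹ b l * hp 0 w z (DVb b a z) (DVb l c z) := by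
    rw [Finset.mul_sum]
    refine Finset.sum_congr rfl fun l _ => ?_
    rw [Finset.mul_sum]
    refine Finset.sum_congr rfl fun b _ => ?_
    rw [hw]; ring
  rw [e1]
  simp only [hw, hp_add_left]
  ring

/-- `D'² = 0` -/
theorem Dw_Dw (hf : ContDiffAt ℝ 2 f z) {a : Cm n → FI n → ℂ} (ha : VC 2 a z) :
    Dw f (Dw f a) z = 0 := by
  have ha1 : VC 1 a z := ha.mono (by norm_num)
  have hf1 : ∀ l, ContDiffAt ℝ 1 (fun y => dz l (cw f) y) z := fun l =>
    contDiffAt_dz l (cw_contDiffAt hf) (by norm_num)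
  have hDV : ∀ b, VC 1 (DV b a) z := fun b => ha.DV (by norm_num)
  have hsm : ∀ l, VC 1 (fun y => dz l (cw f) y • a y) z := fun l => VC.smul (hf1 l) ha1
  have hsub : ∀ l, VC 1 (fun y => DV l a y - dz l (cw f) y • a y) z := fun l i =>
    (hDV l i).sub (hsm l i)
  have e2 : ∀ b, DV b (Dw f a) z = ∑ l, eps l *ᵥ (DV b (DV l a) z -
      (dz b (dz l (cw f)) z • a z + dz l (cw f) z • DV b a z)) := by
    intro b
    have : Dw f a = fun y => ∑ l, eps l *ᵥ (DV l a y - dz l (cw f) y • a y) := rfl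
    rw [this, DV_sum _ fun l _ => VC_constMul _ (hsub l)]
    refine Finset.sum_congr rfl fun l _ => ?_
    rw [DV_constMul _ (hsub l)]
    congr 1
    have h1 : (fun y => DV l a y - dz l (cw f) y • a y) =
        fun y => DV l a y + -(dz l (cw f) y • a y) := by
      funext y; rw [sub_eq_add_neg]
    rw [h1, DV_add (hDV l) (hsm l).neg, DV_neg, DV_smul (hf1 l) ha1, sub_eq_add_neg]
  have e3 : Dw f (Dw f a) z = ∑ b, ∑ l, eps b *ᵥ (eps l *ᵥ (DV b (DV l a) z -
      (dz b (dz l (cw f)) z • a z + dz l (cw f) z • DV b a z) -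
      dz b (cw f) z • (DV l a z - dz l (cw f) z • a z))) := by
    have : Dw f (Dw f a) z = ∑ b, eps b *ᵥ (DV b (Dw f a) z - dz b (cw f) z • Dw f a z) := rfl
    rw [this]
    refine Finset.sum_congr rfl fun b _ => ?_
    rw [e2, Dw, Finset.smul_sum, ← Finset.sum_sub_distrib, Matrix.mulVec_sum]
    refine Finset.sum_congr rfl fun l _ => ?_
    rw [← Matrix.mulVec_smul, ← Matrix.mulVec_sub]
  rw [e3]
  refine sum_eps_symm' fun b l => ?_
  have h1 : DV b (DV l a) z = DV l (DV b a) z := by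
    ext i; exact dz_dz_comm b l (ha i)
  have h2 : dz b (dz l (cw f)) z = dz l (dz b (cw f)) z := dz_dz_comm b l (cw_contDiffAt hf)
  rw [h1, h2]
  simp only [smul_sub, smul_smul]
  rw [show dz b (cw f) z * dz l (cw f) z = dz l (cw f) z * dz b (cw f) z by ring]
  abel

theorem sum_gram_nonneg (h : KAt w z) {H : Matrix (Fin n) (Fin n) ℂ} (hH : H.PosSemidef)
    (x : Fin n → FI n → ℂ) : 0 ≤ (∑ l, ∑ b, H l b * hw f w z (x l) (x b)).re := by
  obtain ⟨B, rfl⟩ := exists_factor hH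
  have : ∑ l, ∑ b, (Bᴴ * B) l b * hw f w z (x l) (x b) =
      ∑ c, hw f w z (∑ l, star (B c l) • x l) (∑ l, star (B c l) • x l) := by
    simp only [hw_sum_left, hw_sum_right, hw_smul_left, hw_smul_right, Matrix.mul_apply,
      Matrix.conjTranspose_apply, Finset.sum_mul]
    have h1 : ∀ l, ∑ b, ∑ c, star (B c l) * B c b * hw f w z (x l) (x b) =
        ∑ c, ∑ b, star (B c l) * B c b * hw f w z (x l) (x b) := fun l => Finset.sum_comm
    simp only [h1]
    rw [Finset.sum_comm]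
    refine Finset.sum_congr rfl fun c _ => ?_
    rw [Finset.sum_comm]
    refine Finset.sum_congr rfl fun b _ => ?_
    rw [Finset.mul_sum]
    refine Finset.sum_congr rfl fun l _ => ?_
    have h2 : (starRingEnd ℂ) (star (B c b)) = B c b := star_star _
    rw [h2]
    ring
  rw [this, Complex.re_sum]
  exact Finset.sum_nonneg fun c _ => hw_nonneg h _

theorem sum_w_epd (h : KAt w z) (l : Fin n) : ∑ b, w z l b • epd b w z = iot l := by
  simp only [epd, Finset.smul_sum, smul_smul]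
  rw [Finset.sum_comm]
  have h1 : ∀ m, ∑ b, (w z l b * (w z)⁻¹ b m) • iot m = (w z * (w z)⁻¹) l m • iot m := by
    intro m
    rw [← Finset.sum_smul, Matrix.mul_apply]
  simp only [h1, Matrix.mul_nonsing_inv _ h.unit, Matrix.one_apply, ite_smul, one_smul, zero_smul]
  simp

theorem sum_w_gram_le (h : KAt w z) (u : FI n → ℂ) :
    (∑ l, ∑ b, w z l b * hw f w z (eps l *ᵥ u) (eps b *ᵥ u)).re ≤ n * (hw f w z u u).re := by
  have h1 : ∀ l b, w z l b * hw f w z (eps l *ᵥ u) (eps b *ᵥ u) =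
      w z l b * ((w z)⁻¹ b l * hw f w z u u) -
        (w z)ᵀ b l * hw f w z (epd b w z *ᵥ u) (epd l w z *ᵥ u) := by
    intro l b
    have h2 : hw f w z (eps l *ᵥ u) (eps b *ᵥ u) + hw f w z (epd b w z *ᵥ u) (epd l w z *ᵥ u) =
        (w z)⁻¹ b l * hw f w z u u := by
      rw [hw_eps_right h, ← hw_eps h, ← hw_add_left, Matrix.mulVec_mulVec, Matrix.mulVec_mulVec,
        ← Matrix.add_mulVec, add_comm, car_epd, Matrix.smul_mulVec, Matrix.one_mulVec, hw_smul_left]
    rw [← h2, Matrix.transpose_apply]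
    ring
  simp only [h1, Finset.sum_sub_distrib, ← mul_assoc]
  have h2 : ∑ l, ∑ b, w z l b * (w z)⁻¹ b l * hw f w z u u = n * hw f w z u u := by
    have h3 : ∀ l, ∑ b, w z l b * (w z)⁻¹ b l * hw f w z u u = hw f w z u u := by
      intro l
      rw [← Finset.sum_mul, ← Matrix.mul_apply, Matrix.mul_nonsing_inv _ h.unit,
        Matrix.one_apply_eq, one_mul]
    simp only [h3, Finset.sum_const, Finset.card_univ, Fintype.card_fin, nsmul_eq_mul]
  have h3 : 0 ≤ (∑ b, ∑ l, (w z)ᵀ b l * hw f w z (epd b w z *ᵥ u) (epd l w z *ᵥ u)).re :=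
    sum_gram_nonneg h h.posz.posSemidef.transpose _
  rw [h2, Finset.sum_comm, Complex.sub_re, ← Complex.ofReal_natCast, Complex.re_ofReal_mul]
  linarith

/-- lower bound of the zeroth order term -/
theorem Qw_lower (h : KAt w z) {ε : ℝ} (hε : 0 ≤ ε)
    (hf : (cHess f z + (ε : ℂ) • w z).PosSemidef) (u : FI n → ℂ) :
    -(ε * n * (hw f w z u u).re) ≤ (hw f w z (Qw f w z u) u).re := by
  have h1 : hw f w z (Qw f w z u) u =
      ∑ l, ∑ b, (cHess f z + (ε : ℂ) • w z) l b * hw f w z (eps l *ᵥ u) (eps b *ᵥ u) -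
        (ε : ℂ) * ∑ l, ∑ b, w z l b * hw f w z (eps l *ᵥ u) (eps b *ᵥ u) := by
    rw [Qw, hw_sum_left, Finset.mul_sum, ← Finset.sum_sub_distrib]
    refine Finset.sum_congr rfl fun l _ => ?_
    rw [hw_sum_left, Finset.mul_sum, ← Finset.sum_sub_distrib]
    refine Finset.sum_congr rfl fun b _ => ?_
    rw [hw_smul_left, ← hw_eps_right h, Matrix.add_apply, Matrix.smul_apply, smul_eq_mul]
    ring
  have h2 := sum_gram_nonneg (f := f) h hf (fun l => eps l *ᵥ u)
  have h3 := sum_w_gram_le (f := f) h u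
  rw [h1, Complex.sub_re, Complex.re_ofReal_mul]
  nlinarith

end Vale.Agent.P301.H862
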